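import Vale.Agent.P145.FK.Signed

/-!
P145, block K1: the bridge between the sums over magnitudes, signs and medial vertices and the
sums over signed heights with zero boundary conditions.
-/

namespace Vale.Agent.P145.FK

open Finset
open scoped Classical

namespace Net

variable {V F E : Type*} {K : ℕ}

section
variable [Fintype V] [Fintype F] [Fintype E]

lemma zbi_prod (N : Net V F E) (S : Set F) (x : Cfg V F E K) :
    N.zbi S x = (∏ i, (if N.inD S i then (1 : ℝ) else if (x.1 i : ℕ) = 0 then 1 else 0)) *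
      ∏ e, (if N.inE S e then (1 : ℝ) else if x.2 e = false then 1 else 0) := by
  by_cases h : N.zb S x
  · have h1 : N.zbi S x = 1 := if_pos h
    rw [h1, Finset.prod_eq_one, Finset.prod_eq_one, mul_one]
    · intro e _
      by_cases he : N.inE S e
      · rw [if_pos he]
      · rw [if_neg he, if_pos (h.2 e he)]
    · intro i _
      by_cases hi : N.inD S i
      · rw [if_pos hi]
      · rw [if_neg hi, if_pos (h.1 i hi)]
  · have h1 : N.zbi S x = 0 := if_neg h
    rw [h1]
    unfold zb at h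
    by_cases h2 : ∀ i, ¬ N.inD S i → (x.1 i : ℕ) = 0
    · have h3 : ¬ ∀ e, ¬ N.inE S e → x.2 e = false := fun h' => h ⟨h2, h'⟩
      push Not at h3
      obtain ⟨e, he, hx⟩ := h3
      have : (∏ e, (if N.inE S e then (1 : ℝ) else if x.2 e = false then 1 else 0)) = 0 :=
        Finset.prod_eq_zero (Finset.mem_univ e) (by rw [if_neg he, if_neg hx])
      rw [this, mul_zero]
    · push Not at h2
      obtain ⟨i, hi, hx⟩ := h2
      have : (∏ i, (if N.inD S i then (1 : ℝ) else if (x.1 i : ℕ) = 0 then 1 else 0)) = 0 :=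
        Finset.prod_eq_zero (Finset.mem_univ i) (by rw [if_neg hi, if_neg hx])
      rw [this, zero_mul]

/-- Factorisation of one term. -/
lemma term_eq (N : Net V F E) (t : ℝ) (S : Set F) (a : V ⊕ F → Fin (K + 1)) (ω : E → Bool)
    (s : V ⊕ F → Bool) (g : ℝ) :
    N.jw t κ6 (β6 t) (a, ω) * N.cst (act (a, ω)) s * (N.zbi S (a, ω) * g)
      = (∏ i, N.cS S i (a i, s i)) *
        (((if N.adm a then (1 : ℝ) else 0) * (∏ e, N.wE t a e) * N.CV a s) *
        ((∏ e, N.cE t S s e (ω e)) * g)) := by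
  rw [zbi_prod, cst_act]
  unfold jw mw cS cE CV
  simp only [Finset.prod_mul_distrib]
  ring

omit [Fintype V] [Fintype F] [Fintype E] in
lemma img_eq (N : Net V F E) (S : Set F) (a : V ⊕ F → Fin (K + 1)) (ω : E → Bool)
    (s : V ⊕ F → Bool) :
    N.img S (a, ω) s = toCf (fun i => pv (V := V) S i (a i, s i))
      (fun e => N.pe S (fun e => (a (.inl (N.u e)) : ℕ) = 0 ∧ (a (.inl (N.v e)) : ℕ) = 0) e (ω e))
      := by
  refine FC.Cf.ext rfl rfl ?_
  funext e
  rw [Bool.eq_iff_iff]
  have h1 := img_w_true (N := N) (S := S) (x := (a, ω)) (s := s) (e := e)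
  have h2 := pe_true (N := N) (S := S)
    (z0 := fun e => (a (.inl (N.u e)) : ℕ) = 0 ∧ (a (.inl (N.v e)) : ℕ) = 0) (e := e) (b := ω e)
  refine h1.trans (Iff.trans ?_ h2.symm)
  simp only [blocked, and_assoc]

/-- Possible signed heights. -/
noncomputable def TT (K : ℕ) (S : Set F) (i : V ⊕ F) : Finset ℤ :=
  Finset.univ.image (fun z : Fin (K + 1) × Bool => pv (V := V) S i z)

/-- The bridge, with explicit finite sums. -/
theorem bridge_sum (N : Net V F E) {t : ℝ} (ht : 0 < t) (S : Set F) (G : FC.Cf V F E → ℝ) :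
    N.J (K := K) t κ6 (β6 t) (fun x s => N.zbi S x * G (N.img S x s))
      = (t ^ Fintype.card E * 2 ^ (Finset.univ.filter (fun f => f ∉ S)).card) *
        ∑ y ∈ Fintype.piFinset (TT (V := V) K S), ∑ w : E → Bool,
          N.Φ t S (toCf y w) * G (toCf y w) := by
  have lhs : N.J (K := K) t κ6 (β6 t) (fun x s => N.zbi S x * G (N.img S x s))
      = ∑ p : V ⊕ F → Fin (K + 1) × Bool, (∏ i, N.cS S i (p i)) * (t ^ Fintype.card E *
        ∑ w : E → Bool, N.Φ t S (toCf (fun i => pv (V := V) S i (p i)) w) *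
          G (toCf (fun i => pv (V := V) S i (p i)) w)) := by
    unfold J
    rw [Fintype.sum_prod_type]
    have e1 : ∀ a : V ⊕ F → Fin (K + 1), ∑ ω : E → Bool, ∑ s : V ⊕ F → Bool,
        N.jw t κ6 (β6 t) (a, ω) * N.cst (act (a, ω)) s * (N.zbi S (a, ω) * G (N.img S (a, ω) s))
        = ∑ s : V ⊕ F → Bool, (∏ i, N.cS S i (a i, s i)) * (t ^ Fintype.card E *
        ∑ w : E → Bool, N.Φ t S (toCf (fun i => pv (V := V) S i (a i, s i)) w) *
          G (toCf (fun i => pv (V := V) S i (a i, s i)) w)) := by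
      intro a
      rw [Finset.sum_comm]
      refine Finset.sum_congr rfl fun s _ => ?_
      simp only [term_eq, img_eq]
      rw [← Finset.mul_sum, ← Finset.mul_sum]
      by_cases hc : (∏ i, N.cS S i (a i, s i)) = 0
      · rw [hc, zero_mul, zero_mul]
      have ha : ∀ i, ¬ N.inD S i → (a i : ℕ) = 0 := by
        intro i hi
        by_contra h0
        apply hc
        refine Finset.prod_eq_zero (Finset.mem_univ i) ?_
        simp only [cS, if_neg hi, if_neg h0, mul_zero]
      congr 1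
      have e2 := sum_fiber (fun (e : E) (b : Bool) => N.pe S
        (fun e => (a (.inl (N.u e)) : ℕ) = 0 ∧ (a (.inl (N.v e)) : ℕ) = 0) e b)
        (fun _ => Finset.univ) (fun _ _ => Finset.mem_univ _) (fun e b => N.cE t S s e b)
        (fun w => G (toCf (fun i => pv (V := V) S i (a i, s i)) w))
      rw [e2, Fintype.piFinset_univ, Finset.mul_sum, Finset.mul_sum]
      refine Finset.sum_congr rfl fun w _ => ?_
      have e3 := N.Phi_eq ht S a s ha w
      simp only [d_edge]
      rw [← mul_assoc, ← mul_assoc]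
      congr 1
      refine Eq.trans ?_ e3
      congr 1
      refine Finset.prod_congr rfl fun e _ => ?_
      congr
    rw [Finset.sum_congr rfl fun a _ => e1 a]
    rw [← Equiv.sum_comp (Equiv.arrowProdEquivProdArrow (V ⊕ F) (fun _ => Fin (K + 1))
      (fun _ => Bool)).symm, Fintype.sum_prod_type]
    rfl
  rw [lhs]
  have e4 := sum_fiber (fun (i : V ⊕ F) (z : Fin (K + 1) × Bool) => pv (V := V) S i z)
    (TT (V := V) K S)
    (fun i z => Finset.mem_image_of_mem _ (Finset.mem_univ z)) (fun i z => N.cS S i z)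
    (fun y => t ^ Fintype.card E * ∑ w : E → Bool, N.Φ t S (toCf y w) * G (toCf y w))
  rw [e4, Finset.mul_sum]
  refine Finset.sum_congr rfl fun y hy => ?_
  by_cases hall : ∀ w, N.Φ t S (toCf y w) = 0
  · simp [hall]
  push Not at hall
  obtain ⟨w, hw⟩ := hall
  have hC : (toCf y w : FC.Cf V F E) ∈ FC.Cfg N.toInc (N.UU S) S := by
    by_contra h
    exact hw (if_neg h)
  have hy0 : ∀ i, ¬ N.inD S i → y i = 0 := by
    intro i hi
    rcases i with v | f
    · exact hC.1 v hi
    · exact hC.2.1 f hi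
  have e5 : ∏ i, ∑ z ∈ Finset.univ.filter (fun z : Fin (K + 1) × Bool =>
      pv (V := V) S i z = y i), N.cS S i z
      = 2 ^ (Finset.univ.filter (fun f => f ∉ S)).card := by
    have e6 : ∀ i : V ⊕ F, ∑ z ∈ Finset.univ.filter (fun z : Fin (K + 1) × Bool =>
        pv (V := V) S i z = y i), N.cS S i z
        = Sum.elim (fun _ => (1 : ℝ)) (fun f => if f ∈ S then 1 else 2) i := by
      intro i
      refine N.d_site S i (y i) ?_ (hy0 i)
      have := Fintype.mem_piFinset.mp hy i
      rw [TT, Finset.mem_image] at this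
      obtain ⟨z, _, hz⟩ := this
      exact ⟨z, hz⟩
    rw [Finset.prod_congr rfl fun i _ => e6 i, Fintype.prod_sum_type]
    simp only [Sum.elim_inl, Sum.elim_inr, Finset.prod_const_one, one_mul]
    rw [Finset.prod_ite]
    simp
  rw [e5]
  ring

/-- Membership in `TT` for bounded heights. -/
lemma mem_TT_inl {S : Set F} {v : V} {y : ℤ} (he : Even y) (hb : |y| ≤ 2 * (K : ℤ)) :
    y ∈ TT (V := V) K S (.inl v) := by
  rw [TT, Finset.mem_image]
  simp only [pv, Sum.elim_inl]
  obtain ⟨j, hj⟩ := he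
  have hb := abs_le.mp hb
  by_cases h0 : 0 ≤ j
  · refine ⟨(⟨j.toNat, by omega⟩, false), Finset.mem_univ _, ?_⟩
    simp only [sg, Bool.false_eq_true, if_false]
    omega
  · refine ⟨(⟨(-j).toNat, by omega⟩, true), Finset.mem_univ _, ?_⟩
    simp only [sg, if_true]
    omega

lemma mem_TT_inr {S : Set F} {f : F} {y : ℤ} (hf : f ∈ S) (he : Odd y)
    (hb : |y| ≤ 2 * (K : ℤ) + 1) : y ∈ TT (V := V) K S (.inr f) := by
  rw [TT, Finset.mem_image]
  simp only [pv, Sum.elim_inr, if_pos hf]
  obtain ⟨m, hm⟩ := he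
  have hb := abs_le.mp hb
  by_cases h0 : 0 ≤ m
  · refine ⟨(⟨m.toNat, by omega⟩, false), Finset.mem_univ _, ?_⟩
    simp only [sg, Bool.false_eq_true, if_false]
    omega
  · refine ⟨(⟨(-m - 1).toNat, by omega⟩, true), Finset.mem_univ _, ?_⟩
    simp only [sg, if_true]
    omega

lemma mem_TT_out {S : Set F} {f : F} {y : ℤ} (hf : f ∉ S) (he : y = 0) :
    y ∈ TT (V := V) K S (.inr f) := by
  rw [TT, Finset.mem_image]
  simp only [pv, Sum.elim_inr, if_neg hf]
  exact ⟨((0 : Fin (K + 1)), false), Finset.mem_univ _, he.symm⟩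

lemma mem_TT_even {S : Set F} {v : V} {y : ℤ} (h : y ∈ TT (V := V) K S (.inl v)) : Even y := by
  rw [TT, Finset.mem_image] at h
  obtain ⟨z, _, rfl⟩ := h
  simp only [pv, Sum.elim_inl]
  rcases sg_cases z.2 with hs | hs <;> rw [hs]
  · exact ⟨((z.1 : ℕ) : ℤ), by ring⟩
  · exact ⟨-((z.1 : ℕ) : ℤ), by ring⟩

/-- The bridge. -/
theorem bridge (N : Net V F E) {t : ℝ} (ht : 0 < t) (S : Set F)
    (hfin : ∀ y ∈ FC.Cfg N.toInc (N.UU S) S,
      (∀ v, |y.h v| ≤ 2 * (K : ℤ)) ∧ ∀ f, |y.k f| ≤ 2 * (K : ℤ) + 1)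
    (hF : ∀ f ∈ S, ∃ v, N.inc v f) (G : FC.Cf V F E → ℝ) :
    N.J (K := K) t κ6 (β6 t) (fun x s => N.zbi S x * G (N.img S x s))
      = (t ^ Fintype.card E * 2 ^ (Finset.univ.filter (fun f => f ∉ S)).card) *
        ∑ᶠ y ∈ FC.Cfg N.toInc (N.UU S) S, FC.wt N.toInc t⁻¹ S y * G y := by
  rw [bridge_sum N ht S G]
  congr 1
  symm
  rw [finsum_mem_def]
  have hinj : Function.Injective (fun p : (V ⊕ F → ℤ) × (E → Bool) =>
      (toCf p.1 p.2 : FC.Cf V F E)) := by
    rintro ⟨y, w⟩ ⟨y', w'⟩ h
    simp only [toCf, FC.Cf.mk.injEq] at h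
    obtain ⟨h1, h2, h3⟩ := h
    refine Prod.ext ?_ h3
    funext i
    rcases i with v | f
    · exact congrFun h1 v
    · exact congrFun h2 f
  rw [finsum_eq_sum_of_support_subset (s := ((Fintype.piFinset (TT (V := V) K S)) ×ˢ
    (Finset.univ : Finset (E → Bool))).image (fun p => (toCf p.1 p.2 : FC.Cf V F E)))]
  · rw [Finset.sum_image (fun p _ q _ h => hinj h), Finset.sum_product]
    refine Finset.sum_congr rfl fun y _ => Finset.sum_congr rfl fun w _ => ?_
    unfold Φ
    by_cases h : (toCf y w : FC.Cf V F E) ∈ FC.Cfg N.toInc (N.UU S) S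
    · rw [Set.indicator_of_mem h, if_pos h]
    · rw [Set.indicator_of_notMem h, if_neg h, zero_mul]
  · intro y hy
    have hyC : y ∈ FC.Cfg N.toInc (N.UU S) S := by
      by_contra h
      exact hy (Set.indicator_of_notMem h _)
    rw [Finset.coe_image, Set.mem_image]
    refine ⟨(Sum.elim y.h y.k, y.w), ?_, ?_⟩
    · rw [Finset.mem_coe, Finset.mem_product]
      refine ⟨?_, Finset.mem_univ _⟩
      rw [Fintype.mem_piFinset]
      obtain ⟨b1, b2⟩ := hfin y hyC
      intro i
      rcases i with v | f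
      · exact mem_TT_inl (hyC.2.2.1 v) (b1 v)
      · by_cases hf : f ∈ S
        · obtain ⟨v, hv⟩ := hF f hf
          have h1 := hyC.2.2.2.1 v f hv hf
          obtain ⟨j, hj⟩ := hyC.2.2.1 v
          refine mem_TT_inr hf ?_ (b2 f)
          show Odd (y.k f)
          rcases (abs_eq (by norm_num)).mp h1 with h2 | h2
          · exact ⟨j - 1, by omega⟩
          · exact ⟨j, by omega⟩
        · exact mem_TT_out hf (hyC.2.1 f hf)
    · rfl

/-- Signed heights with zero boundary condition on `S`. -/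
def HS (N : Net V F E) (S : Set F) (y : V ⊕ F → ℤ) : Prop :=
  (∀ v, v ∉ N.UU S → y (.inl v) = 0) ∧ (∀ f, f ∉ S → y (.inr f) = 0) ∧
    (∀ v, Even (y (.inl v))) ∧ (∀ v f, N.inc v f → f ∈ S → |y (.inl v) - y (.inr f)| = 1)

/-- The weight of signed heights. -/
noncomputable def hw (N : Net V F E) (c : ℝ) (S : Set F) (y : V ⊕ F → ℤ) : ℝ :=
  ∏ e, (if N.inE S e then
    (if y (.inl (N.u e)) = y (.inl (N.v e)) ∧ y (.inr (N.f e)) = y (.inr (N.g e)) then c else 1)
    else 1)

/-- Summation over the edge variables. -/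
lemma sum_w (N : Net V F E) (t : ℝ) (S : Set F) (y : V ⊕ F → ℤ) :
    ∑ w : E → Bool, N.Φ t S (toCf y w) = if N.HS S y then N.hw t⁻¹ S y else 0 := by
  by_cases h : N.HS S y
  · rw [if_pos h]
    have e1 : ∀ w : E → Bool, N.Φ t S (toCf y w) = ∏ e, (if N.inE S e then
        (if w e = false ∧ ¬ (y (.inl (N.u e)) = 0 ∧ y (.inl (N.v e)) = 0) then 0
          else (if y (.inl (N.u e)) = 0 ∧ y (.inl (N.v e)) = 0 then
            (if w e = true then (if y (.inr (N.f e)) = y (.inr (N.g e)) then t⁻¹ - 1 else 0) else 1)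
            else (if y (.inl (N.u e)) = y (.inl (N.v e)) ∧ y (.inr (N.f e)) = y (.inr (N.g e))
              then t⁻¹ else 1)))
        else (if w e = true then 0 else 1)) := by
      intro w
      unfold Φ
      by_cases hC : toCf y w ∈ FC.Cfg N.toInc (N.UU S) S
      · rw [if_pos hC]
        unfold FC.wt
        refine Finset.prod_congr rfl fun e _ => ?_
        by_cases he : N.inE S e
        · have he' : N.toInc.a e ∈ S ∧ N.toInc.b e ∈ S := he
          rw [if_pos he, if_pos he', if_neg]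
          · rfl
          · rintro ⟨hw, hn⟩
            exact hn (hC.2.2.2.2.2 e he.1 he.2 hw)
        · have he' : ¬ (N.toInc.a e ∈ S ∧ N.toInc.b e ∈ S) := he
          have hw : w e = false := hC.2.2.2.2.1 e he
          rw [if_neg he, if_neg he', if_neg]
          rw [hw]
          simp
      · rw [if_neg hC]
        have hn : ¬ ((∀ e, ¬ N.inE S e → w e = false) ∧
            (∀ e, N.inE S e → w e = false → y (.inl (N.u e)) = 0 ∧ y (.inl (N.v e)) = 0)) := by
          intro h'
          exact hC ⟨h.1, h.2.1, h.2.2.1, h.2.2.2, h'.1, fun e h1 h2 => h'.2 e ⟨h1, h2⟩⟩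
        symm
        by_cases h2 : ∀ e, ¬ N.inE S e → w e = false
        · have h3 : ¬ ∀ e, N.inE S e → w e = false → y (.inl (N.u e)) = 0 ∧
              y (.inl (N.v e)) = 0 := fun h' => hn ⟨h2, h'⟩
          push Not at h3
          obtain ⟨e, he, hw, hz⟩ := h3
          refine Finset.prod_eq_zero (Finset.mem_univ e) ?_
          rw [if_pos he, if_pos]
          exact ⟨hw, fun h' => hz h'.1 h'.2⟩
        · push Not at h2
          obtain ⟨e, he, hw⟩ := h2
          refine Finset.prod_eq_zero (Finset.mem_univ e) ?_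
          rw [if_neg he, if_pos]
          simpa using hw
    rw [Finset.sum_congr rfl fun w _ => e1 w]
    have e2 := Finset.prod_univ_sum (fun _ : E => (Finset.univ : Finset Bool))
      (fun (e : E) (b : Bool) => (if N.inE S e then
        (if b = false ∧ ¬ (y (.inl (N.u e)) = 0 ∧ y (.inl (N.v e)) = 0) then 0
          else (if y (.inl (N.u e)) = 0 ∧ y (.inl (N.v e)) = 0 then
            (if b = true then (if y (.inr (N.f e)) = y (.inr (N.g e)) then t⁻¹ - 1 else 0) else 1)
            else (if y (.inl (N.u e)) = y (.inl (N.v e)) ∧ y (.inr (N.f e)) = y (.inr (N.g e))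
              then t⁻¹ else 1)))
        else (if b = true then (0 : ℝ) else 1)))
    rw [Fintype.piFinset_univ] at e2
    rw [← e2]
    unfold hw
    refine Finset.prod_congr rfl fun e _ => ?_
    rw [Fintype.sum_bool]
    by_cases he : N.inE S e
    · simp only [if_pos he]
      by_cases hz : y (.inl (N.u e)) = 0 ∧ y (.inl (N.v e)) = 0
      · have huv : y (.inl (N.u e)) = y (.inl (N.v e)) := hz.1.trans hz.2.symm
        by_cases hk : y (.inr (N.f e)) = y (.inr (N.g e))
        · simp [hz, hk]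
        · simp [hz, hk]
      · simp [hz]
    · simp [he]
  · rw [if_neg h]
    refine Finset.sum_eq_zero fun w _ => ?_
    unfold Φ
    rw [if_neg]
    intro hC
    exact h ⟨hC.1, hC.2.1, hC.2.2.1, hC.2.2.2.1⟩

/-- Possible signed height functions. -/
noncomputable def TTs (K : ℕ) (S : Set F) : Finset (V ⊕ F → ℤ) :=
  Fintype.piFinset (TT (V := V) K S)

lemma mem_TTs {S : Set F} {y : V ⊕ F → ℤ} :
    y ∈ TTs (V := V) K S ↔ ∀ i, y i ∈ TT (V := V) K S i := Fintype.mem_piFinset

/-- The bridge for functions of the heights. -/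
theorem bridge_h (N : Net V F E) {t : ℝ} (ht : 0 < t) (S : Set F) (G : (V ⊕ F → ℤ) → ℝ) :
    N.J (K := K) t κ6 (β6 t) (fun x s => N.zbi S x *
        G (fun i => pv (V := V) S i (x.1 i, s i)))
      = (t ^ Fintype.card E * 2 ^ (Finset.univ.filter (fun f => f ∉ S)).card) *
        ∑ y ∈ TTs (V := V) K S, (if N.HS S y then N.hw t⁻¹ S y else 0) * G y := by
  have h := bridge_sum (K := K) N ht S (fun y => G (Sum.elim y.h y.k))
  have e1 : (fun (x : Cfg V F E K) (s : V ⊕ F → Bool) => N.zbi S x *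
      G (Sum.elim (N.img S x s).h (N.img S x s).k))
      = fun x s => N.zbi S x * G (fun i => pv (V := V) S i (x.1 i, s i)) := by
    funext x s
    congr 2
    funext i
    rcases i with v | f <;> rfl
  rw [e1] at h
  rw [h]
  congr 1
  refine Finset.sum_congr rfl fun y _ => ?_
  rw [← sum_w, Finset.sum_mul]
  refine Finset.sum_congr rfl fun w _ => ?_
  congr 2
  funext i
  rcases i with v | f <;> rfl

end

end Net

end Vale.Agent.P145.FK
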