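import Vale.Agent.P145.FK.Joint

/-!
P145, block K1: zero boundary conditions on the complement of a set `D` of odd sites;
domain monotonicity and comparison with tilted laws.
-/

namespace Vale.Agent.P145.FK

open Finset
open scoped Classical

namespace Net

variable {V F E : Type*} {K : ℕ}

/-- Interior sites of the set `D` of odd sites. -/
def inD (N : Net V F E) (D : Set F) (i : V ⊕ F) : Prop :=
  Sum.elim (fun v => ∀ f, N.inc v f → f ∈ D) (fun f => f ∈ D) i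

/-- Interior medial vertices. -/
def inE (N : Net V F E) (D : Set F) (e : E) : Prop := N.f e ∈ D ∧ N.g e ∈ D

/-- Everything outside `D` is minimal and closed. -/
def zb (N : Net V F E) (D : Set F) (x : Cfg V F E K) : Prop :=
  (∀ i, ¬ N.inD D i → (x.1 i : ℕ) = 0) ∧ ∀ e, ¬ N.inE D e → x.2 e = false

/-- Indicator of `zb`. -/
noncomputable def zbi (N : Net V F E) (D : Set F) (x : Cfg V F E K) : ℝ :=
  if N.zb D x then 1 else 0

/-- Agreement outside `D`. -/
def agOut (N : Net V F E) (D : Set F) (x y : Cfg V F E K) : Prop :=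
  (∀ i, ¬ N.inD D i → x.1 i = y.1 i) ∧ ∀ e, ¬ N.inE D e → x.2 e = y.2 e

/-- Agreement inside `D`. -/
def agIn (N : Net V F E) (D : Set F) (x y : Cfg V F E K) : Prop :=
  (∀ i, N.inD D i → x.1 i = y.1 i) ∧ ∀ e, N.inE D e → x.2 e = y.2 e

lemma inD_mono {N : Net V F E} {D D' : Set F} (h : D ⊆ D') {i : V ⊕ F} (hi : N.inD D i) :
    N.inD D' i := by
  rcases i with v | f
  · exact fun f hf => h (hi f hf)
  · exact h hi

lemma inE_mono {N : Net V F E} {D D' : Set F} (h : D ⊆ D') {e : E} (he : N.inE D e) :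
    N.inE D' e := ⟨h he.1, h he.2⟩

lemma zb_mono {N : Net V F E} {D D' : Set F} (h : D ⊆ D') {x : Cfg V F E K} (hx : N.zb D x) :
    N.zb D' x :=
  ⟨fun i hi => hx.1 i fun h' => hi (inD_mono h h'), fun e he => hx.2 e fun h' => he (inE_mono h h')⟩

lemma zb_inf {N : Net V F E} {D : Set F} {x : Cfg V F E K} (hx : N.zb D x) (y : Cfg V F E K) :
    N.zb D (x ⊓ y) := by
  refine ⟨fun i hi => ?_, fun e he => ?_⟩
  · have h := hx.1 i hi
    simp only [Prod.fst_inf, Pi.inf_apply, fmin, h]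
    omega
  · have h := hx.2 e he
    simp [Prod.snd_inf, Pi.inf_apply, h]

lemma zb_sup {N : Net V F E} {D : Set F} {x y : Cfg V F E K} (hx : N.zb D x) (hy : N.zb D y) :
    N.zb D (x ⊔ y) := by
  refine ⟨fun i hi => ?_, fun e he => ?_⟩
  · have h := hx.1 i hi
    have h' := hy.1 i hi
    simp only [Prod.fst_sup, Pi.sup_apply, fmax, h, h']
    omega
  · have h := hx.2 e he
    have h' := hy.2 e he
    simp [Prod.snd_sup, Pi.sup_apply, h, h']

lemma agOut_sup {N : Net V F E} {D : Set F} {x : Cfg V F E K} (hx : N.zb D x)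
    (y : Cfg V F E K) : N.agOut D (x ⊔ y) y := by
  refine ⟨fun i hi => ?_, fun e he => ?_⟩
  · have h := hx.1 i hi
    apply Fin.ext
    simp only [Prod.fst_sup, Pi.sup_apply, fmax, h]
    omega
  · have h := hx.2 e he
    simp [Prod.snd_sup, Pi.sup_apply, h]

lemma zbi_nonneg (N : Net V F E) (D : Set F) (x : Cfg V F E K) : 0 ≤ N.zbi D x := by
  unfold zbi; split_ifs <;> norm_num

section
variable [Fintype V] [Fintype F] [Fintype E]

/-- Comparison of the zero boundary condition on `D`, tilted by a decreasing function, with an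
increasing tilt. -/
theorem zero_le_tilt (N : Net V F E) {t : ℝ} (ht0 : 0 ≤ t) (ht : t ≤ 1)
    {κ : V ⊕ F → Fin (K + 1) → ℝ} (hκ : ∀ i z, 0 ≤ κ i z) {β : E → Bool → ℝ}
    (hβ : ∀ e b, 0 ≤ β e b) (D : Set F) {X Q : Cfg V F E K → ℝ} (hX : ∀ x, 0 ≤ X x)
    (hXa : Antitone X) (hQ : ∀ x, 0 ≤ Q x) (hQD : ∀ x y, N.zb D x → Q y ≤ Q (x ⊔ y))
    {A : Cfg V F E K → (V ⊕ F → Bool) → ℝ} (hA : Mon A) :
    N.J t κ β (fun x s => X x * N.zbi D x * A x s) * N.J t κ β (fun x _ => Q x)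
      ≤ N.J t κ β (fun x _ => X x * N.zbi D x) * N.J t κ β (fun x s => Q x * A x s) := by
  refine N.masterJ ht0 ht hκ hβ (P := fun x => X x * N.zbi D x) (Q := Q)
    (fun x => mul_nonneg (hX x) (N.zbi_nonneg D x)) hQ ?_ hA
  intro x y _ _
  by_cases h : N.zb D x
  · have h1 : N.zbi D x = 1 := if_pos h
    have h2 : N.zbi D (x ⊓ y) = 1 := if_pos (zb_inf h y)
    show X x * N.zbi D x * Q y ≤ X (x ⊓ y) * N.zbi D (x ⊓ y) * Q (x ⊔ y)
    rw [h1, h2, mul_one, mul_one]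
    exact mul_le_mul (hXa inf_le_left) (hQD x y h) (hQ y) (hX _)
  · have h1 : N.zbi D x = 0 := if_neg h
    show X x * N.zbi D x * Q y ≤ X (x ⊓ y) * N.zbi D (x ⊓ y) * Q (x ⊔ y)
    rw [h1, mul_zero, zero_mul]
    exact mul_nonneg (mul_nonneg (hX _) (N.zbi_nonneg D _)) (hQ _)

/-- Domain monotonicity, with a decreasing tilt of the smaller domain. -/
theorem dom_mono (N : Net V F E) {t : ℝ} (ht0 : 0 ≤ t) (ht : t ≤ 1)
    {κ : V ⊕ F → Fin (K + 1) → ℝ} (hκ : ∀ i z, 0 ≤ κ i z) {β : E → Bool → ℝ}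
    (hβ : ∀ e b, 0 ≤ β e b) {D D' : Set F} (hD : D ⊆ D') {X : Cfg V F E K → ℝ}
    (hX : ∀ x, 0 ≤ X x) (hXa : Antitone X) {A : Cfg V F E K → (V ⊕ F → Bool) → ℝ} (hA : Mon A) :
    N.J t κ β (fun x s => X x * N.zbi D x * A x s) * N.J t κ β (fun x _ => N.zbi D' x)
      ≤ N.J t κ β (fun x _ => X x * N.zbi D x) * N.J t κ β (fun x s => N.zbi D' x * A x s) := by
  refine N.zero_le_tilt ht0 ht hκ hβ D hX hXa (N.zbi_nonneg D') ?_ hA
  intro x y hx
  by_cases h : N.zb D' y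
  · have h1 : N.zbi D' y = 1 := if_pos h
    have h2 : N.zbi D' (x ⊔ y) = 1 := if_pos (zb_sup (zb_mono hD hx) h)
    rw [h1, h2]
  · have h1 : N.zbi D' y = 0 := if_neg h
    rw [h1]
    exact N.zbi_nonneg D' _

/-- Comparison of the zero boundary condition on `D` with any law which is tilted by a function
`Θ` of what is outside `D` and an increasing function `C`. -/
theorem zero_le_out (N : Net V F E) {t : ℝ} (ht0 : 0 ≤ t) (ht : t ≤ 1)
    {κ : V ⊕ F → Fin (K + 1) → ℝ} (hκ : ∀ i z, 0 ≤ κ i z) {β : E → Bool → ℝ}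
    (hβ : ∀ e b, 0 ≤ β e b) (D : Set F) {X Θ C : Cfg V F E K → ℝ}
    (hX : ∀ x, 0 ≤ X x) (hXa : Antitone X) (hΘ : ∀ x, 0 ≤ Θ x)
    (hΘD : ∀ x y, N.agOut D x y → Θ x = Θ y) (hC : ∀ x, 0 ≤ C x) (hCm : Monotone C)
    {A : Cfg V F E K → (V ⊕ F → Bool) → ℝ} (hA : Mon A) :
    N.J t κ β (fun x s => X x * N.zbi D x * A x s) * N.J t κ β (fun x _ => Θ x * C x)
      ≤ N.J t κ β (fun x _ => X x * N.zbi D x) * N.J t κ β (fun x s => Θ x * C x * A x s) := by
  refine N.zero_le_tilt ht0 ht hκ hβ D hX hXa (fun x => mul_nonneg (hΘ x) (hC x)) ?_ hA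
  intro x y hx
  have h1 : Θ (x ⊔ y) = Θ y := hΘD _ _ (agOut_sup hx y)
  rw [h1]
  exact mul_le_mul_of_nonneg_left (hCm le_sup_right) (hΘ y)

/-- Positive association of the magnitudes and open medial vertices, and of these with the
functions in `Mon`. -/
theorem fkgJ (N : Net V F E) {t : ℝ} (ht0 : 0 ≤ t) (ht : t ≤ 1)
    {κ : V ⊕ F → Fin (K + 1) → ℝ} (hκ : ∀ i z, 0 ≤ κ i z) {β : E → Bool → ℝ}
    (hβ : ∀ e b, 0 ≤ β e b) {C : Cfg V F E K → ℝ} (hC : ∀ x, 0 ≤ C x) (hCm : Monotone C)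
    {A : Cfg V F E K → (V ⊕ F → Bool) → ℝ} (hA : Mon A) :
    N.J t κ β A * N.J t κ β (fun x _ => C x)
      ≤ N.J t κ β (fun _ _ => 1) * N.J t κ β (fun x s => C x * A x s) := by
  have h := N.masterJ ht0 ht hκ hβ (P := fun _ => 1) (Q := C) (fun _ => zero_le_one) hC
    (fun x y _ _ => by
      show 1 * C y ≤ 1 * C (x ⊔ y)
      rw [one_mul, one_mul]
      exact hCm le_sup_right) hA
  simpa using h

end

end Net

end Vale.Agent.P145.FK
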