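import Vale.Agent.P145.FK.Markov

/-!
P145, block K1: Markov property and exploration from outside.
-/

namespace Vale.Agent.P145.FK

open Finset
open scoped Classical

namespace Net

variable {V F E : Type*} {K : ℕ}

lemma agOut_mixC (N : Net V F E) (D : Set F) (x y : Cfg V F E K) :
    N.agOut D (N.mixC D x y) x :=
  ⟨fun i hi => by simp [mixC, hi], fun e he => by simp [mixC, he]⟩

lemma agIn_mixC (N : Net V F E) (D : Set F) (x y : Cfg V F E K) :
    N.agIn D (N.mixC D x y) y :=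
  ⟨fun i hi => by simp [mixC, hi], fun e he => by simp [mixC, he]⟩

lemma agOut_refl (N : Net V F E) (D : Set F) (x : Cfg V F E K) : N.agOut D x x :=
  ⟨fun _ _ => rfl, fun _ _ => rfl⟩

lemma agOut_symm {N : Net V F E} {D : Set F} {x y : Cfg V F E K} (h : N.agOut D x y) :
    N.agOut D y x :=
  ⟨fun i hi => (h.1 i hi).symm, fun e he => (h.2 e he).symm⟩

lemma agOut_trans {N : Net V F E} {D : Set F} {x y z : Cfg V F E K} (h : N.agOut D x y)
    (h' : N.agOut D y z) : N.agOut D x z :=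
  ⟨fun i hi => (h.1 i hi).trans (h'.1 i hi), fun e he => (h.2 e he).trans (h'.2 e he)⟩

lemma zb_congr {N : Net V F E} {D : Set F} {x y : Cfg V F E K} (h : N.agOut D x y) :
    N.zb D x ↔ N.zb D y := by
  constructor
  · intro hx
    exact ⟨fun i hi => by rw [← h.1 i hi]; exact hx.1 i hi,
      fun e he => by rw [← h.2 e he]; exact hx.2 e he⟩
  · intro hx
    exact ⟨fun i hi => by rw [h.1 i hi]; exact hx.1 i hi,
      fun e he => by rw [h.2 e he]; exact hx.2 e he⟩

lemma agIn_mono {N : Net V F E} {D D' : Set F} (h : D ⊆ D') {x y : Cfg V F E K}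
    (hx : N.agIn D' x y) : N.agIn D x y :=
  ⟨fun i hi => hx.1 i (inD_mono h hi), fun e he => hx.2 e (inE_mono h he)⟩

section
variable [Fintype V] [Fintype F] [Fintype E]

lemma J_eq_tw (N : Net V F E) (t : ℝ) (κ : V ⊕ F → Fin (K + 1) → ℝ) (β : E → Bool → ℝ)
    (G : Cfg V F E K → (V ⊕ F → Bool) → ℝ) :
    N.J t κ β G = ∑ p : Cfg V F E K × (V ⊕ F → Bool), N.tw t κ β p.1 p.2 * G p.1 p.2 := by
  rw [Fintype.sum_prod_type]
  rfl

lemma tw_nonneg (N : Net V F E) {t : ℝ} (ht0 : 0 ≤ t) {κ : V ⊕ F → Fin (K + 1) → ℝ}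
    (hκ : ∀ i z, 0 ≤ κ i z) {β : E → Bool → ℝ} (hβ : ∀ e b, 0 ≤ β e b) (x : Cfg V F E K)
    (s : V ⊕ F → Bool) : 0 ≤ N.tw t κ β x s :=
  mul_nonneg (N.jw_nonneg ht0 hκ hβ x) (N.cst_nonneg _ s)

/-- Exchange of the insides, as a permutation of pairs of configurations. -/
noncomputable def swapE (N : Net V F E) (D : Set F) :
    Equiv.Perm ((Cfg V F E K × (V ⊕ F → Bool)) × (Cfg V F E K × (V ⊕ F → Bool))) where
  toFun q := ((N.mixC D q.1.1 q.2.1, N.mixS D q.1.2 q.2.2),
    (N.mixC D q.2.1 q.1.1, N.mixS D q.2.2 q.1.2))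
  invFun q := ((N.mixC D q.1.1 q.2.1, N.mixS D q.1.2 q.2.2),
    (N.mixC D q.2.1 q.1.1, N.mixS D q.2.2 q.1.2))
  left_inv q := by
    simp only [mixC_mixC, mixS_mixS]
  right_inv q := by
    simp only [mixC_mixC, mixS_mixS]

/-- Markov property: if `Go` lives on configurations which are blocked at the boundary of `D` and
depends only on the outside, and `Gi` only on the inside, then the inside has the law with zero
boundary condition. -/
theorem markov (N : Net V F E) (t : ℝ) (κ : V ⊕ F → Fin (K + 1) → ℝ) (β : E → Bool → ℝ)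
    {D : Set F} {Go Gi : Cfg V F E K → (V ⊕ F → Bool) → ℝ}
    (hGo : ∀ x s, Go x s ≠ 0 → N.blk D x)
    (hGo' : ∀ x x' s s', N.agOut D x x' → (∀ i, ¬ N.inD D i → s i = s' i) → Go x s = Go x' s')
    (hGi : ∀ x x' s s', N.agIn D x x' → (∀ i, N.inD D i → s i = s' i) → Gi x s = Gi x' s') :
    N.J t κ β (fun x s => Go x s * Gi x s) * N.J t κ β (fun x _ => N.zbi D x)
      = N.J t κ β Go * N.J t κ β (fun x s => N.zbi D x * Gi x s) := by
  rw [J_eq_tw, J_eq_tw, J_eq_tw, J_eq_tw, Finset.sum_mul_sum, Finset.sum_mul_sum]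
  rw [← Fintype.sum_prod_type', ← Fintype.sum_prod_type']
  rw [← Equiv.sum_comp (N.swapE (K := K) D)]
  refine Finset.sum_congr rfl fun q _ => ?_
  obtain ⟨⟨x, s⟩, ⟨y, s'⟩⟩ := q
  show N.tw t κ β (N.mixC D x y) (N.mixS D s s') *
      (Go (N.mixC D x y) (N.mixS D s s') * Gi (N.mixC D x y) (N.mixS D s s')) *
      (N.tw t κ β (N.mixC D y x) (N.mixS D s' s) * N.zbi D (N.mixC D y x))
    = N.tw t κ β x s * Go x s * (N.tw t κ β y s' * (N.zbi D y * Gi y s'))
  have g1 : Go (N.mixC D x y) (N.mixS D s s') = Go x s :=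
    hGo' _ _ _ _ (N.agOut_mixC D x y) fun i hi => by simp [mixS, hi]
  have g2 : Gi (N.mixC D x y) (N.mixS D s s') = Gi y s' :=
    hGi _ _ _ _ (N.agIn_mixC D x y) fun i hi => by simp [mixS, hi]
  have g3 : N.zbi D (N.mixC D y x) = N.zbi D y := by
    unfold zbi
    simp only [zb_congr (N.agOut_mixC D y x)]
  rw [g1, g2, g3]
  by_cases h1 : Go x s = 0
  · rw [h1]; ring
  by_cases h2 : N.zb D y
  · have h := N.tw_swap t κ β (hGo x s h1) (zb_blk h2) s s'
    calc _ = (N.tw t κ β (N.mixC D x y) (N.mixS D s s') *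
          N.tw t κ β (N.mixC D y x) (N.mixS D s' s)) * (Go x s * Gi y s' * N.zbi D y) := by ring
      _ = _ := by rw [← h]; ring
  · have h3 : N.zbi D y = 0 := if_neg h2
    rw [h3]; ring

lemma J_mon_nonneg (N : Net V F E) {t : ℝ} (ht0 : 0 ≤ t) {κ : V ⊕ F → Fin (K + 1) → ℝ}
    (hκ : ∀ i z, 0 ≤ κ i z) {β : E → Bool → ℝ} (hβ : ∀ e b, 0 ≤ β e b) {P : Cfg V F E K → ℝ}
    (hP : ∀ x, 0 ≤ P x) {A : Cfg V F E K → (V ⊕ F → Bool) → ℝ} (hA : Mon A) :
    0 ≤ N.J t κ β (fun x s => P x * A x s) := by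
  induction hA with
  | add h1 h2 ih1 ih2 =>
    simp only [mul_add, J_add]
    exact add_nonneg ih1 ih2
  | @one B hB0 hB φ hφ =>
    have e : N.J t κ β (fun x s => P x * (B x * φ s))
        = ∑ x, P x * B x * N.jw t κ β x * N.Y (act x) φ := by
      rw [← J_mag]
      congr 1
      funext x s
      ring
    rw [e]
    exact Finset.sum_nonneg fun x _ => mul_nonneg (mul_nonneg (mul_nonneg (hP x) (hB0 x))
      (N.jw_nonneg ht0 hκ hβ x)) (N.Y_pos _ hφ)

lemma J_zbi_pos (N : Net V F E) {t : ℝ} (ht0 : 0 ≤ t) {κ : V ⊕ F → Fin (K + 1) → ℝ}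
    (hκ : ∀ i z, 0 ≤ κ i z) {β : E → Bool → ℝ} (hβ : ∀ e b, 0 ≤ β e b)
    (hκ0 : ∀ i, 0 < κ i 0) (hβ0 : ∀ e, 0 < β e false) (D : Set F) :
    0 < N.J t κ β (fun x _ => N.zbi D x) := by
  rw [J_eq_tw]
  have h0 : 0 < N.tw t κ β ((fun _ => 0, fun _ => false) : Cfg V F E K) (fun _ => false) *
      N.zbi D ((fun _ => 0, fun _ => false) : Cfg V F E K) := by
    have z : N.zbi D ((fun _ => 0, fun _ => false) : Cfg V F E K) = 1 :=
      if_pos ⟨fun i _ => by simp, fun e _ => rfl⟩
    have a : N.adm (fun _ => 0 : V ⊕ F → Fin (K + 1)) := fun v f _ => Or.inl rfl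
    rw [z, mul_one]
    unfold tw jw mw wE
    rw [if_pos a, N.cst_false]
    simp only [and_self, if_true, Finset.prod_const_one, one_mul, mul_one]
    exact mul_pos (Finset.prod_pos fun i _ => hκ0 i) (Finset.prod_pos fun e _ => hβ0 e)
  refine lt_of_lt_of_le h0 (Finset.single_le_sum (f := fun p : Cfg V F E K × (V ⊕ F → Bool) =>
    N.tw t κ β p.1 p.2 * N.zbi D p.1) (fun p _ => mul_nonneg (N.tw_nonneg ht0 hκ hβ _ _)
    (N.zbi_nonneg D _)) (Finset.mem_univ (((fun _ => 0, fun _ => false) : Cfg V F E K),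
      fun _ => false)))

end

/-- Blocked medial vertices: both even sites are zero and it is closed. -/
def blocked (N : Net V F E) (x : Cfg V F E K) (e : E) : Prop :=
  (x.1 (.inl (N.u e)) : ℕ) = 0 ∧ (x.1 (.inl (N.v e)) : ℕ) = 0 ∧ x.2 e = false

/-- One step through a medial vertex which is not blocked. -/
def step (N : Net V F E) (x : Cfg V F E K) (f f' : F) : Prop :=
  ∃ e, ¬ N.blocked x e ∧ ((N.f e = f ∧ N.g e = f') ∨ (N.g e = f ∧ N.f e = f'))

/-- The odd sites which are connected to `O`. -/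
def expl (N : Net V F E) (O : Set F) (x : Cfg V F E K) : Set F :=
  {f | ∃ f0 ∈ O, Relation.ReflTransGen (N.step x) f0 f}

/-- Local connectivity of the odd sites around an even site. -/
def Loc (N : Net V F E) : Prop :=
  ∀ (v : V) (D : Set F), (∃ f, N.inc v f ∧ f ∈ D) → (∃ f, N.inc v f ∧ f ∉ D) →
    ∃ e, (N.u e = v ∨ N.v e = v) ∧ ¬ (N.f e ∈ D ↔ N.g e ∈ D)

lemma blocked_anti {N : Net V F E} {x y : Cfg V F E K} (h : x ≤ y) {e : E}
    (hy : N.blocked y e) : N.blocked x e := by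
  have h1 : (x.1 (.inl (N.u e)) : ℕ) ≤ y.1 (.inl (N.u e)) := by exact_mod_cast h.1 _
  have h2 : (x.1 (.inl (N.v e)) : ℕ) ≤ y.1 (.inl (N.v e)) := by exact_mod_cast h.1 _
  have h3 : x.2 e ≤ y.2 e := h.2 e
  refine ⟨by have := hy.1; omega, by have := hy.2.1; omega, ?_⟩
  have := hy.2.2
  rw [this] at h3
  exact Bool.eq_false_of_le_false h3

lemma expl_mono {N : Net V F E} (O : Set F) {x y : Cfg V F E K} (h : x ≤ y) :
    N.expl O x ⊆ N.expl O y := by
  rintro f ⟨f0, hf0, hf⟩
  refine ⟨f0, hf0, ?_⟩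
  induction hf with
  | refl => exact Relation.ReflTransGen.refl
  | tail _ hs ih =>
    obtain ⟨e, he, h'⟩ := hs
    exact ih.tail ⟨e, fun hb => he (blocked_anti h hb), h'⟩

lemma subset_expl (N : Net V F E) (O : Set F) (x : Cfg V F E K) : O ⊆ N.expl O x :=
  fun f hf => ⟨f, hf, Relation.ReflTransGen.refl⟩

lemma expl_blocked {N : Net V F E} {O : Set F} {x : Cfg V F E K} {e : E}
    (h : ¬ (N.f e ∈ N.expl O x ↔ N.g e ∈ N.expl O x)) : N.blocked x e := by
  by_contra hb
  apply h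
  constructor
  · rintro ⟨f0, hf0, hf⟩
    exact ⟨f0, hf0, hf.tail ⟨e, hb, Or.inl ⟨rfl, rfl⟩⟩⟩
  · rintro ⟨f0, hf0, hf⟩
    exact ⟨f0, hf0, hf.tail ⟨e, hb, Or.inr ⟨rfl, rfl⟩⟩⟩

lemma blk_expl {N : Net V F E} (hN : N.Loc) (O : Set F) (x : Cfg V F E K) :
    N.blk (N.expl O x)ᶜ x := by
  constructor
  · intro v hv hf
    have hv' : ∃ f, N.inc v f ∧ f ∉ (N.expl O x)ᶜ := by
      have h : ¬ ∀ f, N.inc v f → f ∈ (N.expl O x)ᶜ := hv
      push Not at h
      exact h
    obtain ⟨e, he, hne⟩ := hN v _ hf hv'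
    have hb : N.blocked x e := by
      apply expl_blocked (O := O)
      intro h
      apply hne
      simp only [Set.mem_compl_iff]
      exact not_congr h
    rcases he with he | he
    · rw [← he]; exact hb.1
    · rw [← he]; exact hb.2.1
  · intro e hne
    have hb : N.blocked x e := by
      apply expl_blocked (O := O)
      intro h
      apply hne
      simp only [Set.mem_compl_iff]
      exact not_congr h
    exact hb.2.2

lemma blocked_congr {N : Net V F E} {R : Set F} {x y : Cfg V F E K} (h : N.agOut Rᶜ x y) {e : E}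
    (he : N.f e ∈ R ∨ N.g e ∈ R) : N.blocked x e ↔ N.blocked y e := by
  have h1 : ¬ N.inE Rᶜ e := by
    rintro ⟨a, b⟩
    rcases he with he | he
    · exact a he
    · exact b he
  have h2 : ¬ N.inD Rᶜ (.inl (N.u e)) := by
    intro h'
    rcases he with he | he
    · exact h' _ (N.huf e) he
    · exact h' _ (N.hug e) he
  have h3 : ¬ N.inD Rᶜ (.inl (N.v e)) := by
    intro h'
    rcases he with he | he
    · exact h' _ (N.hvf e) he
    · exact h' _ (N.hvg e) he
  unfold blocked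
  rw [h.1 _ h2, h.1 _ h3, h.2 _ h1]

lemma expl_congr {N : Net V F E} {O : Set F} {x y : Cfg V F E K}
    (h : N.agOut (N.expl O x)ᶜ x y) : N.expl O y = N.expl O x := by
  ext f
  constructor
  · rintro ⟨f0, hf0, hf⟩
    induction hf with
    | refl => exact N.subset_expl O x hf0
    | tail _ hs ih =>
      obtain ⟨e, hb, hfe⟩ := hs
      by_contra hcon
      have h1 : ¬ (N.f e ∈ N.expl O x ↔ N.g e ∈ N.expl O x) := by
        rcases hfe with ⟨h1, h2⟩ | ⟨h1, h2⟩
        · rw [h1, h2]; tauto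
        · rw [h1, h2]; tauto
      have h2 : N.f e ∈ N.expl O x ∨ N.g e ∈ N.expl O x := by
        rcases hfe with ⟨h1, h2⟩ | ⟨h1, h2⟩
        · left; rw [h1]; exact ih
        · right; rw [h1]; exact ih
      exact hb ((blocked_congr h h2).mp (expl_blocked h1))
  · rintro ⟨f0, hf0, hf⟩
    have key : f ∈ N.expl O x ∧ f ∈ N.expl O y := by
      induction hf with
      | refl => exact ⟨N.subset_expl O x hf0, N.subset_expl O y hf0⟩
      | tail _ hs ih =>
        obtain ⟨e, hb, hfe⟩ := hs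
        have h2 : N.f e ∈ N.expl O x ∨ N.g e ∈ N.expl O x := by
          rcases hfe with ⟨h1, h2⟩ | ⟨h1, h2⟩
          · left; rw [h1]; exact ih.1
          · right; rw [h1]; exact ih.1
        constructor
        · obtain ⟨f1, hf1, hf2⟩ := ih.1
          exact ⟨f1, hf1, hf2.tail ⟨e, hb, hfe⟩⟩
        · obtain ⟨f1, hf1, hf2⟩ := ih.2
          exact ⟨f1, hf1, hf2.tail ⟨e, fun hb' => hb ((blocked_congr h h2).mpr hb'), hfe⟩⟩
    exact key.2

section
variable [Fintype V] [Fintype F] [Fintype E]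

/-- Conditioning on everything outside a blocked boundary: the comparison with a decreasing tilt. -/
lemma class_le (N : Net V F E) {t : ℝ} (ht0 : 0 ≤ t) (ht : t ≤ 1)
    {κ : V ⊕ F → Fin (K + 1) → ℝ} (hκ : ∀ i z, 0 ≤ κ i z) {β : E → Bool → ℝ}
    (hβ : ∀ e b, 0 ≤ β e b) (hκ0 : ∀ i, 0 < κ i 0) (hβ0 : ∀ e, 0 < β e false)
    {D D' : Set F} (hD : D ⊆ D') {η : Cfg V F E K} (hη : N.blk D η)
    {X : Cfg V F E K → ℝ} (hX : ∀ x, 0 ≤ X x) (hXa : Antitone X)
    {A : Cfg V F E K → (V ⊕ F → Bool) → ℝ} (hA : Mon A)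
    (hAI : ∀ x x' s s', N.agIn D x x' → (∀ i, N.inD D i → s i = s' i) → A x s = A x' s') :
    N.J t κ β (fun x s => X x * (if N.agOut D η x then 1 else 0) * A x s) *
        N.J t κ β (fun x _ => N.zbi D' x)
      ≤ N.J t κ β (fun x _ => X x * (if N.agOut D η x then 1 else 0)) *
        N.J t κ β (fun x s => N.zbi D' x * A x s) := by
  set I : Cfg V F E K → ℝ := fun x => if N.agOut D η x then 1 else 0 with hI
  have hI0 : ∀ x, 0 ≤ I x := fun x => by simp only [hI]; split_ifs <;> norm_num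
  -- step 1
  have s1 : N.J t κ β (fun x s => X x * I x * A x s) * N.J t κ β (fun x _ => I x)
      ≤ N.J t κ β (fun x _ => X x * I x) * N.J t κ β (fun x s => I x * A x s) := by
    refine N.masterJ ht0 ht hκ hβ (P := fun x => X x * I x) (Q := I)
      (fun x => mul_nonneg (hX x) (hI0 x)) hI0 ?_ hA
    intro x y _ _
    by_cases hx : N.agOut D η x
    · by_cases hy : N.agOut D η y
      · have h1 : N.agOut D η (x ⊓ y) := by
          refine ⟨fun i hi => ?_, fun e he => ?_⟩
          · rw [Prod.fst_inf, Pi.inf_apply, ← hx.1 i hi, ← hy.1 i hi, inf_idem]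
          · rw [Prod.snd_inf, Pi.inf_apply, ← hx.2 e he, ← hy.2 e he, inf_idem]
        have h2 : N.agOut D η (x ⊔ y) := by
          refine ⟨fun i hi => ?_, fun e he => ?_⟩
          · rw [Prod.fst_sup, Pi.sup_apply, ← hx.1 i hi, ← hy.1 i hi, sup_idem]
          · rw [Prod.snd_sup, Pi.sup_apply, ← hx.2 e he, ← hy.2 e he, sup_idem]
        show X x * I x * I y ≤ X (x ⊓ y) * I (x ⊓ y) * I (x ⊔ y)
        simp only [hI, if_pos hx, if_pos hy, if_pos h1, if_pos h2, mul_one]
        exact hXa inf_le_left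
      · show X x * I x * I y ≤ X (x ⊓ y) * I (x ⊓ y) * I (x ⊔ y)
        have : I y = 0 := if_neg hy
        rw [this, mul_zero]
        exact mul_nonneg (mul_nonneg (hX _) (hI0 _)) (hI0 _)
    · show X x * I x * I y ≤ X (x ⊓ y) * I (x ⊓ y) * I (x ⊔ y)
      have : I x = 0 := if_neg hx
      rw [this, mul_zero, zero_mul]
      exact mul_nonneg (mul_nonneg (hX _) (hI0 _)) (hI0 _)
  -- step 2
  have s2 : N.J t κ β (fun x s => I x * A x s) * N.J t κ β (fun x _ => N.zbi D x)
      = N.J t κ β (fun x _ => I x) * N.J t κ β (fun x s => N.zbi D x * A x s) := by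
    refine N.markov t κ β (Go := fun x _ => I x) (Gi := A) ?_ ?_ hAI
    · intro x _ hx
      have h : N.agOut D η x := by
        by_contra h
        exact hx (if_neg h)
      refine ⟨fun v hv hf => ?_, fun e he => ?_⟩
      · rw [← h.1 _ hv]; exact hη.1 v hv hf
      · rw [← h.2 e fun h' => he ⟨fun _ => h'.2, fun _ => h'.1⟩]; exact hη.2 e he
    · intro x x' _ _ h _
      have : N.agOut D η x ↔ N.agOut D η x' :=
        ⟨fun h' => agOut_trans h' h, fun h' => agOut_trans h' (agOut_symm h)⟩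
      simp only [hI, this]
  -- step 3
  have s3 : N.J t κ β (fun x s => N.zbi D x * A x s) * N.J t κ β (fun x _ => N.zbi D' x)
      ≤ N.J t κ β (fun x _ => N.zbi D x) * N.J t κ β (fun x s => N.zbi D' x * A x s) := by
    have h := N.dom_mono ht0 ht hκ hβ hD (X := fun _ => 1) (fun _ => zero_le_one)
      (fun _ _ _ => le_rfl) hA
    simpa using h
  have c0 := N.J_zbi_pos ht0 hκ hβ hκ0 hβ0 (D := D)
  have d0 := N.J_zbi_pos ht0 hκ hβ hκ0 hβ0 (D := D')
  have d1 : 0 ≤ N.J t κ β (fun x s => N.zbi D' x * A x s) :=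
    N.J_mon_nonneg ht0 hκ hβ (N.zbi_nonneg D') hA
  have a0 : 0 ≤ N.J t κ β (fun x _ => X x * I x) :=
    N.J_nonneg ht0 hκ hβ fun x _ => mul_nonneg (hX x) (hI0 x)
  have b0 : 0 ≤ N.J t κ β (fun x _ => I x) := N.J_nonneg ht0 hκ hβ fun x _ => hI0 x
  rcases b0.eq_or_lt with hb | hb
  · have ha1 : N.J t κ β (fun x s => X x * I x * A x s) = 0 := by
      rw [J_eq_tw] at hb ⊢
      refine Finset.sum_eq_zero fun p hp => ?_
      have h := (Finset.sum_eq_zero_iff_of_nonneg (fun p _ =>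
        mul_nonneg (N.tw_nonneg ht0 hκ hβ _ _) (hI0 _))).mp hb.symm p hp
      calc N.tw t κ β p.1 p.2 * (X p.1 * I p.1 * A p.1 p.2)
          = (N.tw t κ β p.1 p.2 * I p.1) * (X p.1 * A p.1 p.2) := by ring
        _ = 0 := by rw [h, zero_mul]
    rw [ha1, zero_mul]
    exact mul_nonneg a0 d1
  · set a1 := N.J t κ β (fun x s => X x * I x * A x s)
    set a0' := N.J t κ β (fun x _ => X x * I x)
    set b1 := N.J t κ β (fun x s => I x * A x s)
    set b0' := N.J t κ β (fun x _ => I x)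
    set c1 := N.J t κ β (fun x s => N.zbi D x * A x s)
    set c0' := N.J t κ β (fun x _ => N.zbi D x)
    set d1' := N.J t κ β (fun x s => N.zbi D' x * A x s)
    set d0' := N.J t κ β (fun x _ => N.zbi D' x)
    have h1 : a1 * b0' * c0' ≤ a0' * b0' * c1 := by
      calc a1 * b0' * c0' ≤ a0' * b1 * c0' := mul_le_mul_of_nonneg_right s1 c0.le
        _ = a0' * (b1 * c0') := by ring
        _ = a0' * b0' * c1 := by rw [s2]; ring
    have h2 : a1 * c0' ≤ a0' * c1 := by
      have : (a1 * c0') * b0' ≤ (a0' * c1) * b0' := by nlinarith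
      exact le_of_mul_le_mul_right this hb
    have h3 : (a1 * d0') * c0' ≤ (a0' * d1') * c0' := by
      calc (a1 * d0') * c0' = (a1 * c0') * d0' := by ring
        _ ≤ (a0' * c1) * d0' := mul_le_mul_of_nonneg_right h2 d0.le
        _ = a0' * (c1 * d0') := by ring
        _ ≤ a0' * (c0' * d1') := mul_le_mul_of_nonneg_left s3 a0
        _ = _ := by ring
    exact le_of_mul_le_mul_right h3 c0

/-- Outside part of a configuration, seen from `O`. -/
noncomputable def rep (N : Net V F E) (O : Set F) (x : Cfg V F E K) : Cfg V F E K :=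
  N.mixC (N.expl O x)ᶜ x (fun _ => 0, fun _ => false)

omit [Fintype V] [Fintype F] [Fintype E] in
lemma rep_iff (N : Net V F E) (O : Set F) (x0 x : Cfg V F E K) :
    N.rep O x = N.rep O x0 ↔ N.agOut (N.expl O x0)ᶜ x0 x := by
  constructor
  · intro h
    have h1 : N.agOut (N.expl O x)ᶜ x (N.rep O x) := agOut_symm (N.agOut_mixC _ _ _)
    have h2 : N.agOut (N.expl O x0)ᶜ x0 (N.rep O x0) := agOut_symm (N.agOut_mixC _ _ _)
    have e1 := expl_congr h1
    have e2 := expl_congr h2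
    have e3 : N.expl O x = N.expl O x0 := by rw [← e1, ← e2, h]
    rw [e3] at h1
    rw [← h] at h2
    exact agOut_trans h2 (agOut_symm h1)
  · intro h
    have e := expl_congr h
    unfold rep
    rw [e]
    refine Prod.ext ?_ ?_
    · funext i
      by_cases hi : N.inD (N.expl O x0)ᶜ i
      · simp [mixC, hi]
      · simp only [mixC, hi, if_false]
        exact (h.1 i hi).symm
    · funext j
      by_cases hj : N.inE (N.expl O x0)ᶜ j
      · simp [mixC, hj]
      · simp only [mixC, hj, if_false]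
        exact (h.2 j hj).symm

/-- Exploration from `O`: on the event that `I` is not reached from `O`, with a decreasing tilt,
the expectation of an observable inside `I` is at most the one with zero boundary condition on the
complement of `O`. -/
theorem expl_le (N : Net V F E) (hN : N.Loc) {t : ℝ} (ht0 : 0 ≤ t) (ht : t ≤ 1)
    {κ : V ⊕ F → Fin (K + 1) → ℝ} (hκ : ∀ i z, 0 ≤ κ i z) {β : E → Bool → ℝ}
    (hβ : ∀ e b, 0 ≤ β e b) (hκ0 : ∀ i, 0 < κ i 0) (hβ0 : ∀ e, 0 < β e false)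
    {O I : Set F} {X : Cfg V F E K → ℝ} (hX : ∀ x, 0 ≤ X x) (hXa : Antitone X)
    {A : Cfg V F E K → (V ⊕ F → Bool) → ℝ} (hA : Mon A)
    (hAI : ∀ x x' s s', N.agIn I x x' → (∀ i, N.inD I i → s i = s' i) → A x s = A x' s') :
    N.J t κ β (fun x s => X x * (if Disjoint (N.expl O x) I then 1 else 0) * A x s) *
        N.J t κ β (fun x _ => N.zbi Oᶜ x)
      ≤ N.J t κ β (fun x _ => X x * (if Disjoint (N.expl O x) I then 1 else 0)) *
        N.J t κ β (fun x s => N.zbi Oᶜ x * A x s) := by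
  -- decomposition of a sum over the classes
  have dec : ∀ G : Cfg V F E K → (V ⊕ F → Bool) → ℝ,
      N.J t κ β (fun x s => X x * (if Disjoint (N.expl O x) I then 1 else 0) * G x s)
        = ∑ η : Cfg V F E K, N.J t κ β (fun x s =>
          X x * ((if Disjoint (N.expl O x) I then 1 else 0) * (if N.rep O x = η then 1 else 0)) *
            G x s) := by
    intro G
    simp only [J_eq_tw]
    rw [Finset.sum_comm]
    refine Finset.sum_congr rfl fun p _ => ?_
    have h : ∑ η : Cfg V F E K, (if N.rep O p.1 = η then (1 : ℝ) else 0) = 1 := by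
      simp
    calc N.tw t κ β p.1 p.2 * (X p.1 * (if Disjoint (N.expl O p.1) I then 1 else 0) * G p.1 p.2)
        = N.tw t κ β p.1 p.2 * (X p.1 * (if Disjoint (N.expl O p.1) I then 1 else 0) * G p.1 p.2)
          * ∑ η : Cfg V F E K, (if N.rep O p.1 = η then (1 : ℝ) else 0) := by rw [h, mul_one]
      _ = _ := by
        rw [Finset.mul_sum]
        refine Finset.sum_congr rfl fun η _ => ?_
        ring
  have dec1 := dec (fun _ _ => 1)
  simp only [mul_one] at dec1
  rw [dec A, dec1, Finset.sum_mul, Finset.sum_mul]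
  refine Finset.sum_le_sum fun η _ => ?_
  by_cases hη : ∃ x0 : Cfg V F E K, Disjoint (N.expl O x0) I ∧ N.rep O x0 = η
  · obtain ⟨x0, hd, he⟩ := hη
    have hfun : ∀ x : Cfg V F E K,
        (if Disjoint (N.expl O x) I then (1 : ℝ) else 0) * (if N.rep O x = η then 1 else 0)
          = if N.agOut (N.expl O x0)ᶜ x0 x then 1 else 0 := by
      intro x
      by_cases h : N.agOut (N.expl O x0)ᶜ x0 x
      · have e := expl_congr h
        have hr := (N.rep_iff O x0 x).mpr h
        rw [if_pos h, e, if_pos hd, hr, if_pos he, mul_one]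
      · rw [if_neg h]
        have : ¬ N.rep O x = η := by
          intro h'
          exact h ((N.rep_iff O x0 x).mp (h'.trans he.symm))
        rw [if_neg this, mul_zero]
    simp only [hfun]
    have hID : I ⊆ (N.expl O x0)ᶜ := fun f hf hf' => (Set.disjoint_left.mp hd) hf' hf
    refine N.class_le ht0 ht hκ hβ hκ0 hβ0 (D := (N.expl O x0)ᶜ) (D' := Oᶜ)
      (Set.compl_subset_compl.mpr (N.subset_expl O x0)) (blk_expl hN O x0) hX hXa hA ?_
    intro x x' s s' h1 h2
    exact hAI x x' s s' (agIn_mono hID h1) fun i hi => h2 i (inD_mono hID hi)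
  · have hfun : ∀ x : Cfg V F E K,
        (if Disjoint (N.expl O x) I then (1 : ℝ) else 0) * (if N.rep O x = η then 1 else 0)
          = 0 := by
      intro x
      by_cases h1 : Disjoint (N.expl O x) I
      · by_cases h2 : N.rep O x = η
        · exact absurd ⟨x, h1, h2⟩ hη
        · rw [if_neg h2, mul_zero]
      · rw [if_neg h1, zero_mul]
    simp only [hfun, mul_zero, zero_mul]
    have : N.J t κ β (fun (_ : Cfg V F E K) (_ : V ⊕ F → Bool) => (0 : ℝ)) = 0 := by
      simp [J]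
    rw [this, zero_mul, zero_mul]

end

end Net

end Vale.Agent.P145.FK
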