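import Vale.Agent.P145.FK.N6

/-!
P145, block K1: squares of faces of the six-vertex lattice are locally connected.
-/

namespace Vale.Agent.P145.FK

open Finset Vale.Agent.P145.FP Vale.Agent.P145.Dom
open scoped Classical

/-- The vertex between a horizontal and a vertical neighbour of an even face. -/
lemma exists_cor6 {B : Finset (ℤ × ℤ)} {v : ℤ × ℤ} (hv : v ∈ ev6 B) {a b : ℤ}
    (ha : a = 1 ∨ a = -1) (hb : b = 1 ∨ b = -1) (h1 : (v.1 + a, v.2) ∈ B)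
    (h2 : (v.1, v.2 + b) ∈ B) (h3 : (v.1 + a, v.2 + b) ∈ B) :
    ∃ w ∈ FC.VB B, (FB.e1 w = v ∨ FB.e2 w = v) ∧
      ((FB.o1 w = (v.1 + a, v.2) ∧ FB.o2 w = (v.1, v.2 + b)) ∨
        (FB.o2 w = (v.1 + a, v.2) ∧ FB.o1 w = (v.1, v.2 + b))) := by
  obtain ⟨hvB, hve⟩ := mem_ev6.1 hv
  obtain ⟨x, y⟩ := v
  simp only at h1 h2 h3 hve hvB ⊢
  have key : ∀ w : ℤ × ℤ, (FB.e1 w = (x, y) ∧ FB.e2 w = (x + a, y + b) ∨
      FB.e2 w = (x, y) ∧ FB.e1 w = (x + a, y + b)) →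
      ((FB.o1 w = (x + a, y) ∧ FB.o2 w = (x, y + b)) ∨
        (FB.o2 w = (x + a, y) ∧ FB.o1 w = (x, y + b))) →
      ∃ w ∈ FC.VB B, (FB.e1 w = (x, y) ∨ FB.e2 w = (x, y)) ∧
      ((FB.o1 w = (x + a, y) ∧ FB.o2 w = (x, y + b)) ∨
        (FB.o2 w = (x + a, y) ∧ FB.o1 w = (x, y + b))) := by
    intro w hw hw'
    refine ⟨w, mem_VB.2 ?_, ?_, hw'⟩
    · rcases hw with ⟨e, e'⟩ | ⟨e, e'⟩ <;> rcases hw' with ⟨g, g'⟩ | ⟨g, g'⟩ <;>
        rw [e, e', g, g'] <;> tauto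
    · rcases hw with ⟨e, e'⟩ | ⟨e, e'⟩
      · exact Or.inl e
      · exact Or.inr e
  rw [Int.even_iff] at hve
  rcases ha with rfl | rfl <;> rcases hb with rfl | rfl
  · have hp : Even ((x + 1) + (y + 1)) := by rw [Int.even_iff]; omega
    refine key (x + 1, y + 1) (Or.inr ⟨?_, ?_⟩) (Or.inr ⟨?_, ?_⟩) <;>
      simp only [FB.e1, FB.e2, FB.o1, FB.o2, if_pos hp, Prod.mk.injEq, true_and, and_true] <;> omega
  · have hp : ¬ Even ((x + 1) + y) := by rw [Int.even_iff]; omega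
    refine key (x + 1, y) (Or.inl ⟨?_, ?_⟩) (Or.inl ⟨?_, ?_⟩) <;>
      simp only [FB.e1, FB.e2, FB.o1, FB.o2, if_neg hp, Prod.mk.injEq, true_and, and_true] <;> omega
  · have hp : ¬ Even (x + (y + 1)) := by rw [Int.even_iff]; omega
    refine key (x, y + 1) (Or.inr ⟨?_, ?_⟩) (Or.inr ⟨?_, ?_⟩) <;>
      simp only [FB.e1, FB.e2, FB.o1, FB.o2, if_neg hp, Prod.mk.injEq, true_and, and_true] <;> omega
  · have hp : Even (x + y) := by rw [Int.even_iff]; omega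
    refine key (x, y) (Or.inl ⟨?_, ?_⟩) (Or.inl ⟨?_, ?_⟩) <;>
      simp only [FB.e1, FB.e2, FB.o1, FB.o2, if_pos hp, Prod.mk.injEq, true_and, and_true] <;> omega

/-- Squares are locally connected. -/
theorem n6_loc (n : ℕ) : (n6 (Sq n)).Loc := by
  rintro ⟨⟨x, y⟩, hv⟩ D ⟨⟨f, hf⟩, hfa, hfD⟩ ⟨⟨f', hf'⟩, hfa', hfD'⟩
  have hvB := (mem_ev6.1 hv).1
  rw [mem_Sq, abs_le, abs_le] at hvB
  simp only at hvB
  have hev := (mem_ev6.1 hv).2
  simp only at hev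
  have hod : ∀ p : ℤ × ℤ, p ∈ Sq n → Adj (x, y) p → p ∈ od6 (Sq n) := by
    intro p hp ha
    refine mem_od6.2 ⟨hp, ?_⟩
    rw [Int.even_iff] at hev
    rw [Int.even_iff]
    unfold Adj at ha
    simp only at ha
    omega
  -- one step around a corner
  have key : ∀ a b : ℤ, (a = 1 ∨ a = -1) → (b = 1 ∨ b = -1) →
      ∀ (h1 : (x + a, y) ∈ od6 (Sq n)) (h2 : (x, y + b) ∈ od6 (Sq n)),
      ¬ ((⟨_, h1⟩ : F6 (Sq n)) ∈ D ↔ (⟨_, h2⟩ : F6 (Sq n)) ∈ D) →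
      ∃ e, ((n6 (Sq n)).u e = ⟨(x, y), hv⟩ ∨ (n6 (Sq n)).v e = ⟨(x, y), hv⟩) ∧
        ¬ ((n6 (Sq n)).f e ∈ D ↔ (n6 (Sq n)).g e ∈ D) := by
    intro a b ha hb h1 h2 hne
    have h1' := (mem_od6.1 h1).1
    have h2' := (mem_od6.1 h2).1
    have h3 : (x + a, y + b) ∈ Sq n := by
      rw [mem_Sq] at h1' h2' ⊢
      exact ⟨h1'.1, h2'.2⟩
    obtain ⟨w, hw, hwe, hwo⟩ := exists_cor6 (v := (x, y)) hv ha hb h1' h2' h3
    refine ⟨⟨w, hw⟩, ?_, ?_⟩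
    · rcases hwe with h | h
      · exact Or.inl (Subtype.ext h)
      · exact Or.inr (Subtype.ext h)
    · intro hiff
      apply hne
      rcases hwo with ⟨g1, g2⟩ | ⟨g1, g2⟩
      · have q1 : (n6 (Sq n)).f ⟨w, hw⟩ = ⟨_, h1⟩ := Subtype.ext g1
        have q2 : (n6 (Sq n)).g ⟨w, hw⟩ = ⟨_, h2⟩ := Subtype.ext g2
        rw [q1, q2] at hiff
        exact hiff
      · have q1 : (n6 (Sq n)).g ⟨w, hw⟩ = ⟨_, h1⟩ := Subtype.ext g1
        have q2 : (n6 (Sq n)).f ⟨w, hw⟩ = ⟨_, h2⟩ := Subtype.ext g2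
        rw [q1, q2] at hiff
        exact hiff.symm
  have hform : ∀ p : ℤ × ℤ, Adj (x, y) p →
      (∃ a : ℤ, (a = 1 ∨ a = -1) ∧ p = (x + a, y)) ∨ ∃ b : ℤ, (b = 1 ∨ b = -1) ∧ p = (x, y + b) := by
    rintro ⟨p, q⟩ h
    unfold Adj at h
    simp only at h
    rcases h with ⟨h1, h2⟩ | ⟨h1, h2⟩
    · right
      rcases h2 with h2 | h2
      · exact ⟨-1, Or.inr rfl, by ext <;> simp only <;> omega⟩
      · exact ⟨1, Or.inl rfl, by ext <;> simp only <;> omega⟩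
    · left
      rcases h2 with h2 | h2
      · exact ⟨-1, Or.inr rfl, by ext <;> simp only <;> omega⟩
      · exact ⟨1, Or.inl rfl, by ext <;> simp only <;> omega⟩
  have hfB := (mem_od6.1 hf).1
  have hfB' := (mem_od6.1 hf').1
  have hh : ∀ (p : ℤ × ℤ) (h h' : p ∈ od6 (Sq n)), ((⟨p, h⟩ : F6 (Sq n)) ∈ D) →
      (⟨p, h'⟩ : F6 (Sq n)) ∈ D := fun p h h' hD => hD
  rcases hform f hfa with ⟨a, ha, rfl⟩ | ⟨b, hb, rfl⟩ <;>
    rcases hform f' hfa' with ⟨a', ha', rfl⟩ | ⟨b', hb', rfl⟩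
  · -- two horizontal neighbours
    have hn : 1 ≤ n := by
      rw [mem_Sq, abs_le, abs_le] at hfB hfB'
      simp only at hfB hfB'
      by_contra h0
      omega
    obtain ⟨b, hb, hbB⟩ : ∃ b : ℤ, (b = 1 ∨ b = -1) ∧ (x, y + b) ∈ Sq n := by
      rcases le_or_gt (y + 1) n with h | h
      · exact ⟨1, Or.inl rfl, by rw [mem_Sq, abs_le, abs_le]; simp only; omega⟩
      · exact ⟨-1, Or.inr rfl, by rw [mem_Sq, abs_le, abs_le]; simp only; omega⟩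
    have hbo : (x, y + b) ∈ od6 (Sq n) := hod _ hbB (by unfold Adj; simp only [true_and]; omega)
    by_cases hD : (⟨_, hbo⟩ : F6 (Sq n)) ∈ D
    · exact key a' b ha' hb hf' hbo fun h => hfD' (h.2 hD)
    · exact key a b ha hb hf hbo fun h => hD (h.1 hfD)
  · exact key a b' ha hb' hf hf' fun h => hfD' (h.1 hfD)
  · exact key a' b ha' hb hf' hf fun h => hfD' (h.2 hfD)
  · have hn : 1 ≤ n := by
      rw [mem_Sq, abs_le, abs_le] at hfB hfB'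
      simp only at hfB hfB'
      by_contra h0
      omega
    obtain ⟨a, ha, haB⟩ : ∃ a : ℤ, (a = 1 ∨ a = -1) ∧ (x + a, y) ∈ Sq n := by
      rcases le_or_gt (x + 1) n with h | h
      · exact ⟨1, Or.inl rfl, by rw [mem_Sq, abs_le, abs_le]; simp only; omega⟩
      · exact ⟨-1, Or.inr rfl, by rw [mem_Sq, abs_le, abs_le]; simp only; omega⟩
    have hao : (x + a, y) ∈ od6 (Sq n) := hod _ haB (by unfold Adj; simp only [true_and]; omega)
    by_cases hD : (⟨_, hao⟩ : F6 (Sq n)) ∈ D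
    · exact key a b' ha hb' hao hf' fun h => hfD' (h.1 hD)
    · exact key a b ha hb hao hf fun h => hD (h.2 hfD)

end Vale.Agent.P145.FK
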