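import Vale.Agent.P145.FK.Low
import Vale.Agent.P145.FK.N6Loc

/-!
P145, block K1: the inequality EXT in the plane.
-/

namespace Vale.Agent.P145.FK

open Finset Filter Topology MeasureTheory Vale.Agent.P145.FP Vale.Agent.P145.Dom
open Vale.Agent.P145.FA (Hgt mu0 Pl BoxLim ofW)
open Vale.Agent.P145.FB (Pt Mk mkm om MU)
open Vale.Agent.P152 (Ori pth wc)
open Vale.Agent.P152.GFF.B3 (IsP boxNet BE)
open scoped Classical

/-- EXT in the plane. -/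
theorem ext_plane {c : ℝ} (hc : 1 ≤ c) (hc2 : c ≤ 2) (hb : BoxLim c)
    {P : Measure (Ori (ℤ × ℤ))} (hPl : Pl c P) (hP : IsP c P) {O I : Set (ℤ × ℤ)}
    (hOf : O.Finite) (hOn : O.Nonempty) {X Θ A : Hgt → Set Pt → ℝ} {m : ℕ}
    (hX0 : ∀ h b, 0 ≤ X h b) (hX : DecM X) (hXd : ∀ h b, X h b ≠ 0 → Cf6 b O Iᶜ)
    (hΘ0 : ∀ h b, 0 ≤ Θ h b) (hΘ : OutM Oᶜ Θ) (hA : PosM A) (hAI : InM I A)
    (hXl : Loc6 m X) (hΘl : Loc6 m Θ) (hAl : Loc6 m A)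
    (iX : Integrable (fun x => X x.1 (bl x)) (MU c⁻¹ P))
    (iXA : Integrable (fun x => X x.1 (bl x) * A x.1 (bl x)) (MU c⁻¹ P))
    (iΘ : Integrable (fun x => Θ x.1 (bl x)) (MU c⁻¹ P))
    (iΘA : Integrable (fun x => Θ x.1 (bl x) * A x.1 (bl x)) (MU c⁻¹ P)) :
    (∫ x, X x.1 (bl x) * A x.1 (bl x) ∂(MU c⁻¹ P)) * (∫ x, Θ x.1 (bl x) ∂(MU c⁻¹ P)) ≤
      (∫ x, X x.1 (bl x) ∂(MU c⁻¹ P)) * (∫ x, Θ x.1 (bl x) * A x.1 (bl x) ∂(MU c⁻¹ P)) := by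
  have hc0 : 0 < c := by linarith
  have ht : 0 < c⁻¹ := inv_pos.mpr hc0
  have ht1 : c⁻¹ ≤ 1 := inv_le_one_of_one_le₀ hc
  obtain ⟨v1, hv1⟩ := hOn
  set q1 : Pt := FP.fc (.inl v1) with hq1
  have hq1O : ¬ Ins Oᶜ q1 := by
    intro h
    unfold Ins at h
    rw [hq1, cf_fc] at h
    exact h v1 (cor00 v1) hv1
  set M : ℕ := max m (max q1.1.natAbs q1.2.natAbs) with hM
  have hq1M : q1 ∈ Sq M := by
    rw [mem_Sq]
    have h1 : q1.1.natAbs ≤ M := (le_max_left _ _).trans (le_max_right _ _)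
    have h2 : q1.2.natAbs ≤ M := (le_max_right _ _).trans (le_max_right _ _)
    rw [Int.abs_eq_natAbs, Int.abs_eq_natAbs]
    exact ⟨by exact_mod_cast h1, by exact_mod_cast h2⟩
  have hXM : Loc6 M X := hXl.mono (le_max_left _ _)
  have hΘM : Loc6 M Θ := hΘl.mono (le_max_left _ _)
  have hAM : Loc6 M A := hAl.mono (le_max_left _ _)
  obtain ⟨R, hR⟩ := sup6_tr6 hq1M
  obtain ⟨n0, hn0⟩ := exists_Nb6 hOf.toFinset
  rw [Set.Finite.coe_toFinset] at hn0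
  have key : ∀ L : ℕ,
      (∫ x, tr6 q1 L (fun h b => X h b * A h b) x.1 (bl x) ∂(MU c⁻¹ P)) *
        (∫ x, tr6 q1 L Θ x.1 (bl x) ∂(MU c⁻¹ P)) ≤
      (∫ x, tr6 q1 L X x.1 (bl x) ∂(MU c⁻¹ P)) *
        (∫ x, tr6 q1 L (fun h b => Θ h b * A h b) x.1 (bl x) ∂(MU c⁻¹ P)) := by
    intro L
    have hK : ∀ n, (L + R) + 2 * n + 2 ≤ (L + R) + 2 * n + 2 := fun n => le_rfl
    have l1 := lim6 hc hb hPl hP ((hXM.mul hAM).tr6 hq1M L) (hR L (fun h b => X h b * A h b))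
      (tr6_int q1 iXA L) hK
    have l2 := lim6 hc hb hPl hP (hΘM.tr6 hq1M L) (hR L Θ) (tr6_int q1 iΘ L) hK
    have l3 := lim6 hc hb hPl hP (hXM.tr6 hq1M L) (hR L X) (tr6_int q1 iX L) hK
    have l4 := lim6 hc hb hPl hP ((hΘM.mul hAM).tr6 hq1M L) (hR L (fun h b => Θ h b * A h b))
      (tr6_int q1 iΘA L) hK
    refine le_of_tendsto_of_tendsto (l1.mul l2) (l3.mul l4) ?_
    filter_upwards [eventually_ge_atTop n0] with n hn
    have hnb := hn0 n hn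
    have h1 := ext6' (K := (L + R) + 2 * n + 2) ht ht1 (n6_loc n) hnb hA hAI
      (tr6_nonneg (q := q1) (L := L) hX0) (hX.tr6 q1 L hX0)
      (fun h b hne => hXd h b fun h0 => hne (by unfold tr6; rw [h0, ite_self]))
      (tr6_nonneg (q := q1) (L := L) hΘ0) (hΘ.tr6 hq1O L)
    rw [tr6_mul, tr6_mul] at h1
    have hD := Dn_pos hc0 hc2 n
    rw [div_mul_div_comm, div_mul_div_comm]
    exact div_le_div_of_nonneg_right h1 (mul_pos hD hD).le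
  exact le_of_tendsto_of_tendsto' ((tr6_lim q1 iXA).mul (tr6_lim q1 iΘ))
    ((tr6_lim q1 iX).mul (tr6_lim q1 iΘA)) key

end Vale.Agent.P145.FK
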