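import Vale.Agent.P145.FK.Explore

/-!
P145, block K1: exploration from a set `O` compared with a tilt inside `O` (box form).
-/

namespace Vale.Agent.P145.FK

open Finset
open scoped Classical

namespace Net

variable {V F E : Type*} {K : ℕ} [Fintype V] [Fintype F] [Fintype E]

/-- **Decorrelation by a blocked contour.** `X` decreases in the configuration and is carried by the
event that `I` is not reached from `O`; `A` is an increasing observable inside `I`; `Θ` depends only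
on what is outside the complement of `O`. -/
theorem ext_le (N : Net V F E) (hN : N.Loc) {t : ℝ} (ht0 : 0 ≤ t) (ht : t ≤ 1)
    {κ : V ⊕ F → Fin (K + 1) → ℝ} (hκ : ∀ i z, 0 ≤ κ i z) {β : E → Bool → ℝ}
    (hβ : ∀ e b, 0 ≤ β e b) (hκ0 : ∀ i, 0 < κ i 0) (hβ0 : ∀ e, 0 < β e false)
    {O I : Set F} {X Θ : Cfg V F E K → ℝ} (hX : ∀ x, 0 ≤ X x) (hXa : Antitone X)
    (hXd : ∀ x, X x ≠ 0 → Disjoint (N.expl O x) I) (hΘ : ∀ x, 0 ≤ Θ x)
    (hΘO : ∀ x y, N.agOut Oᶜ x y → Θ x = Θ y)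
    {A : Cfg V F E K → (V ⊕ F → Bool) → ℝ} (hA : Mon A)
    (hAI : ∀ x x' s s', N.agIn I x x' → (∀ i, N.inD I i → s i = s' i) → A x s = A x' s') :
    N.J t κ β (fun x s => X x * A x s) * N.J t κ β (fun x _ => Θ x)
      ≤ N.J t κ β (fun x _ => X x) * N.J t κ β (fun x s => Θ x * A x s) := by
  have h1 := N.expl_le hN ht0 ht hκ hβ hκ0 hβ0 (O := O) (I := I) hX hXa hA hAI
  have h2 := N.zero_le_out ht0 ht hκ hβ Oᶜ (X := fun _ => 1) (Θ := Θ) (C := fun _ => 1)
    (fun _ => zero_le_one) (fun _ _ _ => le_rfl) hΘ hΘO (fun _ => zero_le_one)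
    (fun _ _ _ => le_rfl) hA
  have e : ∀ x, X x * (if Disjoint (N.expl O x) I then (1 : ℝ) else 0) = X x := by
    intro x
    by_cases h : X x = 0
    · rw [h, zero_mul]
    · rw [if_pos (hXd x h), mul_one]
  simp only [e] at h1
  simp only [one_mul, mul_one] at h2
  have p := N.J_zbi_pos ht0 hκ hβ hκ0 hβ0 Oᶜ
  have n1 : 0 ≤ N.J t κ β (fun x _ => Θ x) := N.J_nonneg ht0 hκ hβ fun x _ => hΘ x
  have n2 : 0 ≤ N.J t κ β (fun x _ => X x) := N.J_nonneg ht0 hκ hβ fun x _ => hX x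
  set z := N.J t κ β (fun x _ => N.zbi Oᶜ x)
  set a := N.J t κ β (fun x s => X x * A x s)
  set b := N.J t κ β (fun x _ => X x)
  set u := N.J t κ β (fun x s => N.zbi Oᶜ x * A x s)
  set v := N.J t κ β (fun x _ => Θ x)
  set w := N.J t κ β (fun x s => Θ x * A x s)
  have h3 : z * (a * v) ≤ z * (b * w) := by
    calc z * (a * v) = (a * z) * v := by ring
      _ ≤ (b * u) * v := mul_le_mul_of_nonneg_right h1 n1
      _ = b * (u * v) := by ring
      _ ≤ b * (z * w) := mul_le_mul_of_nonneg_left h2 n2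
      _ = z * (b * w) := by ring
  exact le_of_mul_le_mul_left h3 p

end Net

end Vale.Agent.P145.FK
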