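import Mathlib

/-!
P145, block K1: summation over the fibres of a product map.
-/

namespace Vale.Agent.P145.FK

open Finset

/-- Summation over the fibres of a product map. -/
lemma sum_fiber {ι X Y : Type*} [Fintype ι] [DecidableEq ι] [Fintype X] [DecidableEq Y]
    (π : ι → X → Y) (T : ι → Finset Y) (hT : ∀ i x, π i x ∈ T i) (c : ι → X → ℝ)
    (g : (ι → Y) → ℝ) :
    ∑ x : ι → X, (∏ i, c i (x i)) * g (fun i => π i (x i))
      = ∑ y ∈ Fintype.piFinset T,
        (∏ i, ∑ z ∈ Finset.univ.filter (fun z => π i z = y i), c i z) * g y := by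
  classical
  have h1 : ∀ x ∈ (Finset.univ : Finset (ι → X)),
      (fun i => π i (x i)) ∈ Fintype.piFinset T := fun x _ =>
    Fintype.mem_piFinset.mpr fun i => hT i (x i)
  rw [← Finset.sum_fiberwise_of_maps_to h1]
  refine Finset.sum_congr rfl fun y _ => ?_
  rw [Finset.prod_univ_sum, Finset.sum_mul]
  refine Finset.sum_congr ?_ ?_
  · ext x
    simp only [Finset.mem_filter, Finset.mem_univ, true_and, Fintype.mem_piFinset]
    exact funext_iff
  · intro x hx
    have : (fun i => π i (x i)) = y := by
      funext i
      have := (Fintype.mem_piFinset.mp hx) i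
      simpa using this
    rw [this]

end Vale.Agent.P145.FK
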