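import Vale.Agent.P145.FK.Spin

/-!
P145, block K1: functions increasing in an ordered variable and ferromagnetic in the signs;
the four functions theorem as a comparison of two tilts.
-/

namespace Vale.Agent.P145.FK

open Finset
open scoped Classical

/-- Functions increasing in the first variable and ferromagnetic in the signs. -/
inductive Mon {α I : Type*} [Preorder α] [Fintype I] : (α → (I → Bool) → ℝ) → Prop
  | one {B : α → ℝ} (hB0 : ∀ a, 0 ≤ B a) (hB : Monotone B)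
      {φ : (I → Bool) → ℝ} (hφ : Pos φ) : Mon (fun a s => B a * φ s)
  | add {f g : α → (I → Bool) → ℝ} : Mon f → Mon g → Mon (fun a s => f a s + g a s)

namespace Mon

variable {α β I : Type*} [Preorder α] [Preorder β] [Fintype I]

lemma mag {B : α → ℝ} (hB0 : ∀ a, 0 ≤ B a) (hB : Monotone B) :
    Mon (fun a (_ : I → Bool) => B a) := by
  have h := Mon.one hB0 hB (Pos.const (I := I) 1 zero_le_one)
  simpa using h

lemma sgn {φ : (I → Bool) → ℝ} (hφ : Pos φ) : Mon (fun (_ : α) s => φ s) := by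
  have h := Mon.one (α := α) (B := fun _ => 1) (fun _ => zero_le_one) (fun _ _ _ => le_rfl) hφ
  simpa using h

lemma const {c : ℝ} (hc : 0 ≤ c) : Mon (fun (_ : α) (_ : I → Bool) => c) :=
  mag (fun _ => hc) (fun _ _ _ => le_rfl)

lemma mul {f g : α → (I → Bool) → ℝ} (hf : Mon f) (hg : Mon g) :
    Mon (fun a s => f a s * g a s) := by
  induction hf with
  | one h0 hB hφ =>
    induction hg with
    | one h0' hB' hφ' =>
      have h := Mon.one (fun a => mul_nonneg (h0 a) (h0' a))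
        (fun a b hab => mul_le_mul (hB hab) (hB' hab) (h0' a) (h0 b)) (Pos.mul hφ hφ')
      refine (congrArg Mon ?_).mp h
      funext a s
      ring
    | add h1 h2 ih1 ih2 =>
      have h := Mon.add ih1 ih2
      refine (congrArg Mon ?_).mp h
      funext a s
      ring
  | add h1 h2 ih1 ih2 =>
    have h := Mon.add ih1 ih2
    refine (congrArg Mon ?_).mp h
    funext a s
    ring

lemma smul {f : α → (I → Bool) → ℝ} {c : ℝ} (hc : 0 ≤ c)
    (hf : Mon f) : Mon (fun a s => c * f a s) := mul (const hc) hf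

lemma sum {ι : Type*} (T : Finset ι) (f : ι → α → (I → Bool) → ℝ)
    (h : ∀ i ∈ T, Mon (f i)) : Mon (fun a s => ∑ i ∈ T, f i a s) := by
  classical
  induction T using Finset.induction_on with
  | empty => simpa using const (α := α) (I := I) le_rfl
  | insert i T hi ih =>
    have h1 := h i (Finset.mem_insert_self i T)
    have h2 := ih (fun j hj => h j (Finset.mem_insert_of_mem hj))
    simpa only [Finset.sum_insert hi] using Mon.add h1 h2

lemma prod {ι : Type*} (T : Finset ι) (f : ι → α → (I → Bool) → ℝ)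
    (h : ∀ i ∈ T, Mon (f i)) : Mon (fun a s => ∏ i ∈ T, f i a s) := by
  classical
  induction T using Finset.induction_on with
  | empty => simpa using const (α := α) (I := I) zero_le_one
  | insert i T hi ih =>
    have h1 := h i (Finset.mem_insert_self i T)
    have h2 := ih (fun j hj => h j (Finset.mem_insert_of_mem hj))
    simpa only [Finset.prod_insert hi] using Mon.mul h1 h2

lemma comp {f : α → (I → Bool) → ℝ} (hf : Mon f) {g : β → α} (hg : Monotone g) :
    Mon (fun b s => f (g b) s) := by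
  induction hf with
  | one h0 hB hφ => exact Mon.one (fun b => h0 (g b)) (hB.comp hg) hφ
  | add h1 h2 ih1 ih2 => exact Mon.add ih1 ih2

end Mon

/-- Four functions, in the form of a comparison of two tilts. -/
lemma four {α : Type*} [DistribLattice α] [Fintype α] (μ P Q A : α → ℝ) (hμ0 : ∀ a, 0 ≤ μ a)
    (hμ : ∀ a b, μ a * μ b ≤ μ (a ⊓ b) * μ (a ⊔ b)) (hP : ∀ a, 0 ≤ P a) (hQ : ∀ a, 0 ≤ Q a)
    (hA : ∀ a, 0 ≤ A a) (hAm : Monotone A)
    (hPQ : ∀ a b, μ a ≠ 0 → μ b ≠ 0 → P a * Q b ≤ P (a ⊓ b) * Q (a ⊔ b)) :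
    (∑ a, P a * μ a * A a) * (∑ a, Q a * μ a) ≤ (∑ a, P a * μ a) * (∑ a, Q a * μ a * A a) := by
  classical
  refine four_functions_theorem_univ (fun a => P a * μ a * A a) (fun a => Q a * μ a)
    (fun a => P a * μ a) (fun a => Q a * μ a * A a)
    (fun a => mul_nonneg (mul_nonneg (hP a) (hμ0 a)) (hA a))
    (fun a => mul_nonneg (hQ a) (hμ0 a)) (fun a => mul_nonneg (hP a) (hμ0 a))
    (fun a => mul_nonneg (mul_nonneg (hQ a) (hμ0 a)) (hA a)) ?_
  intro a b
  show P a * μ a * A a * (Q b * μ b) ≤ P (a ⊓ b) * μ (a ⊓ b) * (Q (a ⊔ b) * μ (a ⊔ b) * A (a ⊔ b))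
  by_cases h1 : μ a = 0
  · rw [h1]
    have : 0 ≤ P (a ⊓ b) * μ (a ⊓ b) * (Q (a ⊔ b) * μ (a ⊔ b) * A (a ⊔ b)) :=
      mul_nonneg (mul_nonneg (hP _) (hμ0 _)) (mul_nonneg (mul_nonneg (hQ _) (hμ0 _)) (hA _))
    simpa using this
  by_cases h2 : μ b = 0
  · rw [h2]
    have : 0 ≤ P (a ⊓ b) * μ (a ⊓ b) * (Q (a ⊔ b) * μ (a ⊔ b) * A (a ⊔ b)) :=
      mul_nonneg (mul_nonneg (hP _) (hμ0 _)) (mul_nonneg (mul_nonneg (hQ _) (hμ0 _)) (hA _))
    simpa using this
  have e1 : (P a * Q b) * (μ a * μ b) ≤ (P (a ⊓ b) * Q (a ⊔ b)) * (μ (a ⊓ b) * μ (a ⊔ b)) :=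
    mul_le_mul (hPQ a b h1 h2) (hμ a b) (mul_nonneg (hμ0 a) (hμ0 b))
      (mul_nonneg (hP _) (hQ _))
  have e2 : A a ≤ A (a ⊔ b) := hAm le_sup_left
  calc P a * μ a * A a * (Q b * μ b) = (P a * Q b) * (μ a * μ b) * A a := by ring
    _ ≤ (P (a ⊓ b) * Q (a ⊔ b)) * (μ (a ⊓ b) * μ (a ⊔ b)) * A (a ⊔ b) :=
      mul_le_mul e1 e2 (hA a) (mul_nonneg (mul_nonneg (hP _) (hQ _))
        (mul_nonneg (hμ0 _) (hμ0 _)))
    _ = _ := by ring

end Vale.Agent.P145.FK
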