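import Vale.Agent.P145.FK.Model
import Vale.Agent.P145.FK.Mon

/-!
P145, block K1: correlation inequality for magnitudes and signs, with two systems of sign
couplings.
-/

namespace Vale.Agent.P145.FK

open Finset
open scoped Classical

namespace Net

variable {V F E : Type*} {K : ℕ}

section mag
variable [Fintype V] [Fintype F] [Fintype E]

/-- Weight of the magnitudes: on-site weights, ice rule, flat weights. -/
noncomputable def mw (N : Net V F E) (t : ℝ) (κ : V ⊕ F → Fin (K + 1) → ℝ)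
    (a : V ⊕ F → Fin (K + 1)) : ℝ :=
  (if N.adm a then 1 else 0) * ((∏ e, N.wE t a e) * ∏ i, κ i (a i))

lemma mw_nonneg (N : Net V F E) {t : ℝ} (ht0 : 0 ≤ t) {κ : V ⊕ F → Fin (K + 1) → ℝ}
    (hκ : ∀ i x, 0 ≤ κ i x) (a : V ⊕ F → Fin (K + 1)) : 0 ≤ N.mw t κ a := by
  unfold mw
  refine mul_nonneg (by split_ifs <;> norm_num) (mul_nonneg ?_ ?_)
  · exact Finset.prod_nonneg fun e _ => wE_nonneg ht0 a e
  · exact Finset.prod_nonneg fun i _ => hκ i _

lemma mw_adm (N : Net V F E) {t : ℝ} {κ : V ⊕ F → Fin (K + 1) → ℝ}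
    {a : V ⊕ F → Fin (K + 1)} (h : N.mw t κ a ≠ 0) : N.adm a := by
  by_contra h'
  exact h (by simp [mw, h'])

lemma mw_lattice (N : Net V F E) {t : ℝ} (ht0 : 0 ≤ t) (ht : t ≤ 1)
    {κ : V ⊕ F → Fin (K + 1) → ℝ} (hκ : ∀ i x, 0 ≤ κ i x) (a b : V ⊕ F → Fin (K + 1)) :
    N.mw t κ a * N.mw t κ b ≤ N.mw t κ (a ⊓ b) * N.mw t κ (a ⊔ b) := by
  by_cases ha : N.adm a
  · by_cases hb : N.adm b
    · unfold mw
      rw [if_pos ha, if_pos hb, if_pos (adm_inf ha hb), if_pos (adm_sup ha hb), one_mul, one_mul,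
        one_mul, one_mul]
      have h1 : (∏ e, N.wE t a e) * (∏ e, N.wE t b e)
          ≤ (∏ e, N.wE t (a ⊓ b) e) * (∏ e, N.wE t (a ⊔ b) e) := by
        rw [← Finset.prod_mul_distrib, ← Finset.prod_mul_distrib]
        exact Finset.prod_le_prod
          (fun e _ => mul_nonneg (wE_nonneg ht0 a e) (wE_nonneg ht0 b e))
          (fun e _ => wE_lattice ht0 ht ha hb e)
      have h2 : (∏ i, κ i (a i)) * (∏ i, κ i (b i))
          = (∏ i, κ i ((a ⊓ b) i)) * (∏ i, κ i ((a ⊔ b) i)) := by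
        rw [← Finset.prod_mul_distrib, ← Finset.prod_mul_distrib]
        refine Finset.prod_congr rfl fun i _ => ?_
        rcases le_total (a i) (b i) with h | h
        · rw [Pi.inf_apply, Pi.sup_apply, inf_eq_left.mpr h, sup_eq_right.mpr h]
        · rw [Pi.inf_apply, Pi.sup_apply, inf_eq_right.mpr h, sup_eq_left.mpr h, mul_comm]
      calc _ = ((∏ e, N.wE t a e) * (∏ e, N.wE t b e)) *
            ((∏ i, κ i (a i)) * (∏ i, κ i (b i))) := by ring
        _ ≤ ((∏ e, N.wE t (a ⊓ b) e) * (∏ e, N.wE t (a ⊔ b) e)) *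
            ((∏ i, κ i (a i)) * (∏ i, κ i (b i))) :=
          mul_le_mul_of_nonneg_right h1 (mul_nonneg
            (Finset.prod_nonneg fun i _ => hκ i _) (Finset.prod_nonneg fun i _ => hκ i _))
        _ = _ := by rw [h2]; ring
    · have : N.mw t κ b = 0 := by simp [mw, hb]
      rw [this, mul_zero]
      exact mul_nonneg (N.mw_nonneg ht0 hκ _) (N.mw_nonneg ht0 hκ _)
  · have : N.mw t κ a = 0 := by simp [mw, ha]
    rw [this, zero_mul]
    exact mul_nonneg (N.mw_nonneg ht0 hκ _) (N.mw_nonneg ht0 hκ _)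

end mag

section main
variable [Fintype V] [Fintype F]

variable [Fintype E]

/-- Partition sum over magnitudes and signs. -/
noncomputable def S (N : Net V F E) (t : ℝ) (κ : V ⊕ F → Fin (K + 1) → ℝ) (r : E → ℝ)
    (G : (V ⊕ F → Fin (K + 1)) → (V ⊕ F → Bool) → ℝ) : ℝ :=
  ∑ a, ∑ s, N.mw t κ a * N.W r (supp a) s * G a s

/-- The product of the additional sign couplings. -/
noncomputable def Th (N : Net V F E) (q : E → ℝ) (s : V ⊕ F → Bool) : ℝ := ∏ e, N.th (q e) e s

lemma Th_pos (N : Net V F E) {q : E → ℝ} (h0 : ∀ e, 0 ≤ q e) (h1 : ∀ e, q e ≤ 1) :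
    Pos (N.Th q) := Pos.prod _ _ fun e _ => N.th_pos (h0 e) (h1 e) e

omit [Fintype V] [Fintype F] [Fintype E] in
lemma th_mul (N : Net V F E) (x y : ℝ) (e : E) (s : V ⊕ F → Bool) :
    N.th (x * y) e s = N.th x e s * N.th y e s := by
  unfold th pr
  cases s (.inr (N.f e)) <;> cases s (.inr (N.g e)) <;> norm_num <;> ring

omit [Fintype V] in
lemma W_mul (N : Net V F E) (x y : E → ℝ) (S : Finset V) (s : V ⊕ F → Bool) :
    N.W (fun e => x e * y e) S s = N.W x S s * N.Th y s := by
  unfold W Th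
  simp only [th_mul, Finset.prod_mul_distrib]
  ring

lemma Z_mul (N : Net V F E) (x y : E → ℝ) (S : Finset V) (φ : (V ⊕ F → Bool) → ℝ) :
    N.Z (fun e => x e * y e) S φ = N.Z x S (fun s => N.Th y s * φ s) := by
  unfold Z
  refine Finset.sum_congr rfl fun s _ => ?_
  rw [W_mul]; ring

lemma S_mag (N : Net V F E) (t : ℝ) (κ : V ⊕ F → Fin (K + 1) → ℝ) (r : E → ℝ)
    (P : (V ⊕ F → Fin (K + 1)) → ℝ) (φ : (V ⊕ F → Bool) → ℝ) :
    N.S t κ r (fun a s => P a * φ s) = ∑ a, P a * N.mw t κ a * N.Z r (supp a) φ := by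
  unfold S Z
  refine Finset.sum_congr rfl fun a _ => ?_
  rw [Finset.mul_sum]
  refine Finset.sum_congr rfl fun s _ => ?_
  ring

/-- Master inequality. `x` are the sign couplings of the first system and `x * q` those of the
second; `P` and `Q` are tilts by functions of the magnitudes. -/
theorem master (N : Net V F E) {t : ℝ} (ht0 : 0 ≤ t) (ht : t ≤ 1)
    {κ : V ⊕ F → Fin (K + 1) → ℝ} (hκ : ∀ i z, 0 ≤ κ i z) {x q : E → ℝ}
    (hx0 : ∀ e, 0 ≤ x e) (hx1 : ∀ e, x e ≤ 1) (hq0 : ∀ e, 0 ≤ q e) (hq1 : ∀ e, q e ≤ 1)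
    {P Q : (V ⊕ F → Fin (K + 1)) → ℝ} (hP : ∀ a, 0 ≤ P a) (hQ : ∀ a, 0 ≤ Q a)
    (hPQ : ∀ a b, N.mw t κ a ≠ 0 → N.mw t κ b ≠ 0 → P a * Q b ≤ P (a ⊓ b) * Q (a ⊔ b))
    {A : (V ⊕ F → Fin (K + 1)) → (V ⊕ F → Bool) → ℝ} (hA : Mon A) :
    N.S t κ x (fun a s => P a * A a s) * N.S t κ (fun e => x e * q e) (fun a _ => Q a)
      ≤ N.S t κ x (fun a _ => P a) * N.S t κ (fun e => x e * q e) (fun a s => Q a * A a s) := by
  induction hA with
  | add h1 h2 ih1 ih2 =>
    have e1 : ∀ (y : E → ℝ) (R : (V ⊕ F → Fin (K + 1)) → ℝ)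
        (f g : (V ⊕ F → Fin (K + 1)) → (V ⊕ F → Bool) → ℝ),
        N.S t κ y (fun a s => R a * (f a s + g a s))
          = N.S t κ y (fun a s => R a * f a s) + N.S t κ y (fun a s => R a * g a s) := by
      intro y R f g
      unfold S
      rw [← Finset.sum_add_distrib]
      refine Finset.sum_congr rfl fun a _ => ?_
      rw [← Finset.sum_add_distrib]
      refine Finset.sum_congr rfl fun s _ => ?_
      ring
    rw [e1, e1, add_mul, mul_add]
    exact add_le_add ih1 ih2
  | @one B hB0 hB φ hφ =>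
    set r : E → ℝ := fun e => x e * q e with hr
    have hr0 : ∀ e, 0 ≤ r e := fun e => mul_nonneg (hx0 e) (hq0 e)
    have hr1 : ∀ e, r e ≤ 1 := fun e => mul_le_one₀ (hx1 e) (hq0 e) (hq1 e)
    have z0 : ∀ T : Finset V, 0 < N.Z x T (fun _ => 1) := fun T => N.Z_one_pos hx0 T
    have z1 : ∀ T : Finset V, 0 < N.Z r T (fun _ => 1) := fun T => N.Z_one_pos hr0 T
    have zr : ∀ (T : Finset V) (ψ : (V ⊕ F → Bool) → ℝ),
        N.Z r T ψ = N.Z x T (fun s => N.Th q s * ψ s) := fun T ψ => N.Z_mul x q T ψ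
    have hTh := N.Th_pos hq0 hq1
    -- sign expectations increase with the couplings
    have c1 : ∀ T : Finset V,
        N.Z x T φ ≤ N.Z x T (fun _ => 1) * (N.Z r T φ / N.Z r T (fun _ => 1)) := by
      intro T
      have h := gks (N.W_ferro hx0 hx1 T) hφ hTh
      have h2 : N.Z x T φ * N.Z r T (fun _ => 1) ≤ N.Z x T (fun _ => 1) * N.Z r T φ := by
        rw [zr T φ, zr T (fun _ => 1)]
        unfold Z
        simp only [mul_one]
        refine h.trans (le_of_eq ?_)
        congr 1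
        refine Finset.sum_congr rfl fun s _ => ?_
        ring
      rw [← mul_div_assoc, le_div_iff₀ (z1 T)]
      exact h2
    -- the ratio of the sign partition functions
    have c2 : ∀ S T : Finset V, S ⊆ T → N.Z x T (fun _ => 1) / N.Z r T (fun _ => 1)
        ≤ N.Z x S (fun _ => 1) / N.Z r S (fun _ => 1) := by
      intro S T hST
      have h := N.Z_mono hx0 hx1 hST hTh
      have hS : N.Z r S (fun _ => 1) = N.Z x S (N.Th q) := by
        rw [zr]; simp only [mul_one]
      have hT : N.Z r T (fun _ => 1) = N.Z x T (N.Th q) := by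
        rw [zr]; simp only [mul_one]
      rw [div_le_div_iff₀ (z1 T) (z1 S), hS, hT, mul_comm]
      exact h
    -- the averaged observable
    have c3 : ∀ S T : Finset V, S ⊆ T → N.Z r S φ / N.Z r S (fun _ => 1)
        ≤ N.Z r T φ / N.Z r T (fun _ => 1) := by
      intro S T hST
      have h := N.Z_mono hr0 hr1 hST hφ
      rw [div_le_div_iff₀ (z1 S) (z1 T), mul_comm (N.Z r T φ)]
      exact h
    have c4 : ∀ T : Finset V, 0 ≤ N.Z r T φ / N.Z r T (fun _ => 1) := fun T =>
      div_nonneg (N.Z_pos hr0 hr1 T hφ) (z1 T).le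
    have m0 := N.mw_nonneg (κ := κ) ht0 hκ
    have key := four (fun a => N.mw t κ a * N.Z r (supp a) (fun _ => 1))
      (fun a => P a * (N.Z x (supp a) (fun _ => 1) / N.Z r (supp a) (fun _ => 1))) Q
      (fun a => B a * (N.Z r (supp a) φ / N.Z r (supp a) (fun _ => 1)))
      (fun a => mul_nonneg (m0 a) (z1 _).le)
      (fun a b => by
        have h1 := N.mw_lattice ht0 ht hκ a b
        have h2 := N.Z_super hr0 hr1 (supp a) (supp b)
        rw [← supp_inf, ← supp_sup] at h2
        calc N.mw t κ a * N.Z r (supp a) (fun _ => 1) * (N.mw t κ b * N.Z r (supp b) (fun _ => 1))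
            = (N.mw t κ a * N.mw t κ b) *
              (N.Z r (supp a) (fun _ => 1) * N.Z r (supp b) (fun _ => 1)) := by ring
          _ ≤ (N.mw t κ (a ⊓ b) * N.mw t κ (a ⊔ b)) *
              (N.Z r (supp (a ⊓ b)) (fun _ => 1) * N.Z r (supp (a ⊔ b)) (fun _ => 1)) :=
            mul_le_mul h1 h2 (mul_nonneg (z1 _).le (z1 _).le) (mul_nonneg (m0 _) (m0 _))
          _ = _ := by ring)
      (fun a => mul_nonneg (hP a) (div_nonneg (z0 _).le (z1 _).le)) hQ
      (fun a => mul_nonneg (hB0 a) (c4 _))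
      (fun a b hab => mul_le_mul (hB hab) (c3 _ _ (supp_mono hab)) (c4 _) (hB0 b))
      (fun a b ha hb => by
        have h1 := hPQ a b (left_ne_zero_of_mul ha) (left_ne_zero_of_mul hb)
        have h2 := c2 (supp (a ⊓ b)) (supp a) (supp_mono inf_le_left)
        calc P a * (N.Z x (supp a) (fun _ => 1) / N.Z r (supp a) (fun _ => 1)) * Q b
            = (P a * Q b) * (N.Z x (supp a) (fun _ => 1) / N.Z r (supp a) (fun _ => 1)) := by ring
          _ ≤ (P (a ⊓ b) * Q (a ⊔ b)) *
              (N.Z x (supp (a ⊓ b)) (fun _ => 1) / N.Z r (supp (a ⊓ b)) (fun _ => 1)) :=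
            mul_le_mul h1 h2 (div_nonneg (z0 _).le (z1 _).le) (mul_nonneg (hP _) (hQ _))
          _ = _ := by ring)
    -- rewrite the four sums
    have s1 : N.S t κ x (fun a s => P a * (B a * φ s))
        ≤ ∑ a, P a * (N.Z x (supp a) (fun _ => 1) / N.Z r (supp a) (fun _ => 1)) *
          (N.mw t κ a * N.Z r (supp a) (fun _ => 1)) *
          (B a * (N.Z r (supp a) φ / N.Z r (supp a) (fun _ => 1))) := by
      have e : N.S t κ x (fun a s => P a * (B a * φ s))
          = ∑ a, P a * B a * N.mw t κ a * N.Z x (supp a) φ := by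
        rw [← S_mag]
        congr 1
        funext a s
        ring
      rw [e]
      refine Finset.sum_le_sum fun a _ => ?_
      have h := c1 (supp a)
      have hne := (z1 (supp a)).ne'
      calc P a * B a * N.mw t κ a * N.Z x (supp a) φ
          ≤ P a * B a * N.mw t κ a * (N.Z x (supp a) (fun _ => 1) *
            (N.Z r (supp a) φ / N.Z r (supp a) (fun _ => 1))) :=
            mul_le_mul_of_nonneg_left h (mul_nonneg (mul_nonneg (hP a) (hB0 a)) (m0 a))
        _ = _ := by field_simp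
    have s2 : N.S t κ r (fun a _ => Q a)
        = ∑ a, Q a * (N.mw t κ a * N.Z r (supp a) (fun _ => 1)) := by
      have e := S_mag N t κ r Q (fun _ => 1)
      simp only [mul_one] at e
      rw [e]
      refine Finset.sum_congr rfl fun a _ => ?_
      ring
    have s3 : N.S t κ x (fun a _ => P a)
        = ∑ a, P a * (N.Z x (supp a) (fun _ => 1) / N.Z r (supp a) (fun _ => 1)) *
          (N.mw t κ a * N.Z r (supp a) (fun _ => 1)) := by
      have e := S_mag N t κ x P (fun _ => 1)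
      simp only [mul_one] at e
      rw [e]
      refine Finset.sum_congr rfl fun a _ => ?_
      have hne := (z1 (supp a)).ne'
      field_simp
    have s4 : N.S t κ r (fun a s => Q a * (B a * φ s))
        = ∑ a, Q a * (N.mw t κ a * N.Z r (supp a) (fun _ => 1)) *
          (B a * (N.Z r (supp a) φ / N.Z r (supp a) (fun _ => 1))) := by
      have e : N.S t κ r (fun a s => Q a * (B a * φ s))
          = ∑ a, Q a * B a * N.mw t κ a * N.Z r (supp a) φ := by
        rw [← S_mag]
        congr 1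
        funext a s
        ring
      rw [e]
      refine Finset.sum_congr rfl fun a _ => ?_
      have hne := (z1 (supp a)).ne'
      field_simp
    have s2n : 0 ≤ N.S t κ r (fun a _ => Q a) := by
      rw [s2]
      exact Finset.sum_nonneg fun a _ => mul_nonneg (hQ a) (mul_nonneg (m0 a) (z1 _).le)
    calc N.S t κ x (fun a s => P a * (B a * φ s)) * N.S t κ r (fun a _ => Q a)
        ≤ (∑ a, P a * (N.Z x (supp a) (fun _ => 1) / N.Z r (supp a) (fun _ => 1)) *
          (N.mw t κ a * N.Z r (supp a) (fun _ => 1)) *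
          (B a * (N.Z r (supp a) φ / N.Z r (supp a) (fun _ => 1)))) *
          N.S t κ r (fun a _ => Q a) := mul_le_mul_of_nonneg_right s1 s2n
      _ ≤ _ := by
        rw [s2, s3, s4]
        exact key

end main

end Net

end Vale.Agent.P145.FK
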