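import Vale.Agent.P145.FK.Fkg

/-!
P145, block K1: joint law of magnitudes, signs and open/closed medial vertices.
The medial vertex `e` is closed (`ω e = false`) or open (`ω e = true`); an open one forces the
signs of its two odd sites to agree.
-/

namespace Vale.Agent.P145.FK

open Finset
open scoped Classical

namespace Net

variable {V F E : Type*} {K : ℕ}

/-- Magnitudes and open medial vertices. -/
abbrev Cfg (V F E : Type*) (K : ℕ) := (V ⊕ F → Fin (K + 1)) × (E → Bool)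

section basic
variable [Fintype V] [Fintype F]

/-- The constraint at a nonzero even site or at an open medial vertex. -/
noncomputable def con (N : Net V F E) (i : V ⊕ E) (s : V ⊕ F → Bool) : ℝ :=
  Sum.elim (fun v => N.cv v s) (fun e => N.th 0 e s) i

omit [Fintype V] in
lemma con_cases (N : Net V F E) (i : V ⊕ E) (s : V ⊕ F → Bool) : N.con i s = 0 ∨ N.con i s = 1 := by
  rcases i with v | e
  · exact N.cv_cases v s
  · simp only [con, Sum.elim_inr, th, pr]
    cases s (.inr (N.f e)) <;> cases s (.inr (N.g e)) <;> norm_num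

omit [Fintype V] in
lemma con_nonneg (N : Net V F E) (i : V ⊕ E) (s : V ⊕ F → Bool) : 0 ≤ N.con i s := by
  rcases N.con_cases i s with h | h <;> simp [h]

lemma con_pos (N : Net V F E) (i : V ⊕ E) : Pos (N.con i) := by
  rcases i with v | e
  · exact N.cv_pos v
  · exact N.th_pos le_rfl zero_le_one e

lemma con_ferro (N : Net V F E) (i : V ⊕ E) : Ferro (N.con i) := by
  rcases i with v | e
  · exact N.cv_ferro v
  · exact N.th_ferro le_rfl zero_le_one e

/-- Product of the active constraints. -/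
noncomputable def cst (N : Net V F E) (T : Finset (V ⊕ E)) (s : V ⊕ F → Bool) : ℝ :=
  ∏ i ∈ T, N.con i s

omit [Fintype V] in
lemma cst_nonneg (N : Net V F E) (T : Finset (V ⊕ E)) (s : V ⊕ F → Bool) : 0 ≤ N.cst T s :=
  Finset.prod_nonneg fun i _ => N.con_nonneg i s

lemma cst_pos (N : Net V F E) (T : Finset (V ⊕ E)) : Pos (N.cst T) :=
  Pos.prod _ _ fun i _ => N.con_pos i

lemma cst_ferro (N : Net V F E) (T : Finset (V ⊕ E)) : Ferro (N.cst T) :=
  Ferro.prod _ _ fun i _ => N.con_ferro i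

omit [Fintype V] in
lemma cst_union (N : Net V F E) (S T : Finset (V ⊕ E)) (hd : Disjoint S T)
    (s : V ⊕ F → Bool) : N.cst (S ∪ T) s = N.cst S s * N.cst T s := by
  unfold cst
  rw [Finset.prod_union hd]

omit [Fintype V] in
lemma cst_false (N : Net V F E) (T : Finset (V ⊕ E)) : N.cst T (fun _ => false) = 1 := by
  unfold cst
  refine Finset.prod_eq_one fun i _ => ?_
  rcases i with v | e
  · simp only [con, Sum.elim_inl, cv, pr, sv_false]
    norm_num
  · simp only [con, Sum.elim_inr, th, pr, sv_false]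
    norm_num

/-- Sign sum. -/
noncomputable def Y (N : Net V F E) (T : Finset (V ⊕ E)) (φ : (V ⊕ F → Bool) → ℝ) : ℝ :=
  ∑ s, N.cst T s * φ s

lemma Y_one_pos (N : Net V F E) (T : Finset (V ⊕ E)) : 0 < N.Y T (fun _ => 1) := by
  unfold Y
  have h2 : N.cst T (fun _ => false) * 1 ≤ ∑ s, N.cst T s * 1 :=
    Finset.single_le_sum (f := fun s => N.cst T s * 1)
      (fun s _ => by rw [mul_one]; exact N.cst_nonneg T s) (Finset.mem_univ _)
  rw [N.cst_false] at h2
  linarith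

lemma Y_pos (N : Net V F E) (T : Finset (V ⊕ E)) {φ : (V ⊕ F → Bool) → ℝ} (hφ : Pos φ) :
    0 ≤ N.Y T φ := Pos.sum_nonneg (Pos.mul (N.cst_pos T) hφ)

lemma Y_super (N : Net V F E) (S T : Finset (V ⊕ E)) :
    N.Y S (fun _ => 1) * N.Y T (fun _ => 1)
      ≤ N.Y (S ∩ T) (fun _ => 1) * N.Y (S ∪ T) (fun _ => 1) := by
  have h := gks (N.cst_ferro (S ∩ T)) (N.cst_pos (S \ T)) (N.cst_pos (T \ S))
  have eS : S = (S ∩ T) ∪ (S \ T) := by ext x; simp; tauto
  have eT : T = (S ∩ T) ∪ (T \ S) := by ext x; simp; tauto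
  have eU : S ∪ T = ((S ∩ T) ∪ (S \ T)) ∪ (T \ S) := by ext x; simp; tauto
  have d1 : Disjoint (S ∩ T) (S \ T) := by
    rw [Finset.disjoint_left]; intro x hx hx'; simp at hx hx'; tauto
  have d2 : Disjoint (S ∩ T) (T \ S) := by
    rw [Finset.disjoint_left]; intro x hx hx'; simp at hx hx'; tauto
  have d3 : Disjoint ((S ∩ T) ∪ (S \ T)) (T \ S) := by
    rw [Finset.disjoint_left]; intro x hx hx'; simp at hx hx'; tauto
  have z1 : N.Y S (fun _ => 1) = ∑ s, N.cst (S ∩ T) s * N.cst (S \ T) s := by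
    unfold Y
    refine Finset.sum_congr rfl fun s _ => ?_
    rw [mul_one, ← N.cst_union _ _ d1, ← eS]
  have z2 : N.Y T (fun _ => 1) = ∑ s, N.cst (S ∩ T) s * N.cst (T \ S) s := by
    unfold Y
    refine Finset.sum_congr rfl fun s _ => ?_
    rw [mul_one, ← N.cst_union _ _ d2, ← eT]
  have z3 : N.Y (S ∪ T) (fun _ => 1) = ∑ s, N.cst (S ∩ T) s *
      (N.cst (S \ T) s * N.cst (T \ S) s) := by
    unfold Y
    refine Finset.sum_congr rfl fun s _ => ?_
    rw [mul_one, ← mul_assoc, ← N.cst_union _ _ d1, ← N.cst_union _ _ d3, ← eU]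
  have z4 : N.Y (S ∩ T) (fun _ => 1) = ∑ s, N.cst (S ∩ T) s := by
    unfold Y; simp
  rw [z1, z2, z3, z4]
  exact h

lemma Y_mono (N : Net V F E) {S T : Finset (V ⊕ E)} (hST : S ⊆ T)
    {φ : (V ⊕ F → Bool) → ℝ} (hφ : Pos φ) :
    N.Y S φ * N.Y T (fun _ => 1) ≤ N.Y S (fun _ => 1) * N.Y T φ := by
  have h := gks (N.cst_ferro S) hφ (N.cst_pos (T \ S))
  have d1 : Disjoint S (T \ S) := Finset.disjoint_sdiff
  have eT : T = S ∪ (T \ S) := (Finset.union_sdiff_of_subset hST).symm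
  have z1 : N.Y T (fun _ => 1) = ∑ s, N.cst S s * N.cst (T \ S) s := by
    unfold Y
    refine Finset.sum_congr rfl fun s _ => ?_
    rw [mul_one, ← N.cst_union _ _ d1, ← eT]
  have z2 : N.Y T φ = ∑ s, N.cst S s * (φ s * N.cst (T \ S) s) := by
    unfold Y
    refine Finset.sum_congr rfl fun s _ => ?_
    rw [eT, N.cst_union _ _ d1, ← eT]; ring
  have z3 : N.Y S (fun _ => 1) = ∑ s, N.cst S s := by
    unfold Y; simp
  rw [z1, z2, z3]
  exact h

end basic

section joint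
variable [Fintype V] [Fintype F] [Fintype E]

/-- The active constraints. -/
noncomputable def act (x : Cfg V F E K) : Finset (V ⊕ E) :=
  Finset.univ.filter (fun i => Sum.elim (fun v => (x.1 (.inl v) : ℕ) ≠ 0) (fun e => x.2 e = true) i)

omit [Fintype F] in
lemma mem_act_inl {x : Cfg V F E K} {v : V} : (.inl v : V ⊕ E) ∈ act x ↔ (x.1 (.inl v) : ℕ) ≠ 0 := by
  simp [act]

omit [Fintype F] in
lemma mem_act_inr {x : Cfg V F E K} {e : E} : (.inr e : V ⊕ E) ∈ act x ↔ x.2 e = true := by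
  simp [act]

omit [Fintype F] in
lemma act_inf (x y : Cfg V F E K) : act (x ⊓ y) = act x ∩ act y := by
  ext i
  rcases i with v | e
  · simp only [Finset.mem_inter, mem_act_inl, Prod.fst_inf, Pi.inf_apply, fmin]
    omega
  · simp only [Finset.mem_inter, mem_act_inr, Prod.snd_inf, Pi.inf_apply]
    cases x.2 e <;> cases y.2 e <;> simp

omit [Fintype F] in
lemma act_sup (x y : Cfg V F E K) : act (x ⊔ y) = act x ∪ act y := by
  ext i
  rcases i with v | e
  · simp only [Finset.mem_union, mem_act_inl, Prod.fst_sup, Pi.sup_apply, fmax]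
    omega
  · simp only [Finset.mem_union, mem_act_inr, Prod.snd_sup, Pi.sup_apply]
    cases x.2 e <;> cases y.2 e <;> simp

omit [Fintype F] in
lemma act_mono {x y : Cfg V F E K} (h : x ≤ y) : act x ⊆ act y := by
  have : act x = act x ∩ act y := by rw [← act_inf, inf_eq_left.mpr h]
  rw [this]
  exact Finset.inter_subset_right

/-- Joint weight of magnitudes and open medial vertices (without the signs). -/
noncomputable def jw (N : Net V F E) (t : ℝ) (κ : V ⊕ F → Fin (K + 1) → ℝ) (β : E → Bool → ℝ)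
    (x : Cfg V F E K) : ℝ := N.mw t κ x.1 * ∏ e, β e (x.2 e)

lemma jw_nonneg (N : Net V F E) {t : ℝ} (ht0 : 0 ≤ t) {κ : V ⊕ F → Fin (K + 1) → ℝ}
    (hκ : ∀ i z, 0 ≤ κ i z) {β : E → Bool → ℝ} (hβ : ∀ e b, 0 ≤ β e b) (x : Cfg V F E K) :
    0 ≤ N.jw t κ β x :=
  mul_nonneg (N.mw_nonneg ht0 hκ _) (Finset.prod_nonneg fun e _ => hβ e _)

lemma jw_lattice (N : Net V F E) {t : ℝ} (ht0 : 0 ≤ t) (ht : t ≤ 1)
    {κ : V ⊕ F → Fin (K + 1) → ℝ} (hκ : ∀ i z, 0 ≤ κ i z) {β : E → Bool → ℝ}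
    (hβ : ∀ e b, 0 ≤ β e b) (x y : Cfg V F E K) :
    N.jw t κ β x * N.jw t κ β y ≤ N.jw t κ β (x ⊓ y) * N.jw t κ β (x ⊔ y) := by
  unfold jw
  have h1 := N.mw_lattice ht0 ht hκ x.1 y.1
  have h2 : (∏ e, β e (x.2 e)) * (∏ e, β e (y.2 e))
      = (∏ e, β e ((x ⊓ y).2 e)) * (∏ e, β e ((x ⊔ y).2 e)) := by
    rw [← Finset.prod_mul_distrib, ← Finset.prod_mul_distrib]
    refine Finset.prod_congr rfl fun e _ => ?_
    simp only [Prod.snd_inf, Prod.snd_sup, Pi.inf_apply, Pi.sup_apply]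
    cases x.2 e <;> cases y.2 e <;> simp [mul_comm]
  calc N.mw t κ x.1 * (∏ e, β e (x.2 e)) * (N.mw t κ y.1 * ∏ e, β e (y.2 e))
      = (N.mw t κ x.1 * N.mw t κ y.1) * ((∏ e, β e (x.2 e)) * (∏ e, β e (y.2 e))) := by ring
    _ ≤ (N.mw t κ (x.1 ⊓ y.1) * N.mw t κ (x.1 ⊔ y.1)) *
        ((∏ e, β e (x.2 e)) * (∏ e, β e (y.2 e))) :=
      mul_le_mul_of_nonneg_right h1 (mul_nonneg
        (Finset.prod_nonneg fun e _ => hβ e _) (Finset.prod_nonneg fun e _ => hβ e _))
    _ = _ := by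
      rw [h2]
      simp only [Prod.fst_inf, Prod.fst_sup]
      ring

/-- Partition sum over magnitudes, open medial vertices and signs. -/
noncomputable def J (N : Net V F E) (t : ℝ) (κ : V ⊕ F → Fin (K + 1) → ℝ) (β : E → Bool → ℝ)
    (G : Cfg V F E K → (V ⊕ F → Bool) → ℝ) : ℝ :=
  ∑ x, ∑ s, N.jw t κ β x * N.cst (act x) s * G x s

lemma J_mag (N : Net V F E) (t : ℝ) (κ : V ⊕ F → Fin (K + 1) → ℝ) (β : E → Bool → ℝ)
    (P : Cfg V F E K → ℝ) (φ : (V ⊕ F → Bool) → ℝ) :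
    N.J t κ β (fun x s => P x * φ s) = ∑ x, P x * N.jw t κ β x * N.Y (act x) φ := by
  unfold J Y
  refine Finset.sum_congr rfl fun x _ => ?_
  rw [Finset.mul_sum]
  refine Finset.sum_congr rfl fun s _ => ?_
  ring

lemma J_add (N : Net V F E) (t : ℝ) (κ : V ⊕ F → Fin (K + 1) → ℝ) (β : E → Bool → ℝ)
    (G H : Cfg V F E K → (V ⊕ F → Bool) → ℝ) :
    N.J t κ β (fun x s => G x s + H x s) = N.J t κ β G + N.J t κ β H := by
  unfold J
  rw [← Finset.sum_add_distrib]
  refine Finset.sum_congr rfl fun x _ => ?_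
  rw [← Finset.sum_add_distrib]
  refine Finset.sum_congr rfl fun s _ => ?_
  ring

lemma J_congr (N : Net V F E) (t : ℝ) (κ : V ⊕ F → Fin (K + 1) → ℝ) (β : E → Bool → ℝ)
    {G H : Cfg V F E K → (V ⊕ F → Bool) → ℝ}
    (h : ∀ x s, N.jw t κ β x ≠ 0 → N.cst (act x) s ≠ 0 → G x s = H x s) :
    N.J t κ β G = N.J t κ β H := by
  unfold J
  refine Finset.sum_congr rfl fun x _ => Finset.sum_congr rfl fun s _ => ?_
  by_cases h1 : N.jw t κ β x = 0
  · simp [h1]
  by_cases h2 : N.cst (act x) s = 0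
  · simp [h2]
  rw [h x s h1 h2]

lemma J_nonneg (N : Net V F E) {t : ℝ} (ht0 : 0 ≤ t) {κ : V ⊕ F → Fin (K + 1) → ℝ}
    (hκ : ∀ i z, 0 ≤ κ i z) {β : E → Bool → ℝ} (hβ : ∀ e b, 0 ≤ β e b)
    {G : Cfg V F E K → (V ⊕ F → Bool) → ℝ} (hG : ∀ x s, 0 ≤ G x s) : 0 ≤ N.J t κ β G :=
  Finset.sum_nonneg fun x _ => Finset.sum_nonneg fun s _ =>
    mul_nonneg (mul_nonneg (N.jw_nonneg ht0 hκ hβ x) (N.cst_nonneg _ s)) (hG x s)

/-- Master inequality for the joint law. -/
theorem masterJ (N : Net V F E) {t : ℝ} (ht0 : 0 ≤ t) (ht : t ≤ 1)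
    {κ : V ⊕ F → Fin (K + 1) → ℝ} (hκ : ∀ i z, 0 ≤ κ i z) {β : E → Bool → ℝ}
    (hβ : ∀ e b, 0 ≤ β e b) {P Q : Cfg V F E K → ℝ} (hP : ∀ x, 0 ≤ P x) (hQ : ∀ x, 0 ≤ Q x)
    (hPQ : ∀ x y, N.jw t κ β x ≠ 0 → N.jw t κ β y ≠ 0 → P x * Q y ≤ P (x ⊓ y) * Q (x ⊔ y))
    {A : Cfg V F E K → (V ⊕ F → Bool) → ℝ} (hA : Mon A) :
    N.J t κ β (fun x s => P x * A x s) * N.J t κ β (fun x _ => Q x)
      ≤ N.J t κ β (fun x _ => P x) * N.J t κ β (fun x s => Q x * A x s) := by
  induction hA with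
  | add h1 h2 ih1 ih2 =>
    simp only [mul_add, J_add]
    rw [add_mul]
    exact add_le_add ih1 ih2
  | @one B hB0 hB φ hφ =>
    have z1 : ∀ T : Finset (V ⊕ E), 0 < N.Y T (fun _ => 1) := fun T => N.Y_one_pos T
    have c3 : ∀ S T : Finset (V ⊕ E), S ⊆ T → N.Y S φ / N.Y S (fun _ => 1)
        ≤ N.Y T φ / N.Y T (fun _ => 1) := by
      intro S T hST
      have h := N.Y_mono hST hφ
      rw [div_le_div_iff₀ (z1 S) (z1 T), mul_comm (N.Y T φ)]
      exact h
    have c4 : ∀ T : Finset (V ⊕ E), 0 ≤ N.Y T φ / N.Y T (fun _ => 1) := fun T =>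
      div_nonneg (N.Y_pos T hφ) (z1 T).le
    have m0 := N.jw_nonneg (κ := κ) ht0 hκ hβ
    have key := four (fun x : Cfg V F E K => N.jw t κ β x * N.Y (act x) (fun _ => 1)) P Q
      (fun x => B x * (N.Y (act x) φ / N.Y (act x) (fun _ => 1)))
      (fun x => mul_nonneg (m0 x) (z1 _).le)
      (fun x y => by
        have h1 := N.jw_lattice ht0 ht hκ hβ x y
        have h2 := N.Y_super (act x) (act y)
        rw [← act_inf, ← act_sup] at h2
        calc N.jw t κ β x * N.Y (act x) (fun _ => 1) * (N.jw t κ β y * N.Y (act y) (fun _ => 1))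
            = (N.jw t κ β x * N.jw t κ β y) *
              (N.Y (act x) (fun _ => 1) * N.Y (act y) (fun _ => 1)) := by ring
          _ ≤ (N.jw t κ β (x ⊓ y) * N.jw t κ β (x ⊔ y)) *
              (N.Y (act (x ⊓ y)) (fun _ => 1) * N.Y (act (x ⊔ y)) (fun _ => 1)) :=
            mul_le_mul h1 h2 (mul_nonneg (z1 _).le (z1 _).le) (mul_nonneg (m0 _) (m0 _))
          _ = _ := by ring)
      hP hQ (fun x => mul_nonneg (hB0 x) (c4 _))
      (fun x y hxy => mul_le_mul (hB hxy) (c3 _ _ (act_mono hxy)) (c4 _) (hB0 y))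
      (fun x y hx hy => hPQ x y (left_ne_zero_of_mul hx) (left_ne_zero_of_mul hy))
    have sA : ∀ R : Cfg V F E K → ℝ, N.J t κ β (fun x s => R x * (B x * φ s))
        = ∑ x, R x * (N.jw t κ β x * N.Y (act x) (fun _ => 1)) *
          (B x * (N.Y (act x) φ / N.Y (act x) (fun _ => 1))) := by
      intro R
      have e : N.J t κ β (fun x s => R x * (B x * φ s))
          = ∑ x, R x * B x * N.jw t κ β x * N.Y (act x) φ := by
        rw [← J_mag]
        congr 1
        funext x s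
        ring
      rw [e]
      refine Finset.sum_congr rfl fun x _ => ?_
      have hne := (z1 (act x)).ne'
      field_simp
    have s1 : ∀ R : Cfg V F E K → ℝ, N.J t κ β (fun x _ => R x)
        = ∑ x, R x * (N.jw t κ β x * N.Y (act x) (fun _ => 1)) := by
      intro R
      have e := J_mag N t κ β R (fun _ => 1)
      simp only [mul_one] at e
      rw [e]
      refine Finset.sum_congr rfl fun x _ => ?_
      ring
    rw [sA P, sA Q, s1 P, s1 Q]
    exact key

end joint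

end Net

end Vale.Agent.P145.FK
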