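import Vale.Agent.P145.FK.Ze

/-!
P145, block K1 on the square lattice: monotonicity of the zero boundary expectations in the
domain, positivity, local connectivity of rectangles.
-/

namespace Vale.Agent.P145.FK

open Finset Vale.Agent.P145.FP Vale.Agent.P145.Dom
open scoped Classical

lemma sg_cast (b : Bool) : ((Net.sg b : ℤ) : ℝ) = sv b := by cases b <;> simp [Net.sg, sv]

/-- Polynomials with nonnegative coefficients in the heights at the vertices. -/
inductive PosH : ((Site → ℤ) → ℝ) → Prop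
  | const (c : ℝ) (hc : 0 ≤ c) : PosH (fun _ => c)
  | ht (v : ℤ × ℤ) : PosH (fun x => (x (.inl v) : ℝ))
  | add {f g : (Site → ℤ) → ℝ} : PosH f → PosH g → PosH (fun x => f x + g x)
  | mul {f g : (Site → ℤ) → ℝ} : PosH f → PosH g → PosH (fun x => f x * g x)

namespace PosH

lemma sum {ι : Type*} (s : Finset ι) (f : ι → (Site → ℤ) → ℝ) (h : ∀ i ∈ s, PosH (f i)) :
    PosH (fun x => ∑ i ∈ s, f i x) := by
  induction s using Finset.induction_on with
  | empty => simpa using PosH.const 0 le_rfl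
  | insert i T hi ih =>
    have h1 := h i (Finset.mem_insert_self i T)
    have h2 := ih (fun j hj => h j (Finset.mem_insert_of_mem hj))
    simpa only [Finset.sum_insert hi] using PosH.add h1 h2

lemma prod {ι : Type*} (s : Finset ι) (f : ι → (Site → ℤ) → ℝ) (h : ∀ i ∈ s, PosH (f i)) :
    PosH (fun x => ∏ i ∈ s, f i x) := by
  induction s using Finset.induction_on with
  | empty => simpa using PosH.const 1 zero_le_one
  | insert i T hi ih =>
    have h1 := h i (Finset.mem_insert_self i T)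
    have h2 := ih (fun j hj => h j (Finset.mem_insert_of_mem hj))
    simpa only [Finset.prod_insert hi] using PosH.mul h1 h2

lemma smul {f : (Site → ℤ) → ℝ} {c : ℝ} (hc : 0 ≤ c) (h : PosH f) : PosH (fun x => c * f x) :=
  PosH.mul (PosH.const c hc) h

/-- Linear forms with nonnegative coefficients. -/
lemma lin (s : Finset (ℤ × ℤ)) (a : ℤ × ℤ → ℝ) (ha : ∀ v ∈ s, 0 ≤ a v) :
    PosH (fun x => ∑ v ∈ s, a v * (x (.inl v) : ℝ)) :=
  sum s _ fun v hv => smul (ha v hv) (PosH.ht v)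

lemma pow {f : (Site → ℤ) → ℝ} (h : PosH f) (n : ℕ) : PosH (fun x => f x ^ n) := by
  induction n with
  | zero => simpa using PosH.const 1 zero_le_one
  | succ n ih => simpa only [pow_succ] using PosH.mul ih h

/-- The observable on the box, in terms of magnitudes and signs. -/
lemma mon {B : Finset (ℤ × ℤ)} {K : ℕ} (F : Set (ℤ × ℤ)) {Φ : (Site → ℤ) → ℝ} (h : PosH Φ) :
    Mon (fun (x : Net.Cfg (VB B) (FB B) (EB B) K) (s : VB B ⊕ FB B → Bool) =>
      Φ (sgh F x s)) := by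
  induction h with
  | const c hc => exact Mon.const hc
  | ht v =>
    by_cases hv : v ∈ verts B
    · have h1 : Mon (fun (x : Net.Cfg (VB B) (FB B) (EB B) K) (s : VB B ⊕ FB B → Bool) =>
          (2 * ((x.1 (.inl ⟨v, hv⟩) : ℕ) : ℝ)) * sv (s (.inl ⟨v, hv⟩))) := by
        refine Mon.one (B := fun x : Net.Cfg (VB B) (FB B) (EB B) K =>
          2 * ((x.1 (.inl ⟨v, hv⟩) : ℕ) : ℝ)) (fun x => by positivity) ?_ (Pos.single _)
        intro x y hxy
        have h2 : (x.1 (.inl ⟨v, hv⟩) : ℕ) ≤ y.1 (.inl ⟨v, hv⟩) := by exact_mod_cast hxy.1 _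
        have h3 : ((x.1 (.inl ⟨v, hv⟩) : ℕ) : ℝ) ≤ ((y.1 (.inl ⟨v, hv⟩) : ℕ) : ℝ) := by
          exact_mod_cast h2
        show 2 * ((x.1 (.inl ⟨v, hv⟩) : ℕ) : ℝ) ≤ 2 * ((y.1 (.inl ⟨v, hv⟩) : ℕ) : ℝ)
        linarith
      refine (congrArg Mon ?_).mp h1
      funext x s
      simp only [sgh, xt, Sum.elim_inl, dif_pos hv, Net.pv]
      push_cast
      rw [sg_cast]
      ring
    · have h1 := Mon.const (α := Net.Cfg (VB B) (FB B) (EB B) K) (I := VB B ⊕ FB B) (c := 0) le_rfl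
      refine (congrArg Mon ?_).mp h1
      funext x s
      simp only [sgh, xt, Sum.elim_inl, dif_neg hv]
      simp
  | add h1 h2 ih1 ih2 => exact Mon.add ih1 ih2
  | mul h1 h2 ih1 ih2 => exact Mon.mul ih1 ih2

lemma indep {B : Finset (ℤ × ℤ)} {K : ℕ} (F F' : Set (ℤ × ℤ)) {Φ : (Site → ℤ) → ℝ} (h : PosH Φ)
    (x : Net.Cfg (VB B) (FB B) (EB B) K) (s : VB B ⊕ FB B → Bool) :
    Φ (sgh F x s) = Φ (sgh F' x s) := by
  induction h with
  | const c hc => rfl
  | ht v =>
    by_cases hv : v ∈ verts B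
    · simp only [sgh, xt, Sum.elim_inl, dif_pos hv, Net.pv]
    · simp only [sgh, xt, Sum.elim_inl, dif_neg hv]
  | add h1 h2 ih1 ih2 => simp only [ih1, ih2]
  | mul h1 h2 ih1 ih2 => simp only [ih1, ih2]

end PosH

/-- A rectangle around a finite set of faces. -/
lemma exists_rect (F : Finset (ℤ × ℤ)) : ∃ a b c d : ℤ,
    Nb (Finset.Icc a b ×ˢ Finset.Icc c d) (F : Set (ℤ × ℤ)) := by
  set m : ℕ := F.sup (fun f => f.1.natAbs + f.2.natAbs) with hm
  have hF : ∀ f ∈ F, f.1.natAbs + f.2.natAbs ≤ m := fun f hf =>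
    Finset.le_sup (f := fun f : ℤ × ℤ => f.1.natAbs + f.2.natAbs) hf
  refine ⟨-(m : ℤ) - 1, m + 1, -(m : ℤ) - 1, m + 1, ?_⟩
  rintro f hf v ⟨a, b, ha, hb, rfl⟩ f' ⟨a', b', ha', hb', hv⟩
  rw [Finset.mem_product, Finset.mem_Icc, Finset.mem_Icc]
  simp only [Prod.mk.injEq] at hv
  have := hF f hf
  omega

/-- K1: the zero boundary expectations of polynomials with nonnegative coefficients in the heights
increase with the domain. -/
theorem ze_mono {c : ℝ} (hc : 1 ≤ c) {F F' : Finset (ℤ × ℤ)} (hF : F ⊆ F')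
    {A : (Site → ℤ) → ℝ} (hA : PosH A) : ze c F A ≤ ze c F' A := by
  have hc0 : 0 < c := by linarith
  have ht : 0 < c⁻¹ := inv_pos.mpr hc0
  have ht1 : c⁻¹ ≤ 1 := inv_le_one_of_one_le₀ hc
  obtain ⟨a, b, a', b', hB⟩ := exists_rect F'
  set B := Finset.Icc a b ×ˢ Finset.Icc a' b'
  have hBF : Nb B (F : Set (ℤ × ℤ)) := hB.mono (by exact_mod_cast hF)
  have e1 := J_ze hBF (KF_mono hF) ht ht1 A
  have e2 := J_ze hB (le_refl (KF F')) ht ht1 A
  rw [inv_inv] at e1 e2
  have hD : inB B (F : Set (ℤ × ℤ)) ⊆ inB B (F' : Set (ℤ × ℤ)) := fun f hf => hF hf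
  have h := (boxN B).dom_mono (K := KF F') ht.le ht1 Net.κ6_nonneg (Net.β6_nonneg ht.le ht1) hD
    (X := fun _ => 1) (fun _ => zero_le_one) (fun _ _ _ => le_rfl) (hA.mon (F := (F' : Set (ℤ × ℤ))))
  simp only [one_mul] at h
  have e3 : (boxN B).J (K := KF F') c⁻¹ Net.κ6 (Net.β6 c⁻¹)
      (fun x s => (boxN B).zbi (inB B F) x * A (sgh (F' : Set (ℤ × ℤ)) x s))
      = (boxN B).J (K := KF F') c⁻¹ Net.κ6 (Net.β6 c⁻¹)
      (fun x s => (boxN B).zbi (inB B F) x * A (sgh (F : Set (ℤ × ℤ)) x s)) := by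
    congr 1
    funext x s
    rw [hA.indep (F : Set (ℤ × ℤ)) (F' : Set (ℤ × ℤ)) x s]
  rw [e3, e1, e2] at h
  have p1 := (boxN B).J_zbi_pos (K := KF F') ht.le Net.κ6_nonneg (Net.β6_nonneg ht.le ht1)
    (fun i => Net.κ6_pos i 0) (fun e => Net.β6_pos ht e) (inB B (F : Set (ℤ × ℤ)))
  have p2 := (boxN B).J_zbi_pos (K := KF F') ht.le Net.κ6_nonneg (Net.β6_nonneg ht.le ht1)
    (fun i => Net.κ6_pos i 0) (fun e => Net.β6_pos ht e) (inB B (F' : Set (ℤ × ℤ)))
  set j1 := (boxN B).J (K := KF F') c⁻¹ Net.κ6 (Net.β6 c⁻¹)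
    (fun x _ => (boxN B).zbi (inB B (F : Set (ℤ × ℤ))) x)
  set j2 := (boxN B).J (K := KF F') c⁻¹ Net.κ6 (Net.β6 c⁻¹)
    (fun x _ => (boxN B).zbi (inB B (F' : Set (ℤ × ℤ))) x)
  have h' : (j1 * j2) * ze c F A ≤ (j1 * j2) * ze c F' A := by
    calc (j1 * j2) * ze c F A = j1 * ze c F A * j2 := by ring
      _ ≤ j1 * (j2 * ze c F' A) := h
      _ = _ := by ring
  exact le_of_mul_le_mul_left h' (mul_pos p1 p2)

/-- Positivity. -/
theorem ze_nonneg {c : ℝ} (hc : 1 ≤ c) (F : Finset (ℤ × ℤ)) {A : (Site → ℤ) → ℝ}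
    (hA : PosH A) : 0 ≤ ze c F A := by
  have hc0 : 0 < c := by linarith
  have ht : 0 < c⁻¹ := inv_pos.mpr hc0
  have ht1 : c⁻¹ ≤ 1 := inv_le_one_of_one_le₀ hc
  obtain ⟨a, b, a', b', hB⟩ := exists_rect F
  set B := Finset.Icc a b ×ˢ Finset.Icc a' b'
  have e2 := J_ze hB (le_refl (KF F)) ht ht1 A
  rw [inv_inv] at e2
  have h := (boxN B).J_mon_nonneg (K := KF F) ht.le Net.κ6_nonneg (Net.β6_nonneg ht.le ht1)
    (P := (boxN B).zbi (inB B F)) ((boxN B).zbi_nonneg _) (hA.mon (F := (F : Set (ℤ × ℤ))))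
  rw [e2] at h
  have p1 := (boxN B).J_zbi_pos (K := KF F) ht.le Net.κ6_nonneg (Net.β6_nonneg ht.le ht1)
    (fun i => Net.κ6_pos i 0) (fun e => Net.β6_pos ht e) (inB B (F : Set (ℤ × ℤ)))
  exact nonneg_of_mul_nonneg_right h p1

/-- Rectangles are locally connected. -/
lemma boxN_loc {B : Finset (ℤ × ℤ)} (hB : ∀ f ∈ B, ∀ f' ∈ B, (f'.1, f.2) ∈ B) :
    (boxN B).Loc := by
  intro v D h1 h2
  -- two faces at `v` which differ in one coordinate
  have key : ∀ f f' : FB B, Cor v.1 f.1 → Cor v.1 f'.1 → f ∈ D → f' ∉ D →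
      (f.1.1 = f'.1.1 ∨ f.1.2 = f'.1.2) →
      ∃ e, ((boxN B).u e = v ∨ (boxN B).v e = v) ∧
        ¬ ((boxN B).f e ∈ D ↔ (boxN B).g e ∈ D) := by
    rintro ⟨⟨x, y⟩, hf⟩ ⟨⟨x', y'⟩, hf'⟩ ⟨a, b, ha, hb, hv⟩ ⟨a', b', ha', hb', hv'⟩ hfD hfD' hor
    simp only at hv hv' hor
    obtain ⟨⟨v1, v2⟩, hvB⟩ := v
    simp only [Prod.mk.injEq] at hv hv'
    have hne : ¬ (x = x' ∧ y = y') := by
      rintro ⟨rfl, rfl⟩
      exact hfD' hfD
    by_cases hxx : x = x'
    · subst hxx
      have hyy : y ≠ y' := fun h => hne ⟨rfl, h⟩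
      -- horizontal edge
      have hm : (x, v2) ∈ hE B := by
        refine Finset.mem_filter.mpr ⟨?_, ?_⟩
        · have : v2 = y ∨ v2 = y' := by omega
          rcases this with h | h
          · rw [h]; exact hf
          · rw [h]; exact hf'
        · show (x, v2 - 1) ∈ B
          have : v2 - 1 = y ∨ v2 - 1 = y' := by omega
          rcases this with h | h
          · rw [h]; exact hf
          · rw [h]; exact hf'
      refine ⟨.inl ⟨(x, v2), hm⟩, ?_, ?_⟩
      · have : v1 = x ∨ v1 = x + 1 := by omega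
        rcases this with h | h
        · left
          apply Subtype.ext
          show (x, v2) = (v1, v2)
          rw [h]
        · right
          apply Subtype.ext
          show (x + 1, v2) = (v1, v2)
          rw [h]
      · intro hiff
        have hy : (y = v2 ∧ y' = v2 - 1) ∨ (y = v2 - 1 ∧ y' = v2) := by omega
        rcases hy with ⟨h3, h4⟩ | ⟨h3, h4⟩
        · have q1 : (boxN B).f (.inl ⟨(x, v2), hm⟩) = ⟨(x, y), hf⟩ := by
            apply Subtype.ext; show (x, v2) = (x, y); rw [h3]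
          have q2 : (boxN B).g (.inl ⟨(x, v2), hm⟩) = ⟨(x, y'), hf'⟩ := by
            apply Subtype.ext; show (x, v2 - 1) = (x, y'); rw [h4]
          rw [q1, q2] at hiff
          exact hfD' (hiff.mp hfD)
        · have q1 : (boxN B).f (.inl ⟨(x, v2), hm⟩) = ⟨(x, y'), hf'⟩ := by
            apply Subtype.ext; show (x, v2) = (x, y'); rw [h4]
          have q2 : (boxN B).g (.inl ⟨(x, v2), hm⟩) = ⟨(x, y), hf⟩ := by
            apply Subtype.ext; show (x, v2 - 1) = (x, y); rw [h3]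
          rw [q1, q2] at hiff
          exact hfD' (hiff.mpr hfD)
    · have hyy : y = y' := by
        rcases hor with h | h
        · exact absurd h hxx
        · exact h
      subst hyy
      have hm : (v1, y) ∈ vE B := by
        refine Finset.mem_filter.mpr ⟨?_, ?_⟩
        · have : v1 = x ∨ v1 = x' := by omega
          rcases this with h | h
          · rw [h]; exact hf
          · rw [h]; exact hf'
        · show (v1 - 1, y) ∈ B
          have : v1 - 1 = x ∨ v1 - 1 = x' := by omega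
          rcases this with h | h
          · rw [h]; exact hf
          · rw [h]; exact hf'
      refine ⟨.inr ⟨(v1, y), hm⟩, ?_, ?_⟩
      · have : v2 = y ∨ v2 = y + 1 := by omega
        rcases this with h | h
        · left
          apply Subtype.ext
          show (v1, y) = (v1, v2)
          rw [h]
        · right
          apply Subtype.ext
          show (v1, y + 1) = (v1, v2)
          rw [h]
      · intro hiff
        have hx : (x = v1 ∧ x' = v1 - 1) ∨ (x = v1 - 1 ∧ x' = v1) := by omega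
        rcases hx with ⟨h3, h4⟩ | ⟨h3, h4⟩
        · have q1 : (boxN B).f (.inr ⟨(v1, y), hm⟩) = ⟨(x, y), hf⟩ := by
            apply Subtype.ext; show (v1, y) = (x, y); rw [h3]
          have q2 : (boxN B).g (.inr ⟨(v1, y), hm⟩) = ⟨(x', y), hf'⟩ := by
            apply Subtype.ext; show (v1 - 1, y) = (x', y); rw [h4]
          rw [q1, q2] at hiff
          exact hfD' (hiff.mp hfD)
        · have q1 : (boxN B).f (.inr ⟨(v1, y), hm⟩) = ⟨(x', y), hf'⟩ := by
            apply Subtype.ext; show (v1, y) = (x', y); rw [h4]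
          have q2 : (boxN B).g (.inr ⟨(v1, y), hm⟩) = ⟨(x, y), hf⟩ := by
            apply Subtype.ext; show (v1 - 1, y) = (x, y); rw [h3]
          rw [q1, q2] at hiff
          exact hfD' (hiff.mpr hfD)
  obtain ⟨f, hf, hfD⟩ := h1
  obtain ⟨f', hf', hfD'⟩ := h2
  have hm : (f'.1.1, f.1.2) ∈ B := hB f.1 f.2 f'.1 f'.2
  have hc : Cor v.1 (f'.1.1, f.1.2) := by
    obtain ⟨a, b, ha, hb, hv⟩ := hf
    obtain ⟨a', b', ha', hb', hv'⟩ := hf'
    refine ⟨a', b, ha', hb, ?_⟩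
    rw [Prod.ext_iff] at hv hv' ⊢
    exact ⟨hv'.1, hv.2⟩
  by_cases hD : (⟨(f'.1.1, f.1.2), hm⟩ : FB B) ∈ D
  · exact key ⟨_, hm⟩ f' hc hf' hD hfD' (Or.inl rfl)
  · exact key f ⟨_, hm⟩ hf hc hfD hD (Or.inr rfl)

lemma boxN_loc_rect (a b c d : ℤ) : (boxN (Finset.Icc a b ×ˢ Finset.Icc c d)).Loc := by
  refine boxN_loc ?_
  intro f hf f' hf'
  rw [Finset.mem_product] at hf hf' ⊢
  exact ⟨hf'.1, hf.2⟩

end Vale.Agent.P145.FK
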