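import Vale.Agent.P145.FA.RpG

/-!
P145: convergence of the height functions of boxes with free arrows to the heights of the plane.
-/

set_option autoImplicit false

namespace Vale.Agent.P145.FK

open Finset Filter Topology MeasureTheory
open Vale.Agent.P152 Vale.Agent.P152.GFF.B3
open Vale.Agent.P145.FA (BoxLim rg_evn ofW)

lemma lh_W6_nonneg {c : ℝ} (hc : 0 < c) (hc2 : c ≤ 2) {V E : Type} [Fintype V] (N : Net V E)
    (k : E → ZMod 2) : 0 ≤ N.W6 (wc c) k := by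
  refine Finset.prod_nonneg (fun v _ => ?_)
  rw [w6_val]
  have h1 : 0 ≤ wc c Pairing.str := by
    show 0 ≤ 1 - c / 2
    linarith
  have h2 : 0 ≤ wc c Pairing.t1 := by
    show 0 ≤ c / 2
    linarith
  have h3 : 0 ≤ wc c Pairing.t2 := by
    show 0 ≤ c / 2
    linarith
  split_ifs <;> positivity

lemma lh_ar_pos {c : ℝ} (hc : 0 < c) (hc2 : c ≤ 2) (M R : ℕ) :
    0 < (boxNet M R).ar (wc c) (fun _ => 1) := by
  unfold Net.ar
  have h2 : (boxNet M R).W6 (wc c) (fun _ => 0) = 1 := by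
    unfold Net.W6
    refine Finset.prod_eq_one fun v _ => ?_
    rw [w6_val, if_pos ⟨rfl, rfl⟩, if_neg (by simp), if_pos ⟨rfl, rfl⟩]
    show 1 - c / 2 + 0 + c / 2 = 1
    ring
  have h1 := Finset.single_le_sum (f := fun k : BE M R → ZMod 2 => 1 * (boxNet M R).W6 (wc c) k)
      (fun k _ => by rw [one_mul]; exact lh_W6_nonneg hc hc2 _ k)
      (Finset.mem_univ (fun _ => (0 : ZMod 2)))
  rw [h2] at h1
  linarith

lemma lh_ar {c : ℝ} (hb : BoxLim c) (m r : ℕ) (hm : 1 ≤ m) (hr : 1 ≤ r)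
    (φ : (BE m r → ZMod 2) → ℝ) (ε : ℝ) (hε : 0 < ε) : ∃ q0 : ℕ, ∀ q : ℕ, q0 ≤ q →
      ∀ (M R : ℕ) (hM : q + m + q = M) (hR : q + r + q = R),
      |(boxNet M R).ar (wc c) (fun k => φ (fun e => k (bxg q q (by omega) (by omega) e))) /
        (boxNet M R).ar (wc c) (fun _ => 1) - mu (wc c) m r φ| ≤ ε := by
  obtain ⟨q0, hq0⟩ := hb m r hm hr
    (fun x => φ x * (boxNet m r).W6 (wc c) x) (rg_evn m r hm hr (wc c) φ) ε hε
  refine ⟨q0, fun q hq M R hM hR => ?_⟩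
  subst hM hR
  have h1 := hq0 q hq
  rw [← m_loc _ _ _ _ _ _ _ _ _ (m_emb.2.2.1 m r (q + m + q) (q + r + q) q q (by omega)
    (by omega)) φ] at h1
  exact h1

/-! ### Windows -/

lemma lh_lc_inj (m r : ℕ) (x0 y0 : ℤ) : Function.Injective (lc m r x0 y0) := by
  rintro (⟨i, j⟩ | ⟨i, j⟩) (⟨i', j'⟩ | ⟨i', j'⟩) h
  · have h1 : (x0 + (i : ℤ) - 1, y0 + (j : ℤ)) = (x0 + (i' : ℤ) - 1, y0 + (j' : ℤ)) :=
      Sum.inl.inj h
    have h2 := congrArg Prod.fst h1
    have h3 := congrArg Prod.snd h1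
    dsimp only at h2 h3
    congr 1
    exact Prod.ext (Fin.ext (by show i.val = i'.val; omega)) (Fin.ext (by show j.val = j'.val; omega))
  · exact absurd h (by simp [lc])
  · exact absurd h (by simp [lc])
  · have h1 : (x0 + (i : ℤ), y0 + (j : ℤ) - 1) = (x0 + (i' : ℤ), y0 + (j' : ℤ) - 1) :=
      Sum.inr.inj h
    have h2 := congrArg Prod.fst h1
    have h3 := congrArg Prod.snd h1
    dsimp only at h2 h3
    congr 1
    exact Prod.ext (Fin.ext (by show i.val = i'.val; omega)) (Fin.ext (by show j.val = j'.val; omega))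

lemma lh_ofW (m r : ℕ) (x0 y0 : ℤ) (x : BE m r → ZMod 2) (e : BE m r) :
    ofW m r x0 y0 x (lc m r x0 y0 e) = bz.symm (x e) := by
  have h : ∃ e', lc m r x0 y0 e' = lc m r x0 y0 e := ⟨e, rfl⟩
  unfold ofW
  rw [dif_pos h, lh_lc_inj m r x0 y0 h.choose_spec]

lemma lh_anti {g g' : ℤ → ℤ} {n : ℤ} (m : ℤ) (hn : -m ≤ n) (hn' : n ≤ m)
    (h : ∀ i, -m < i → i ≤ m → g i = g' i) : anti g n = anti g' n := by
  have hm : 0 ≤ m := by omega
  unfold anti
  congr 1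
  · refine Finset.sum_congr rfl fun i hi => ?_
    rw [Finset.mem_Ioc] at hi
    exact h i (by omega) (by omega)
  · refine Finset.sum_congr rfl fun i hi => ?_
    rw [Finset.mem_Ioc] at hi
    exact h i (by omega) (by omega)

lemma lh_pth {m : ℕ} {ω ω' : Ori (ℤ × ℤ)}
    (h : ∀ e, ω (lc (2 * m) (2 * m) (1 - m) (1 - m) e) =
      ω' (lc (2 * m) (2 * m) (1 - m) (1 - m) e)) {q : ℤ × ℤ}
    (h1 : -(m : ℤ) ≤ q.1) (h2 : q.1 ≤ m) (h3 : -(m : ℤ) ≤ q.2) (h4 : q.2 ≤ m) :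
    pth ω q = pth ω' q := by
  unfold pth
  congr 1
  · refine lh_anti (m : ℤ) h3 h4 fun j hj hj' => ?_
    have h5 := h (Sum.inl (⟨m, by omega⟩, ⟨(j - 1 + m).toNat, by omega⟩))
    have e1 : lc (2 * m) (2 * m) (1 - m) (1 - m)
        (Sum.inl (⟨m, by omega⟩, ⟨(j - 1 + m).toNat, by omega⟩)) = Sum.inl (0, j) := by
      show Sum.inl ((1 - m : ℤ) + ((m : ℕ) : ℤ) - 1, (1 - m : ℤ) + ((j - 1 + m).toNat : ℤ)) = _
      congr 1
      exact Prod.ext (by dsimp only; omega) (by dsimp only; omega)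
    rw [e1] at h5
    rw [h5]
  · refine lh_anti (m : ℤ) h1 h2 fun i hi hi' => ?_
    have h5 := h (Sum.inr (⟨(i - 1 + m).toNat, by omega⟩, ⟨(q.2 + m).toNat, by omega⟩))
    have e1 : lc (2 * m) (2 * m) (1 - m) (1 - m)
        (Sum.inr (⟨(i - 1 + m).toNat, by omega⟩, ⟨(q.2 + m).toNat, by omega⟩)) =
        Sum.inr (i, q.2) := by
      show Sum.inr ((1 - m : ℤ) + ((i - 1 + m).toNat : ℤ),
        (1 - m : ℤ) + ((q.2 + m).toNat : ℤ) - 1) = _
      congr 1
      exact Prod.ext (by dsimp only; omega) (by dsimp only; omega)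
    rw [e1] at h5
    rw [h5]

lemma lh_lc_bxg (m n q : ℕ) (hn : q + m = n) (hx : q + 2 * m ≤ 2 * n) (e : BE (2 * m) (2 * m)) :
    lc (2 * n) (2 * n) (1 - n) (1 - n) (bxg q q hx hx e) =
      lc (2 * m) (2 * m) (1 - m) (1 - m) e := by
  subst hn
  rcases e with ⟨i, j⟩ | ⟨i, j⟩
  · show Sum.inl ((1 - ((q + m : ℕ) : ℤ)) + ((q + i.val : ℕ) : ℤ) - 1,
      (1 - ((q + m : ℕ) : ℤ)) + ((q + j.val : ℕ) : ℤ)) =
      Sum.inl ((1 - m : ℤ) + (i.val : ℤ) - 1, (1 - m : ℤ) + (j.val : ℤ))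
    congr 1
    exact Prod.ext (by push_cast; ring) (by push_cast; ring)
  · show Sum.inr ((1 - ((q + m : ℕ) : ℤ)) + ((q + i.val : ℕ) : ℤ),
      (1 - ((q + m : ℕ) : ℤ)) + ((q + j.val : ℕ) : ℤ) - 1) =
      Sum.inr ((1 - m : ℤ) + (i.val : ℤ), (1 - m : ℤ) + (j.val : ℤ) - 1)
    congr 1
    exact Prod.ext (by push_cast; ring) (by push_cast; ring)

/-- Convergence of the local functions of the heights. -/
theorem lim_hgt {c : ℝ} (hb : BoxLim c) {P : Measure (Ori (ℤ × ℤ))} (hP : IsP c P) {m : ℕ}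
    (g : ((ℤ × ℤ) → ℤ) → ℝ)
    (hg : ∀ h h' : (ℤ × ℤ) → ℤ, (∀ q ∈ Finset.Icc (-(m : ℤ)) m ×ˢ Finset.Icc (-(m : ℤ)) m,
      h q = h' q) → g h = g h') (j : ℤ) :
    Tendsto (fun n : ℕ => (∑ k : BE (2 * n) (2 * n) → ZMod 2,
      g (fun q => pth (ofW (2 * n) (2 * n) (1 - n) (1 - n) k) q + 2 * j) *
        (boxNet (2 * n) (2 * n)).W6 (wc c) k) / (boxNet (2 * n) (2 * n)).ar (wc c) (fun _ => 1))
      atTop (𝓝 (∫ w, g (fun q => pth w q + 2 * j) ∂P)) := by
  set m' : ℕ := m + 1 with hm'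
  set φ : (BE (2 * m') (2 * m') → ZMod 2) → ℝ := fun x =>
    g (fun q => pth (ofW (2 * m') (2 * m') (1 - m') (1 - m') x) q + 2 * j) with hφ
  have hI : ∫ w, g (fun q => pth w q + 2 * j) ∂P = mu (wc c) (2 * m') (2 * m') φ := by
    rw [← hP.2.2 (2 * m') (2 * m') (by omega) (by omega) φ (1 - m') (1 - m')]
    refine integral_congr_ae (Eventually.of_forall fun w => ?_)
    refine hg _ _ fun q hq => ?_
    rw [Finset.mem_product, Finset.mem_Icc, Finset.mem_Icc] at hq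
    have : pth w q = pth (ofW (2 * m') (2 * m') (1 - m') (1 - m')
        (rd (2 * m') (2 * m') (1 - m') (1 - m') w)) q := by
      refine lh_pth (m := m') (fun e => ?_) (by omega) (by omega) (by omega) (by omega)
      rw [lh_ofW, rd_eq, Equiv.symm_apply_apply]
    rw [this]
  rw [hI, Metric.tendsto_atTop]
  intro ε hε
  obtain ⟨q0, hq0⟩ := lh_ar hb (2 * m') (2 * m') (by omega) (by omega) φ (ε / 2) (by linarith)
  refine ⟨q0 + m', fun n hn => ?_⟩
  obtain ⟨q, hq⟩ : ∃ q, q + m' = n := ⟨n - m', by omega⟩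
  have h1 := hq0 q (by omega) (2 * n) (2 * n) (by omega) (by omega)
  have h2 : (boxNet (2 * n) (2 * n)).ar (wc c)
      (fun k => φ (fun e => k (bxg q q (by omega) (by omega) e))) =
      ∑ k : BE (2 * n) (2 * n) → ZMod 2,
      g (fun q => pth (ofW (2 * n) (2 * n) (1 - n) (1 - n) k) q + 2 * j) *
        (boxNet (2 * n) (2 * n)).W6 (wc c) k := by
    have h3 : ∀ k : BE (2 * n) (2 * n) → ZMod 2,
        φ (fun e => k (bxg q q (by omega) (by omega) e)) =
        g (fun q => pth (ofW (2 * n) (2 * n) (1 - n) (1 - n) k) q + 2 * j) := by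
      intro k
      refine hg _ _ fun p hp => ?_
      rw [Finset.mem_product, Finset.mem_Icc, Finset.mem_Icc] at hp
      have : pth (ofW (2 * m') (2 * m') (1 - m') (1 - m')
          (fun e => k (bxg q q (by omega) (by omega) e))) p =
          pth (ofW (2 * n) (2 * n) (1 - n) (1 - n) k) p := by
        refine lh_pth (m := m') (fun e => ?_) (by omega) (by omega) (by omega) (by omega)
        rw [lh_ofW, ← lh_lc_bxg m' n q hq (by omega) e, lh_ofW]
      rw [this]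
    unfold Net.ar
    simp only [h3]
  rw [h2] at h1
  rw [Real.dist_eq]
  linarith

end Vale.Agent.P145.FK
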