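import Vale.Agent.P145.FK.N6

/-!
P145, block K1: large squares contain all faces which touch a finite set; every even face of a
square has a neighbour in the square.
-/

namespace Vale.Agent.P145.FK

open Finset Vale.Agent.P145.FP Vale.Agent.P145.Dom
open scoped Classical

/-- Large squares contain all faces which touch `F`. -/
theorem exists_Nb6 (F : Finset (ℤ × ℤ)) : ∃ n0 : ℕ, ∀ n, n0 ≤ n → Nb6 (Sq n) (F : Set (ℤ × ℤ)) := by
  set m : ℕ := F.sup (fun f => f.1.natAbs + f.2.natAbs) with hm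
  have hF : ∀ f ∈ F, f.1.natAbs + f.2.natAbs ≤ m := fun f hf =>
    Finset.le_sup (f := fun f : ℤ × ℤ => f.1.natAbs + f.2.natAbs) hf
  refine ⟨m + 5, fun n hn => ?_⟩
  rintro f hf v ⟨a, b, ha, hb, rfl⟩
  have h := hF f hf
  refine ⟨?_, ?_⟩
  · rw [mem_Sq, abs_le, abs_le]
    simp only [fc6_l, fc6_r]
    omega
  · rintro f' ⟨a', b', ha', hb', hv⟩
    rw [mem_Sq, abs_le, abs_le]
    simp only [Prod.mk.injEq] at hv
    simp only [fc6_l, fc6_r]
    omega

/-- Every even face of a square has a neighbour in the square. -/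
theorem NI_Sq {n : ℕ} (hn : 1 ≤ n) : NI (Sq n) := by
  rintro ⟨q, hq⟩
  obtain ⟨h1, h2⟩ := mem_ev6.1 hq
  rw [mem_Sq, abs_le, abs_le] at h1
  rcases le_or_gt (q.1 + 1) n with h | h
  · refine ⟨⟨(q.1 + 1, q.2), mem_od6.2 ⟨?_, ?_⟩⟩, ?_⟩
    · rw [mem_Sq, abs_le, abs_le]
      simp only
      omega
    · rw [Int.not_even_iff_odd]
      obtain ⟨k, hk⟩ := h2
      exact ⟨k, by simp only; omega⟩
    · right
      exact ⟨rfl, Or.inr rfl⟩
  · refine ⟨⟨(q.1 - 1, q.2), mem_od6.2 ⟨?_, ?_⟩⟩, ?_⟩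
    · rw [mem_Sq, abs_le, abs_le]
      simp only
      omega
    · rw [Int.not_even_iff_odd]
      obtain ⟨k, hk⟩ := h2
      exact ⟨k - 1, by simp only; omega⟩
    · right
      exact ⟨rfl, Or.inl (by simp only; omega)⟩

end Vale.Agent.P145.FK
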