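import Vale.Agent.P145.FK.LowB
import Vale.Agent.P145.FK.N6b

/-!
P145, block K1: the inequality LOW in the plane.
-/

namespace Vale.Agent.P145.FK

open Finset Filter Topology MeasureTheory Vale.Agent.P145.FP Vale.Agent.P145.Dom
open Vale.Agent.P145.FA (Hgt mu0 Pl BoxLim ofW)
open Vale.Agent.P145.FB (Pt Mk mkm om MU)
open Vale.Agent.P152 (Ori pth wc)
open Vale.Agent.P152.GFF.B3 (IsP boxNet BE)
open scoped Classical

/-! ### Truncation -/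

/-- Truncation at the face `q`. -/
noncomputable def tr6 (q : Pt) (L : ℕ) (G : Hgt → Set Pt → ℝ) : Hgt → Set Pt → ℝ :=
  fun h b => if |h q| ≤ 2 * (L : ℤ) then G h b else 0

lemma tr6_nonneg {q : Pt} {L : ℕ} {G : Hgt → Set Pt → ℝ} (hG : ∀ h b, 0 ≤ G h b) (h : Hgt)
    (b : Set Pt) : 0 ≤ tr6 q L G h b := by
  unfold tr6
  split_ifs
  · exact hG h b
  · exact le_rfl

lemma tr6_mul (q : Pt) (L : ℕ) (G A : Hgt → Set Pt → ℝ) :
    (fun h b => tr6 q L G h b * A h b) = tr6 q L (fun h b => G h b * A h b) := by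
  funext h b
  unfold tr6
  split_ifs
  · rfl
  · exact zero_mul _

lemma Loc6.tr6 {m : ℕ} {q : Pt} (hq : q ∈ Sq m) (L : ℕ) {G : Hgt → Set Pt → ℝ}
    (hG : Loc6 m G) : Loc6 m (tr6 q L G) := by
  intro h h' b b' h1 h2
  unfold FK.tr6
  rw [h1 q hq, hG _ _ _ _ h1 h2]

lemma sup6_tr6 {m : ℕ} {q : Pt} (hq : q ∈ Sq m) : ∃ R : ℕ, ∀ (L : ℕ) (G : Hgt → Set Pt → ℝ),
    Sup6 m (L + R) (FK.tr6 q L G) := by
  obtain ⟨R, hR⟩ := FC.exists_bound (FC.con_SqF m)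
  refine ⟨R.toNat, fun L G h b hh hne => ?_⟩
  have h1 := hR h hh q hq
  unfold tr6 at hne
  have h2 : |h q| ≤ 2 * (L : ℤ) := by
    by_contra h3
    exact hne (if_neg h3)
  have h3 := Int.self_le_toNat R
  push_cast
  rw [abs_le] at h1 h2 ⊢
  constructor <;> linarith

lemma ins_abs {h h' : Hgt} {q : Pt} (e : (h q).natAbs = (h' q).natAbs) : |h q| = |h' q| := by
  rw [Int.abs_eq_natAbs, Int.abs_eq_natAbs, e]

lemma OutM.tr6 {F : Set (ℤ × ℤ)} {q : Pt} (hq : ¬ Ins F q) (L : ℕ) {G : Hgt → Set Pt → ℝ}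
    (hG : OutM F G) : OutM F (FK.tr6 q L G) := by
  intro h h' b b' h1 h2
  unfold FK.tr6
  rw [ins_abs (h1 q hq), hG _ _ _ _ h1 h2]

lemma DecM.tr6 (q : Pt) (L : ℕ) {G : Hgt → Set Pt → ℝ} (h0 : ∀ h b, 0 ≤ G h b)
    (hG : DecM G) : DecM (FK.tr6 q L G) := by
  intro h h' b b' h1 h2
  unfold FK.tr6
  by_cases h3 : |h' q| ≤ 2 * (L : ℤ)
  · have h4 : |h q| ≤ 2 * (L : ℤ) := by
      have := h1 q
      rw [Int.abs_eq_natAbs] at h3 ⊢
      omega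
    rw [if_pos h3, if_pos h4]
    exact hG _ _ _ _ h1 h2
  · rw [if_neg h3]
    split_ifs
    · exact h0 _ _
    · exact le_rfl

lemma tr6_int (q : Pt) {μ : Measure (Hgt × Mk)} {G : Hgt → Set Pt → ℝ}
    (hi : Integrable (fun x => G x.1 (bl x)) μ) (L : ℕ) :
    Integrable (fun x => tr6 q L G x.1 (bl x)) μ := by
  have hm : MeasurableSet {x : Hgt × Mk | |x.1 q| ≤ 2 * (L : ℤ)} := by
    have h1 : Measurable fun x : Hgt × Mk => x.1 q := (measurable_pi_apply q).comp measurable_fst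
    exact h1 (MeasurableSet.of_discrete (s := {z : ℤ | |z| ≤ 2 * (L : ℤ)}))
  have h2 := hi.indicator hm
  refine h2.congr (Filter.Eventually.of_forall fun x => ?_)
  unfold tr6
  simp only [Set.indicator, Set.mem_ofPred_eq]

lemma tr6_lim (q : Pt) {μ : Measure (Hgt × Mk)} {G : Hgt → Set Pt → ℝ}
    (hi : Integrable (fun x => G x.1 (bl x)) μ) :
    Tendsto (fun L : ℕ => ∫ x, tr6 q L G x.1 (bl x) ∂μ) atTop (𝓝 (∫ x, G x.1 (bl x) ∂μ)) := by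
  refine tendsto_integral_of_dominated_convergence (fun x => ‖G x.1 (bl x)‖)
    (fun L => (tr6_int q hi L).aestronglyMeasurable) hi.norm
    (fun L => Filter.Eventually.of_forall fun x => ?_) (Filter.Eventually.of_forall fun x => ?_)
  · unfold tr6
    split_ifs
    · exact le_rfl
    · rw [norm_zero]; exact norm_nonneg _
  · refine tendsto_const_nhds.congr' ?_
    filter_upwards [eventually_ge_atTop (x.1 q).natAbs] with L hL
    unfold tr6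
    rw [if_pos]
    rw [Int.abs_eq_natAbs]
    omega

/-! ### LOW -/

/-- LOW in the plane. -/
theorem low_plane {c : ℝ} (hc : 1 ≤ c) (hc2 : c ≤ 2) (hb : BoxLim c)
    {P : Measure (Ori (ℤ × ℤ))} (hPl : Pl c P) (hP : IsP c P) {F : Finset (ℤ × ℤ)}
    {Θ A : Hgt → Set Pt → ℝ} {m : ℕ} (hΘ0 : ∀ h b, 0 ≤ Θ h b) (hΘ : OutM F Θ) (hΘl : Loc6 m Θ)
    (hA : PosM A) (hAl : Loc6 m A) (hi0 : Integrable (fun x => Θ x.1 (bl x)) (MU c⁻¹ P))
    (hi1 : Integrable (fun x => Θ x.1 (bl x) * A x.1 (bl x)) (MU c⁻¹ P)) {p : ℝ} {K0 : ℕ}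
    (hp : ∀ᶠ n in atTop, ∀ K, K0 ≤ K → Jz (Sq n) K c⁻¹ F A = p * Jz (Sq n) K c⁻¹ F (fun _ _ => 1)) :
    p * ∫ x, Θ x.1 (bl x) ∂(MU c⁻¹ P) ≤ ∫ x, Θ x.1 (bl x) * A x.1 (bl x) ∂(MU c⁻¹ P) := by
  have hc0 : 0 < c := by linarith
  have ht : 0 < c⁻¹ := inv_pos.mpr hc0
  have ht1 : c⁻¹ ≤ 1 := inv_le_one_of_one_le₀ hc
  obtain ⟨v0, hv0⟩ := Infinite.exists_notMem_finset F
  set q0 : Pt := FP.fc (.inl v0) with hq0
  have hq0F : ¬ Ins (F : Set (ℤ × ℤ)) q0 := by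
    intro h
    unfold Ins at h
    rw [hq0, cf_fc] at h
    exact hv0 (h v0 (cor00 v0))
  set M : ℕ := max m (max q0.1.natAbs q0.2.natAbs) with hM
  have hq0M : q0 ∈ Sq M := by
    rw [mem_Sq]
    have h1 : q0.1.natAbs ≤ M := (le_max_left _ _).trans (le_max_right _ _)
    have h2 : q0.2.natAbs ≤ M := (le_max_right _ _).trans (le_max_right _ _)
    rw [Int.abs_eq_natAbs, Int.abs_eq_natAbs]
    exact ⟨by exact_mod_cast h1, by exact_mod_cast h2⟩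
  have hΘM : Loc6 M Θ := hΘl.mono (le_max_left _ _)
  have hAM : Loc6 M A := hAl.mono (le_max_left _ _)
  obtain ⟨R, hR⟩ := sup6_tr6 hq0M
  obtain ⟨n0, hn0⟩ := exists_Nb6 F
  have key : ∀ L : ℕ, p * ∫ x, tr6 q0 L Θ x.1 (bl x) ∂(MU c⁻¹ P) ≤
      ∫ x, tr6 q0 L (fun h b => Θ h b * A h b) x.1 (bl x) ∂(MU c⁻¹ P) := by
    intro L
    have hK : ∀ n, (L + R) + 2 * n + 2 ≤ max K0 ((L + R) + 2 * n + 2) := fun n => le_max_right _ _
    have l1 := lim6 hc hb hPl hP (hΘM.tr6 hq0M L) (hR L Θ) (tr6_int q0 hi0 L) hK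
    have l2 := lim6 hc hb hPl hP ((hΘM.mul hAM).tr6 hq0M L) (hR L (fun h b => Θ h b * A h b))
      (tr6_int q0 hi1 L) hK
    refine le_of_tendsto_of_tendsto (l1.const_mul p) l2 ?_
    filter_upwards [hp, eventually_ge_atTop (max n0 1)] with n hn hn1
    have hnb := hn0 n ((le_max_left _ _).trans hn1)
    have hni := NI_Sq (n := n) ((le_max_right _ _).trans hn1)
    have h1 := low6 (K := max K0 ((L + R) + 2 * n + 2)) ht ht1 hni hnb hA
      (tr6_nonneg (q := q0) (L := L) hΘ0) (hΘ.tr6 hq0F L)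
    rw [hn _ (le_max_left _ _), tr6_mul] at h1
    have h2 := Jz_one_pos (B := Sq n) (K := max K0 ((L + R) + 2 * n + 2)) ht ht1
      (F : Set (ℤ × ℤ))
    have h3 : p * J6 (Sq n) (max K0 ((L + R) + 2 * n + 2)) c⁻¹ (tr6 q0 L Θ) ≤
        J6 (Sq n) (max K0 ((L + R) + 2 * n + 2)) c⁻¹ (tr6 q0 L fun h b => Θ h b * A h b) := by
      refine le_of_mul_le_mul_left ?_ h2
      calc _ = p * Jz (Sq n) (max K0 ((L + R) + 2 * n + 2)) c⁻¹ (F : Set (ℤ × ℤ)) (fun _ _ => 1) *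
            J6 (Sq n) (max K0 ((L + R) + 2 * n + 2)) c⁻¹ (tr6 q0 L Θ) := by ring
        _ ≤ _ := h1
    show p * (_ / _) ≤ _ / _
    rw [← mul_div_assoc]
    exact div_le_div_of_nonneg_right h3 (Dn_pos hc0 hc2 n).le
  exact le_of_tendsto_of_tendsto' ((tr6_lim q0 hi0).const_mul p) (tr6_lim q0 hi1) key

/-- The zero boundary expectation of a polynomial in the heights, on the box. -/
theorem Jz_zeH {B F : Finset (ℤ × ℤ)} (hI : NI B) (hB : Nb6 B F) {K : ℕ} (hK : KF F ≤ K) {t : ℝ}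
    (ht : 0 < t) (ht1 : t ≤ 1) {A : (Site → ℤ) → ℝ} (hA : PosH A) :
    Jz B K t F (fun h _ => A (fun s => h (FP.fc s))) =
      ze t⁻¹ F A * Jz B K t F (fun _ _ => 1) := by
  have e0 : ∀ Φ : (Site → ℤ) → ℝ, (n6 B).J (K := K) t Net.κ6 (Net.β6 t) (fun x s =>
      (n6 B).zbi (in6 B F) x * Φ (fun σ => ex6 (fun i => Net.pv (V := V6 B) (in6 B F) i
        (x.1 i, s i)) (FP.fc σ))) =
      (t ^ Fintype.card (E6 B) * 2 ^ (Finset.univ.filter (fun f => f ∉ in6 B F)).card) *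
        zs t⁻¹ F Φ := by
    intro Φ
    rw [zs6_eq hI hB hK]
    exact (n6 B).bridge_h ht (in6 B F) (fun y => Φ (fun σ => ex6 y (FP.fc σ)))
  have e1 : ∀ (S : Set (F6 B)) (x : Net.Cfg (V6 B) (F6 B) (E6 B) K) (s : V6 B ⊕ F6 B → Bool),
      A (fun σ => ex6 (fun i => Net.pv (V := V6 B) S i (x.1 i, s i)) (FP.fc σ)) =
      A (fun σ => hg6 x s (FP.fc σ)) := by
    intro S x s
    induction hA with
    | const c hc => rfl
    | ht v =>
      by_cases hv : FP.fc (.inl v) ∈ B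
      · have h1 := ex6_inl (fun i => Net.pv (V := V6 B) S i (x.1 i, s i)) ⟨_, ev6_fc hv⟩
        have h2 := hg6_inl x s ⟨_, ev6_fc hv⟩
        simp only at h1 h2
        show ((ex6 (fun i => Net.pv (V := V6 B) S i (x.1 i, s i)) (FP.fc (.inl v)) : ℤ) : ℝ) =
          ((hg6 x s (FP.fc (.inl v)) : ℤ) : ℝ)
        rw [h1, h2]
        rfl
      · show ((ex6 (fun i => Net.pv (V := V6 B) S i (x.1 i, s i)) (FP.fc (.inl v)) : ℤ) : ℝ) =
          ((hg6 x s (FP.fc (.inl v)) : ℤ) : ℝ)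
        rw [hg6, ex6_of_not _ hv, ex6_of_not _ hv]
    | add h1 h2 ih1 ih2 => simp only [ih1, ih2]
    | mul h1 h2 ih1 ih2 => simp only [ih1, ih2]
  have a1 := e0 A
  have a2 := e0 (fun _ => 1)
  simp only [e1 (in6 B F)] at a1
  have h3 := zs_one_pos F ht ht1
  unfold Jz
  have h4 : ∀ C z w : ℝ, z ≠ 0 → C * w = w / z * (C * z) := by
    intro C z w hz
    field_simp
  rw [a1, a2, ze]
  exact h4 _ _ _ h3.ne'

/-- Local form of a polynomial in the heights. -/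
lemma PosH.loc6 {A : (Site → ℤ) → ℝ} (hA : PosH A) :
    ∃ m : ℕ, Loc6 m (fun h _ => A (fun s => h (FP.fc s))) := by
  induction hA with
  | const c hc => exact ⟨0, fun _ _ _ _ _ _ => rfl⟩
  | ht v =>
    refine ⟨max (FP.fc (.inl v)).1.natAbs (FP.fc (.inl v)).2.natAbs, fun h h' _ _ h1 _ => ?_⟩
    show ((h (FP.fc (.inl v)) : ℤ) : ℝ) = ((h' (FP.fc (.inl v)) : ℤ) : ℝ)
    rw [h1 _ ?_]
    rw [mem_Sq, Int.abs_eq_natAbs, Int.abs_eq_natAbs]
    exact ⟨by exact_mod_cast le_max_left _ _, by exact_mod_cast le_max_right _ _⟩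
  | add h1 h2 ih1 ih2 =>
    obtain ⟨m1, hm1⟩ := ih1
    obtain ⟨m2, hm2⟩ := ih2
    refine ⟨max m1 m2, fun h h' b b' k1 k2 => ?_⟩
    have e1 := (hm1.mono (le_max_left m1 m2)) h h' b b' k1 k2
    have e2 := (hm2.mono (le_max_right m1 m2)) h h' b b' k1 k2
    simp only at e1 e2 ⊢
    rw [e1, e2]
  | mul h1 h2 ih1 ih2 =>
    obtain ⟨m1, hm1⟩ := ih1
    obtain ⟨m2, hm2⟩ := ih2
    refine ⟨max m1 m2, fun h h' b b' k1 k2 => ?_⟩
    have e1 := (hm1.mono (le_max_left m1 m2)) h h' b b' k1 k2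
    have e2 := (hm2.mono (le_max_right m1 m2)) h h' b b' k1 k2
    simp only at e1 e2 ⊢
    rw [e1, e2]

/-- LOW in the plane for polynomials in the heights. -/
theorem low_planeH {c : ℝ} (hc : 1 ≤ c) (hc2 : c ≤ 2) (hb : BoxLim c)
    {P : Measure (Ori (ℤ × ℤ))} (hPl : Pl c P) (hP : IsP c P) {F : Finset (ℤ × ℤ)}
    {Θ : Hgt → Set Pt → ℝ} {m : ℕ} (hΘ0 : ∀ h b, 0 ≤ Θ h b) (hΘ : OutM F Θ) (hΘl : Loc6 m Θ)
    {A : (Site → ℤ) → ℝ} (hA : PosH A) (hi0 : Integrable (fun x => Θ x.1 (bl x)) (MU c⁻¹ P))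
    (hi1 : Integrable (fun x => Θ x.1 (bl x) * A (fun s => x.1 (FP.fc s))) (MU c⁻¹ P)) :
    ze c F A * ∫ x, Θ x.1 (bl x) ∂(MU c⁻¹ P) ≤
      ∫ x, Θ x.1 (bl x) * A (fun s => x.1 (FP.fc s)) ∂(MU c⁻¹ P) := by
  have hc0 : 0 < c := by linarith
  have ht : 0 < c⁻¹ := inv_pos.mpr hc0
  have ht1 : c⁻¹ ≤ 1 := inv_le_one_of_one_le₀ hc
  obtain ⟨m', hm'⟩ := hA.loc6
  obtain ⟨n0, hn0⟩ := exists_Nb6 F
  refine low_plane (A := fun h _ => A (fun s => h (FP.fc s))) (K0 := KF F) hc hc2 hb hPl hP hΘ0 hΘ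
    (hΘl.mono (le_max_left m m')) hA.posM (hm'.mono (le_max_right m m')) hi0 hi1 ?_
  filter_upwards [eventually_ge_atTop (max n0 1)] with n hn K hK
  have h1 := Jz_zeH (NI_Sq (n := n) ((le_max_right _ _).trans hn))
    (hn0 n ((le_max_left _ _).trans hn)) hK ht ht1 hA
  rwa [inv_inv] at h1

end Vale.Agent.P145.FK
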