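import Vale.Agent.P145.FK.N6
import Vale.Agent.P145.FK.ExtA

/-!
P145, block K1: plane observables (functions of the absolute heights and of the set of the blocked
vertices) on boxes with free heights; the inequalities LOW and EXT on boxes.
-/

namespace Vale.Agent.P145.FK

open Finset Vale.Agent.P145.FP Vale.Agent.P145.Dom
open Vale.Agent.P145.FA (Hgt)
open Vale.Agent.P145.FB (Pt Mk)
open scoped Classical

/-! ### Plane observables -/

/-- The cone of the increasing plane observables: generated by the nonnegative constants, the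
heights at the even faces, and the nonnegative functions which are increasing in the moduli of the
heights and decreasing in the set of the blocked vertices. -/
inductive PosM : (Hgt → Set Pt → ℝ) → Prop
  | const (c : ℝ) (hc : 0 ≤ c) : PosM (fun _ _ => c)
  | ht (v : ℤ × ℤ) : PosM (fun h _ => (h (FP.fc (.inl v)) : ℝ))
  | inc (a : (Pt → ℕ) → Set Pt → ℝ) (h0 : ∀ u b, 0 ≤ a u b)
      (hm : ∀ u u' b b', u ≤ u' → b' ⊆ b → a u b ≤ a u' b') :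
      PosM (fun h b => a (fun q => (h q).natAbs) b)
  | add {f g : Hgt → Set Pt → ℝ} : PosM f → PosM g → PosM (fun h b => f h b + g h b)
  | mul {f g : Hgt → Set Pt → ℝ} : PosM f → PosM g → PosM (fun h b => f h b * g h b)

/-- Polynomials in the heights. -/
lemma PosH.posM {A : (Site → ℤ) → ℝ} (h : PosH A) : PosM (fun η _ => A (fun s => η (FP.fc s))) := by
  induction h with
  | const c hc => exact PosM.const c hc
  | ht v => exact PosM.ht v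
  | add h1 h2 ih1 ih2 => exact PosM.add ih1 ih2
  | mul h1 h2 ih1 ih2 => exact PosM.mul ih1 ih2

/-- A decreasing function of the set of blocked vertices. -/
lemma PosM.dec {a : Set Pt → ℝ} (h0 : ∀ b, 0 ≤ a b) (ha : Antitone a) : PosM (fun _ b => a b) :=
  PosM.inc (fun _ b => a b) (fun _ b => h0 b) (fun _ _ _ _ _ h => ha h)

/-- Inside sites of the set `F` of faces of the square lattice. -/
def Ins (F : Set (ℤ × ℤ)) (q : Pt) : Prop :=
  Sum.elim (fun v => ∀ f, Cor v f → f ∈ F) (fun f => f ∈ F) (FP.cf q)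

/-- `Θ` depends on the moduli of the heights and on the blocked vertices outside `F`. -/
def OutM (F : Set (ℤ × ℤ)) (Θ : Hgt → Set Pt → ℝ) : Prop :=
  ∀ h h' b b', (∀ q, ¬ Ins F q → (h q).natAbs = (h' q).natAbs) →
    (∀ w, ¬ In6 F w → (w ∈ b ↔ w ∈ b')) → Θ h b = Θ h' b'

/-- `A` depends on the heights and the blocked vertices inside `F`. -/
def InM (F : Set (ℤ × ℤ)) (A : Hgt → Set Pt → ℝ) : Prop :=
  ∀ h h' b b', (∀ q, Ins F q → h q = h' q) →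
    (∀ w, In6 F w → Ins F (FB.e1 w) → Ins F (FB.e2 w) → (w ∈ b ↔ w ∈ b')) → A h b = A h' b'

/-- `X` is decreasing in the moduli of the heights, increasing in the set of blocked vertices. -/
def DecM (X : Hgt → Set Pt → ℝ) : Prop :=
  ∀ h h' b b', (∀ q, (h q).natAbs ≤ (h' q).natAbs) → b' ⊆ b → X h' b' ≤ X h b

/-! ### Configurations on a box -/

section box
variable {B : Finset (ℤ × ℤ)} {K : ℕ}

/-- Heights of a configuration. -/
noncomputable def hg6 (x : Net.Cfg (V6 B) (F6 B) (E6 B) K) (s : V6 B ⊕ F6 B → Bool) : Hgt :=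
  ex6 (fun i => Net.pv (V := V6 B) (Set.univ : Set (F6 B)) i (x.1 i, s i))

/-- Blocked vertices of a configuration. -/
def bk6 (x : Net.Cfg (V6 B) (F6 B) (E6 B) K) : Set Pt :=
  {p | ∃ h : p ∈ FC.VB B, (n6 B).blocked x ⟨p, h⟩}

lemma hg6_inl (x : Net.Cfg (V6 B) (F6 B) (E6 B) K) (s : V6 B ⊕ F6 B → Bool) (v : V6 B) :
    hg6 x s v.1 = Net.sg (s (.inl v)) * (2 * ((x.1 (.inl v) : ℕ) : ℤ)) := by
  rw [hg6, ex6_inl]; rfl

lemma hg6_inr (x : Net.Cfg (V6 B) (F6 B) (E6 B) K) (s : V6 B ⊕ F6 B → Bool) (f : F6 B) :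
    hg6 x s f.1 = Net.sg (s (.inr f)) * (2 * ((x.1 (.inr f) : ℕ) : ℤ) + 1) := by
  rw [hg6, ex6_inr]
  simp only [Net.pv, Sum.elim_inr, if_pos (Set.mem_univ f)]

lemma sg_natAbs (b : Bool) (z : ℤ) : (Net.sg b * z).natAbs = z.natAbs := by
  rcases Net.sg_cases b with h | h <;> rw [h] <;> simp

lemma abs_inl (x : Net.Cfg (V6 B) (F6 B) (E6 B) K) (s : V6 B ⊕ F6 B → Bool) (v : V6 B) :
    (hg6 x s v.1).natAbs = 2 * (x.1 (.inl v) : ℕ) := by
  rw [hg6_inl, sg_natAbs]; omega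

lemma abs_inr (x : Net.Cfg (V6 B) (F6 B) (E6 B) K) (s : V6 B ⊕ F6 B → Bool) (f : F6 B) :
    (hg6 x s f.1).natAbs = 2 * (x.1 (.inr f) : ℕ) + 1 := by
  rw [hg6_inr, sg_natAbs]; omega

lemma mem_cases {B : Finset (ℤ × ℤ)} {q : ℤ × ℤ} (hq : q ∈ B) :
    (∃ v : V6 B, v.1 = q) ∨ ∃ f : F6 B, f.1 = q := by
  by_cases h : Even (q.1 + q.2)
  · exact Or.inl ⟨⟨q, mem_ev6.2 ⟨hq, h⟩⟩, rfl⟩
  · exact Or.inr ⟨⟨q, mem_od6.2 ⟨hq, h⟩⟩, rfl⟩

lemma abs_le_of {x y : Net.Cfg (V6 B) (F6 B) (E6 B) K} (h : x ≤ y) (s s' : V6 B ⊕ F6 B → Bool)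
    (q : Pt) : (hg6 x s q).natAbs ≤ (hg6 y s' q).natAbs := by
  by_cases hq : q ∈ B
  · rcases mem_cases hq with ⟨v, rfl⟩ | ⟨f, rfl⟩
    · rw [abs_inl, abs_inl]
      have : (x.1 (.inl v) : ℕ) ≤ y.1 (.inl v) := by exact_mod_cast h.1 _
      omega
    · rw [abs_inr, abs_inr]
      have : (x.1 (.inr f) : ℕ) ≤ y.1 (.inr f) := by exact_mod_cast h.1 _
      omega
  · rw [hg6, ex6_of_not _ hq]
    simp

lemma abs_eq_of (x : Net.Cfg (V6 B) (F6 B) (E6 B) K) (s s' : V6 B ⊕ F6 B → Bool)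
    (q : Pt) : (hg6 x s q).natAbs = (hg6 x s' q).natAbs :=
  le_antisymm (abs_le_of le_rfl s s' q) (abs_le_of le_rfl s' s q)

lemma bk6_anti {x y : Net.Cfg (V6 B) (F6 B) (E6 B) K} (h : x ≤ y) : bk6 y ⊆ bk6 x := by
  rintro p ⟨hp, hb⟩
  exact ⟨hp, Net.blocked_anti h hb⟩

/-- The plane observable on the box. -/
lemma PosM.mon {A : Hgt → Set Pt → ℝ} (hA : PosM A) :
    Mon (fun (x : Net.Cfg (V6 B) (F6 B) (E6 B) K) (s : V6 B ⊕ F6 B → Bool) =>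
      A (hg6 x s) (bk6 x)) := by
  induction hA with
  | const c hc => exact Mon.const hc
  | ht v =>
    by_cases hv : FP.fc (.inl v) ∈ B
    · have h1 : Mon (fun (x : Net.Cfg (V6 B) (F6 B) (E6 B) K) (s : V6 B ⊕ F6 B → Bool) =>
          (2 * ((x.1 (.inl ⟨_, ev6_fc hv⟩) : ℕ) : ℝ)) * sv (s (.inl ⟨_, ev6_fc hv⟩))) := by
        refine Mon.one (B := fun x : Net.Cfg (V6 B) (F6 B) (E6 B) K =>
          2 * ((x.1 (.inl ⟨_, ev6_fc hv⟩) : ℕ) : ℝ)) (fun x => by positivity) ?_ (Pos.single _)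
        intro x y hxy
        have h2 : (x.1 (.inl ⟨_, ev6_fc hv⟩) : ℕ) ≤ y.1 (.inl ⟨_, ev6_fc hv⟩) := by
          exact_mod_cast hxy.1 _
        have h3 : ((x.1 (.inl ⟨_, ev6_fc hv⟩) : ℕ) : ℝ) ≤ ((y.1 (.inl ⟨_, ev6_fc hv⟩) : ℕ) : ℝ) := by
          exact_mod_cast h2
        show 2 * ((x.1 (.inl ⟨_, ev6_fc hv⟩) : ℕ) : ℝ) ≤ 2 * ((y.1 (.inl ⟨_, ev6_fc hv⟩) : ℕ) : ℝ)
        linarith
      refine (congrArg Mon ?_).mp h1
      funext x s
      have := hg6_inl x s ⟨_, ev6_fc hv⟩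
      simp only at this
      show _ = ((hg6 x s (FP.fc (.inl v)) : ℤ) : ℝ)
      rw [this]
      push_cast
      rw [sg_cast]
      ring
    · have h1 := Mon.const (α := Net.Cfg (V6 B) (F6 B) (E6 B) K) (I := V6 B ⊕ F6 B) (c := 0) le_rfl
      refine (congrArg Mon ?_).mp h1
      funext x s
      show _ = ((hg6 x s (FP.fc (.inl v)) : ℤ) : ℝ)
      rw [hg6, ex6_of_not _ hv]
      simp
  | inc a h0 hm =>
    have h1 : Mon (fun (x : Net.Cfg (V6 B) (F6 B) (E6 B) K) (s : V6 B ⊕ F6 B → Bool) =>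
        a (fun q => (hg6 x (fun _ => false) q).natAbs) (bk6 x) * 1) := by
      refine Mon.one (B := fun x : Net.Cfg (V6 B) (F6 B) (E6 B) K =>
        a (fun q => (hg6 x (fun _ => false) q).natAbs) (bk6 x)) (fun x => h0 _ _) ?_
        (Pos.const 1 zero_le_one)
      intro x y hxy
      exact hm _ _ _ _ (fun q => abs_le_of hxy _ _ q) (bk6_anti hxy)
    refine (congrArg Mon ?_).mp h1
    funext x s
    rw [mul_one]
    congr 1
    funext q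
    exact abs_eq_of x _ _ q
  | add h1 h2 ih1 ih2 => exact Mon.add ih1 ih2
  | mul h1 h2 ih1 ih2 => exact Mon.mul ih1 ih2

/-! ### Inside and outside -/

lemma ins_iff {F : Set (ℤ × ℤ)} (hI : NI B) (hB : Nb6 B F) (i : V6 B ⊕ F6 B) :
    (n6 B).inD (in6 B F) i ↔ Ins F (Sum.elim (fun v : V6 B => v.1) (fun f : F6 B => f.1) i) := by
  rcases i with v | f
  · obtain ⟨v', hv'⟩ := exists_ev v
    have e1 : FP.cf v.1 = .inl v' := by rw [← hv', cf_fc]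
    simp only [Net.inD, Ins, Sum.elim_inl, e1]
    constructor
    · intro h f hf
      obtain ⟨f0, hf0⟩ := hI v
      obtain ⟨g, hgF, hg⟩ := h f0 hf0
      have hc : Cor v' g := by
        rw [← adj_fc, hv', hg]
        exact hf0
      have h6 : FP.fc (.inr f) ∈ B := (hB g hgF _ hc).2 f hf
      refine (mem_in6 (od6_fc h6)).1 (h ⟨_, od6_fc h6⟩ ?_)
      show Adj v.1 _
      rw [← hv']
      exact adj_fc.2 hf
    · intro h f hf
      obtain ⟨g, hg⟩ := exists_od f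
      have hf' : Adj v.1 f.1 := hf
      rw [← hv', ← hg, adj_fc] at hf'
      exact ⟨g, h g hf', hg⟩
  · obtain ⟨g, hg⟩ := exists_od f
    have e1 : FP.cf f.1 = .inr g := by rw [← hg, cf_fc]
    simp only [Net.inD, Ins, Sum.elim_inr, e1]
    constructor
    · rintro ⟨g', hg', he⟩
      rw [← hg] at he
      have := fc_inj he
      simp only [Sum.inr.injEq] at this
      rwa [← this]
    · intro h
      exact ⟨g, h, hg⟩

lemma hg6_congr {x y : Net.Cfg (V6 B) (F6 B) (E6 B) K} {s s' : V6 B ⊕ F6 B → Bool} (q : Pt)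
    (h : ∀ i : V6 B ⊕ F6 B, Sum.elim (fun v : V6 B => v.1) (fun f : F6 B => f.1) i = q →
      x.1 i = y.1 i ∧ s i = s' i) : hg6 x s q = hg6 y s' q := by
  by_cases hq : q ∈ B
  · rcases mem_cases hq with ⟨v, rfl⟩ | ⟨f, rfl⟩
    · obtain ⟨h1, h2⟩ := h (.inl v) rfl
      rw [hg6_inl, hg6_inl, h1, h2]
    · obtain ⟨h1, h2⟩ := h (.inr f) rfl
      rw [hg6_inr, hg6_inr, h1, h2]
  · rw [hg6, hg6, ex6_of_not _ hq, ex6_of_not _ hq]

lemma bk6_congr {x y : Net.Cfg (V6 B) (F6 B) (E6 B) K} {w : Pt}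
    (h : ∀ hw : w ∈ FC.VB B, x.2 ⟨w, hw⟩ = y.2 ⟨w, hw⟩ ∧
      x.1 (.inl ((n6 B).u ⟨w, hw⟩)) = y.1 (.inl ((n6 B).u ⟨w, hw⟩)) ∧
      x.1 (.inl ((n6 B).v ⟨w, hw⟩)) = y.1 (.inl ((n6 B).v ⟨w, hw⟩))) :
    w ∈ bk6 x ↔ w ∈ bk6 y := by
  constructor
  · rintro ⟨hw, hb⟩
    obtain ⟨h1, h2, h3⟩ := h hw
    refine ⟨hw, ?_⟩
    unfold Net.blocked at hb ⊢
    rw [← h1, ← h2, ← h3]
    exact hb
  · rintro ⟨hw, hb⟩
    obtain ⟨h1, h2, h3⟩ := h hw
    refine ⟨hw, ?_⟩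
    unfold Net.blocked at hb ⊢
    rw [h1, h2, h3]
    exact hb

/-- Outside functions on the box. -/
lemma OutM.agOut' {F : Set (ℤ × ℤ)} (hD : ∀ i : V6 B ⊕ F6 B, (n6 B).inD (in6 B F) i →
      Ins F (Sum.elim (fun v : V6 B => v.1) (fun f : F6 B => f.1) i)) {Θ : Hgt → Set Pt → ℝ}
    (hΘ : OutM F Θ) {x y : Net.Cfg (V6 B) (F6 B) (E6 B) K} (h : (n6 B).agOut (in6 B F) x y)
    (s s' : V6 B ⊕ F6 B → Bool) : Θ (hg6 x s) (bk6 x) = Θ (hg6 y s') (bk6 y) := by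
  refine hΘ _ _ _ _ (fun q hq => ?_) (fun w hw => ?_)
  · have h1 : hg6 x s q = hg6 y s q := by
      refine hg6_congr q fun i hi => ⟨h.1 i fun h' => hq ?_, rfl⟩
      rw [← hi]
      exact hD i h'
    rw [h1]
    exact abs_eq_of y s s' q
  · refine bk6_congr fun hwB => ?_
    have hE : ¬ (n6 B).inE (in6 B F) ⟨w, hwB⟩ := hw
    refine ⟨h.2 _ hE, h.1 _ fun h' => hE ?_, h.1 _ fun h' => hE ?_⟩
    · exact ⟨h' _ ((n6 B).huf ⟨w, hwB⟩), h' _ ((n6 B).hug ⟨w, hwB⟩)⟩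
    · exact ⟨h' _ ((n6 B).hvf ⟨w, hwB⟩), h' _ ((n6 B).hvg ⟨w, hwB⟩)⟩

lemma OutM.agOut {F : Set (ℤ × ℤ)} (hI : NI B) (hB : Nb6 B F) {Θ : Hgt → Set Pt → ℝ}
    (hΘ : OutM F Θ) {x y : Net.Cfg (V6 B) (F6 B) (E6 B) K} (h : (n6 B).agOut (in6 B F) x y)
    (s s' : V6 B ⊕ F6 B → Bool) : Θ (hg6 x s) (bk6 x) = Θ (hg6 y s') (bk6 y) :=
  hΘ.agOut' (fun i => (ins_iff hI hB i).1) h s s'

lemma in6_compl (O : Set (ℤ × ℤ)) : in6 B Oᶜ = (in6 B O)ᶜ := by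
  ext f
  obtain ⟨g, hg⟩ := exists_od f
  constructor
  · rintro ⟨g1, h1, e1⟩ ⟨g2, h2, e2⟩
    have := fc_inj (e1.trans e2.symm)
    simp only [Sum.inr.injEq] at this
    rw [this] at h1
    exact h1 h2
  · intro h
    exact ⟨g, fun hO => h ⟨g, hO, hg⟩, hg⟩

lemma ins_compl {O : Set (ℤ × ℤ)} (hB : Nb6 B O) (i : V6 B ⊕ F6 B)
    (h : (n6 B).inD (in6 B Oᶜ) i) :
    Ins Oᶜ (Sum.elim (fun v : V6 B => v.1) (fun f : F6 B => f.1) i) := by
  rcases i with v | f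
  · obtain ⟨v', hv'⟩ := exists_ev v
    have e1 : FP.cf v.1 = .inl v' := by rw [← hv', cf_fc]
    simp only [Ins, Sum.elim_inl, e1]
    intro f hf hO
    have h6 : FP.fc (.inr f) ∈ B := hB.mem hO
    refine (mem_in6 (od6_fc h6)).1 (h ⟨_, od6_fc h6⟩ ?_) hO
    show Adj v.1 _
    rw [← hv']
    exact adj_fc.2 hf
  · obtain ⟨g, hg⟩ := exists_od f
    have e1 : FP.cf f.1 = .inr g := by rw [← hg, cf_fc]
    simp only [Ins, Sum.elim_inr, e1]
    obtain ⟨g', hg', he⟩ := h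
    rw [← hg] at he
    have := fc_inj he
    simp only [Sum.inr.injEq] at this
    rwa [← this]

lemma inD_of_ins {F : Set (ℤ × ℤ)} (i : V6 B ⊕ F6 B)
    (h : Ins F (Sum.elim (fun v : V6 B => v.1) (fun f : F6 B => f.1) i)) :
    (n6 B).inD (in6 B F) i := by
  rcases i with v | f
  · obtain ⟨v', hv'⟩ := exists_ev v
    have e1 : FP.cf v.1 = .inl v' := by rw [← hv', cf_fc]
    simp only [Ins, Sum.elim_inl, e1] at h
    intro f hf
    obtain ⟨g, hg⟩ := exists_od f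
    have hf' : Adj v.1 f.1 := hf
    rw [← hv', ← hg, adj_fc] at hf'
    exact ⟨g, h g hf', hg⟩
  · obtain ⟨g, hg⟩ := exists_od f
    have e1 : FP.cf f.1 = .inr g := by rw [← hg, cf_fc]
    simp only [Ins, Sum.elim_inr, e1] at h
    exact ⟨g, h, hg⟩

/-- Inside functions on the box. -/
lemma InM.agIn {F : Set (ℤ × ℤ)} {A : Hgt → Set Pt → ℝ} (hA : InM F A)
    {x y : Net.Cfg (V6 B) (F6 B) (E6 B) K} (h : (n6 B).agIn (in6 B F) x y)
    {s s' : V6 B ⊕ F6 B → Bool} (hs : ∀ i, (n6 B).inD (in6 B F) i → s i = s' i) :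
    A (hg6 x s) (bk6 x) = A (hg6 y s') (bk6 y) := by
  refine hA _ _ _ _ (fun q hq => ?_) (fun w hw hw1 hw2 => ?_)
  · refine hg6_congr q fun i hi => ?_
    have hD : (n6 B).inD (in6 B F) i := inD_of_ins i (by rw [hi]; exact hq)
    exact ⟨h.1 i hD, hs i hD⟩
  · refine bk6_congr fun hwB => ?_
    refine ⟨h.2 ⟨w, hwB⟩ hw, h.1 _ (inD_of_ins _ ?_), h.1 _ (inD_of_ins _ ?_)⟩
    · exact hw1
    · exact hw2

/-- Decreasing functions on the box. -/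
lemma DecM.anti {X : Hgt → Set Pt → ℝ} (hX : DecM X) {x y : Net.Cfg (V6 B) (F6 B) (E6 B) K}
    (h : x ≤ y) (s s' : V6 B ⊕ F6 B → Bool) : X (hg6 y s') (bk6 y) ≤ X (hg6 x s) (bk6 x) :=
  hX _ _ _ _ (fun q => abs_le_of h s s' q) (bk6_anti h)

/-! ### The inequalities on the box -/

/-- Sums over the configurations of the box with free heights. -/
noncomputable def J6 (B : Finset (ℤ × ℤ)) (K : ℕ) (t : ℝ) (G : Hgt → Set Pt → ℝ) : ℝ :=
  (n6 B).J (K := K) t Net.κ6 (Net.β6 t) (fun x s => G (hg6 x s) (bk6 x))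

/-- The zero boundary condition. -/
noncomputable def Jz (B : Finset (ℤ × ℤ)) (K : ℕ) (t : ℝ) (F : Set (ℤ × ℤ))
    (G : Hgt → Set Pt → ℝ) : ℝ :=
  (n6 B).J (K := K) t Net.κ6 (Net.β6 t)
    (fun x s => (n6 B).zbi (in6 B F) x * G (hg6 x s) (bk6 x))

lemma Jz_one_pos {t : ℝ} (ht : 0 < t) (ht1 : t ≤ 1) (F : Set (ℤ × ℤ)) :
    0 < Jz B K t F (fun _ _ => 1) := by
  have := (n6 B).J_zbi_pos (K := K) ht.le Net.κ6_nonneg (Net.β6_nonneg ht.le ht1)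
    (fun i => Net.κ6_pos i 0) (fun e => Net.β6_pos ht e) (in6 B F)
  unfold Jz
  simpa only [mul_one] using this

/-- LOW on the box. -/
theorem low6 {t : ℝ} (ht : 0 < t) (ht1 : t ≤ 1) {F : Set (ℤ × ℤ)} (hI : NI B) (hB : Nb6 B F)
    {A Θ : Hgt → Set Pt → ℝ} (hA : PosM A) (hΘ0 : ∀ h b, 0 ≤ Θ h b) (hΘ : OutM F Θ) :
    Jz B K t F A * J6 B K t Θ ≤
      Jz B K t F (fun _ _ => 1) * J6 B K t (fun h b => Θ h b * A h b) := by
  have key := (n6 B).zero_le_out (K := K) ht.le ht1 (κ := Net.κ6) Net.κ6_nonneg (β := Net.β6 t)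
    (Net.β6_nonneg ht.le ht1) (in6 B F) (X := fun _ => 1)
    (Θ := fun x => Θ (hg6 x (fun _ => false)) (bk6 x)) (C := fun _ => 1)
    (fun _ => zero_le_one) (fun _ _ _ => le_rfl) (fun _ => hΘ0 _ _)
    (fun x y h => hΘ.agOut hI hB h _ _) (fun _ => zero_le_one) (fun _ _ _ => le_rfl) hA.mon
  simp only [one_mul, mul_one] at key
  have e1 : ∀ (x : Net.Cfg (V6 B) (F6 B) (E6 B) K) (s : V6 B ⊕ F6 B → Bool),
      Θ (hg6 x (fun _ => false)) (bk6 x) = Θ (hg6 x s) (bk6 x) := fun x s =>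
    hΘ.agOut hI hB ((n6 B).agOut_refl _ x) _ _
  unfold Jz J6
  simp only [mul_one]
  have e2 : (fun (x : Net.Cfg (V6 B) (F6 B) (E6 B) K) (s : V6 B ⊕ F6 B → Bool) =>
      Θ (hg6 x (fun _ => false)) (bk6 x) * A (hg6 x s) (bk6 x)) =
      fun x s => Θ (hg6 x s) (bk6 x) * A (hg6 x s) (bk6 x) := by
    funext x s
    rw [e1 x s]
  have e3 : (fun (x : Net.Cfg (V6 B) (F6 B) (E6 B) K) (_ : V6 B ⊕ F6 B → Bool) =>
      Θ (hg6 x (fun _ => false)) (bk6 x)) = fun x s => Θ (hg6 x s) (bk6 x) := by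
    funext x s
    rw [e1 x s]
  rw [e2, e3] at key
  exact key

/-- EXT on the box: `O` and `I` are sets of faces of the square lattice. -/
theorem ext6 {t : ℝ} (ht : 0 < t) (ht1 : t ≤ 1) {O I : Set (ℤ × ℤ)} (hN : (n6 B).Loc)
    {A X Θ : Hgt → Set Pt → ℝ} (hA : PosM A) (hAI : InM I A)
    (hX0 : ∀ h b, 0 ≤ X h b) (hX : DecM X)
    (hXd : ∀ x s, X (hg6 x s) (bk6 x) ≠ 0 → Disjoint ((n6 B).expl (K := K) (in6 B O) x) (in6 B I))
    (hΘ0 : ∀ h b, 0 ≤ Θ h b)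
    (hΘ : ∀ x y s s', (n6 B).agOut (K := K) (in6 B O)ᶜ x y →
      Θ (hg6 x s) (bk6 x) = Θ (hg6 y s') (bk6 y)) :
    J6 B K t (fun h b => X h b * A h b) * J6 B K t Θ ≤
      J6 B K t X * J6 B K t (fun h b => Θ h b * A h b) := by
  have hXs : ∀ (x : Net.Cfg (V6 B) (F6 B) (E6 B) K) (s s' : V6 B ⊕ F6 B → Bool),
      X (hg6 x s) (bk6 x) = X (hg6 x s') (bk6 x) := fun x s s' =>
    le_antisymm (hX.anti le_rfl s' s) (hX.anti le_rfl s s')
  have key := (n6 B).ext_le hN ht.le ht1 (κ := Net.κ6) Net.κ6_nonneg (β := Net.β6 t)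
    (Net.β6_nonneg ht.le ht1) (fun i => Net.κ6_pos i 0) (fun e => Net.β6_pos ht e)
    (O := in6 B O) (I := in6 B I)
    (X := fun x => X (hg6 x (fun _ => false)) (bk6 x))
    (Θ := fun x => Θ (hg6 x (fun _ => false)) (bk6 x))
    (fun _ => hX0 _ _) (fun x y h => hX.anti h _ _) (fun x h => hXd x _ h) (fun _ => hΘ0 _ _)
    (fun x y h => hΘ x y _ _ h) hA.mon (fun x x' s s' h hs => hAI.agIn h hs)
  have e1 : ∀ (x : Net.Cfg (V6 B) (F6 B) (E6 B) K) (s : V6 B ⊕ F6 B → Bool),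
      Θ (hg6 x (fun _ => false)) (bk6 x) = Θ (hg6 x s) (bk6 x) := fun x s =>
    hΘ x x _ _ ((n6 B).agOut_refl _ x)
  have e1' : ∀ (x : Net.Cfg (V6 B) (F6 B) (E6 B) K) (s : V6 B ⊕ F6 B → Bool),
      X (hg6 x (fun _ => false)) (bk6 x) = X (hg6 x s) (bk6 x) := fun x s => hXs x _ _
  have e2 : (fun (x : Net.Cfg (V6 B) (F6 B) (E6 B) K) (s : V6 B ⊕ F6 B → Bool) =>
      Θ (hg6 x (fun _ => false)) (bk6 x) * A (hg6 x s) (bk6 x)) =
      fun x s => Θ (hg6 x s) (bk6 x) * A (hg6 x s) (bk6 x) := by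
    funext x s
    rw [e1 x s]
  have e3 : (fun (x : Net.Cfg (V6 B) (F6 B) (E6 B) K) (_ : V6 B ⊕ F6 B → Bool) =>
      Θ (hg6 x (fun _ => false)) (bk6 x)) = fun x s => Θ (hg6 x s) (bk6 x) := by
    funext x s
    rw [e1 x s]
  have e2' : (fun (x : Net.Cfg (V6 B) (F6 B) (E6 B) K) (s : V6 B ⊕ F6 B → Bool) =>
      X (hg6 x (fun _ => false)) (bk6 x) * A (hg6 x s) (bk6 x)) =
      fun x s => X (hg6 x s) (bk6 x) * A (hg6 x s) (bk6 x) := by
    funext x s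
    rw [e1' x s]
  have e3' : (fun (x : Net.Cfg (V6 B) (F6 B) (E6 B) K) (_ : V6 B ⊕ F6 B → Bool) =>
      X (hg6 x (fun _ => false)) (bk6 x)) = fun x s => X (hg6 x s) (bk6 x) := by
    funext x s
    rw [e1' x s]
  rw [e2, e3, e2', e3'] at key
  exact key

/-- One step between faces of the square lattice which does not cross a blocked vertex. -/
def st6 (b : Set Pt) (f g : ℤ × ℤ) : Prop :=
  ∃ w, w ∉ b ∧ ((FB.o1 w = FP.fc (.inr f) ∧ FB.o2 w = FP.fc (.inr g)) ∨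
    (FB.o1 w = FP.fc (.inr g) ∧ FB.o2 w = FP.fc (.inr f)))

/-- The faces joined to `S` are in `T`. -/
def Cf6 (b : Set Pt) (S T : Set (ℤ × ℤ)) : Prop :=
  ∀ f ∈ S, ∀ g, Relation.ReflTransGen (st6 b) f g → g ∈ T

lemma expl_path {O : Set (ℤ × ℤ)} {x : Net.Cfg (V6 B) (F6 B) (E6 B) K} {f : F6 B}
    (h : f ∈ (n6 B).expl (in6 B O) x) : ∃ f0 ∈ O, ∃ g, FP.fc (.inr g) = f.1 ∧
      Relation.ReflTransGen (st6 (bk6 x)) f0 g := by
  obtain ⟨f0, ⟨g0, hg0, hgf⟩, hp⟩ := h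
  refine ⟨g0, hg0, ?_⟩
  induction hp with
  | refl => exact ⟨g0, hgf, Relation.ReflTransGen.refl⟩
  | @tail u v _ huv ih =>
    obtain ⟨g, hg, hgp⟩ := ih
    obtain ⟨e, he, hor⟩ := huv
    obtain ⟨g', hg'⟩ := exists_od v
    refine ⟨g', hg', hgp.tail ⟨e.1, ?_, ?_⟩⟩
    · rintro ⟨h1, h2⟩
      exact he h2
    · rcases hor with ⟨h1, h2⟩ | ⟨h1, h2⟩
      · left
        rw [hg, hg', ← h1, ← h2]
        exact ⟨rfl, rfl⟩
      · right
        rw [hg, hg', ← h1, ← h2]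
        exact ⟨rfl, rfl⟩

lemma Cf6.disj {O I : Set (ℤ × ℤ)} {x : Net.Cfg (V6 B) (F6 B) (E6 B) K}
    (h : Cf6 (bk6 x) O Iᶜ) : Disjoint ((n6 B).expl (in6 B O) x) (in6 B I) := by
  rw [Set.disjoint_left]
  rintro f h1 ⟨g', hg', he⟩
  obtain ⟨f0, hf0, g, hg, hp⟩ := expl_path h1
  rw [← hg] at he
  have := fc_inj he
  simp only [Sum.inr.injEq] at this
  exact h f0 hf0 g hp (this ▸ hg')

/-- EXT on the box, plane form. -/
theorem ext6' {t : ℝ} (ht : 0 < t) (ht1 : t ≤ 1) {O I : Set (ℤ × ℤ)} (hN : (n6 B).Loc)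
    (hB : Nb6 B O) {A X Θ : Hgt → Set Pt → ℝ} (hA : PosM A) (hAI : InM I A)
    (hX0 : ∀ h b, 0 ≤ X h b) (hX : DecM X) (hXd : ∀ h b, X h b ≠ 0 → Cf6 b O Iᶜ)
    (hΘ0 : ∀ h b, 0 ≤ Θ h b) (hΘ : OutM Oᶜ Θ) :
    J6 B K t (fun h b => X h b * A h b) * J6 B K t Θ ≤
      J6 B K t X * J6 B K t (fun h b => Θ h b * A h b) := by
  refine ext6 ht ht1 hN hA hAI hX0 hX (fun x s h => (hXd _ _ h).disj) hΘ0 ?_
  intro x y s s' h
  rw [← in6_compl] at h
  exact hΘ.agOut' (fun i hi => ins_compl hB i hi) h s s'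

end box

end Vale.Agent.P145.FK
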