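import Vale.Agent.P145.FK.N6
import Vale.Agent.P145.FC.ZB

/-!
P145, block K1: the sum over the heights on the square of faces with free boundary conditions and
bounded value at the origin is a sum over the ice configurations of the box with free arrows.
-/

namespace Vale.Agent.P145.FK

open Finset Vale.Agent.P145.FP Vale.Agent.P145.Dom
open Vale.Agent.P145.FA (Hgt ofW)
open Vale.Agent.P145.FC (Hon ext0 res0 ext0_res0 ext0_of_mem HL WB SqF)
open Vale.Agent.P152 (pth wc)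
open Vale.Agent.P152.GFF.B3 (BE boxNet)
open scoped Classical

lemma vw6_eq_fw (c : ℝ) (η : Hgt) (w : ℤ × ℤ) : vw6 c η w = FC.fw c η w := by
  unfold vw6 FC.fw FB.e1 FB.e2 FB.o1 FB.o2
  by_cases h : Even (w.1 + w.2)
  · simp only [if_pos h]
  · simp only [if_neg h]
    exact if_congr and_comm rfl rfl

lemma adj_cases {v f : ℤ × ℤ} (h : Adj v f) : f = (v.1, v.2 - 1) ∨ f = (v.1, v.2 + 1) ∨
    f = (v.1 - 1, v.2) ∨ f = (v.1 + 1, v.2) := by
  rcases h with ⟨h1, h2 | h2⟩ | ⟨h1, h2 | h2⟩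
  · left; ext <;> simp only <;> omega
  · right; left; ext <;> simp only <;> omega
  · right; right; left; ext <;> simp only <;> omega
  · right; right; right; ext <;> simp only <;> omega

/-- Neighbouring faces of a height function. -/
lemma hon_adj {B : Finset (ℤ × ℤ)} {η : Hgt} (h : Hon B η) {v f : ℤ × ℤ} (hv : v ∈ B) (hf : f ∈ B)
    (hvf : Adj v f) : |η v - η f| = 1 := by
  obtain ⟨a, b⟩ := v
  rcases adj_cases hvf with rfl | rfl | rfl | rfl
  · exact h.2.1 a b hv hf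
  · have := h.2.1 a (b + 1) hf (by simpa using hv)
    simp only [add_sub_cancel_right] at this
    rw [abs_sub_comm]
    exact this
  · have := h.2.2 a b hv hf
    rw [abs_sub_comm]
    exact this
  · have := h.2.2 (a + 1) b hf (by simpa using hv)
    simp only [add_sub_cancel_right] at this
    exact this

/-- Heights on the net are height functions. -/
lemma hon_of_HS {n : ℕ} (hn : 1 ≤ n) {y : V6 (Sq n) ⊕ F6 (Sq n) → ℤ}
    (hy : (n6 (Sq n)).HS Set.univ y) : Hon (SqF n) (ex6 y) := by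
  obtain ⟨-, -, h3, h4⟩ := hy
  have key : ∀ v f : ℤ × ℤ, v ∈ Sq n → f ∈ Sq n → Even (v.1 + v.2) → Adj v f →
      |ex6 y v - ex6 y f| = 1 := by
    intro v f hv hf he ha
    have hv' : v ∈ ev6 (Sq n) := mem_ev6.2 ⟨hv, he⟩
    have hf' : f ∈ od6 (Sq n) := mem_od6.2 ⟨hf, by
      rw [Int.not_even_iff_odd]
      obtain ⟨k, hk⟩ := he
      rcases ha with ⟨h1, h2 | h2⟩ | ⟨h1, h2 | h2⟩
      · exact ⟨k - 1, by omega⟩
      · exact ⟨k, by omega⟩
      · exact ⟨k - 1, by omega⟩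
      · exact ⟨k, by omega⟩⟩
    have := h4 ⟨v, hv'⟩ ⟨f, hf'⟩ ha trivial
    rwa [← ex6_inl y, ← ex6_inr y] at this
  have hadj : ∀ v f : ℤ × ℤ, v ∈ Sq n → f ∈ Sq n → Adj v f → |ex6 y v - ex6 y f| = 1 := by
    intro v f hv hf ha
    by_cases he : Even (v.1 + v.2)
    · exact key v f hv hf he ha
    · rw [abs_sub_comm]
      refine key f v hf hv ?_ ?_
      · rw [Int.not_even_iff_odd] at he
        obtain ⟨k, hk⟩ := he
        rcases ha with ⟨h1, h2 | h2⟩ | ⟨h1, h2 | h2⟩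
        · exact ⟨k, by omega⟩
        · exact ⟨k + 1, by omega⟩
        · exact ⟨k, by omega⟩
        · exact ⟨k + 1, by omega⟩
      · unfold Adj at ha ⊢
        omega
  refine ⟨fun q hq => ?_, fun a b h1 h2 => ?_, fun a b h1 h2 => ?_⟩
  · by_cases he : Even (q.1 + q.2)
    · have h5 := h3 ⟨q, mem_ev6.2 ⟨hq, he⟩⟩
      rw [← ex6_inl y] at h5
      exact (h5.sub he).two_dvd
    · -- a neighbour
      have hq' := (FC.mem_SqF (N := n)).1 hq
      obtain ⟨v, hv, hvq⟩ : ∃ v : ℤ × ℤ, v ∈ Sq n ∧ Adj v q := by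
        by_cases h6 : q.1 < n
        · exact ⟨(q.1 + 1, q.2), (FC.mem_SqF (N := n)).2 (by simp only; omega),
            Or.inr ⟨rfl, Or.inl rfl⟩⟩
        · refine ⟨(q.1 - 1, q.2), (FC.mem_SqF (N := n)).2 (by simp only; omega),
            Or.inr ⟨rfl, Or.inr ?_⟩⟩
          simp
      have hev : Even (v.1 + v.2) := by
        rw [Int.not_even_iff_odd] at he
        obtain ⟨k, hk⟩ := he
        rcases hvq with ⟨h1, h2 | h2⟩ | ⟨h1, h2 | h2⟩
        · exact ⟨k + 1, by omega⟩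
        · exact ⟨k, by omega⟩
        · exact ⟨k + 1, by omega⟩
        · exact ⟨k, by omega⟩
      have h7 := key v q hv hq hev hvq
      have h5 := h3 ⟨v, mem_ev6.2 ⟨hv, hev⟩⟩
      rw [← ex6_inl y] at h5
      have h5' : Even (ex6 y v) := h5
      rw [Int.not_even_iff_odd] at he
      obtain ⟨k, hk⟩ := he
      obtain ⟨l, hl⟩ := h5'
      rcases (abs_eq (by norm_num)).1 h7 with h8 | h8 <;> omega
  · exact hadj _ _ h1 h2 (Or.inl ⟨rfl, Or.inl (by simp)⟩)
  · exact hadj _ _ h2 h1 (Or.inr ⟨rfl, Or.inr (by simp)⟩)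

/-- The free height sum on the square. -/
theorem za {c : ℝ} (hc : 0 < c) {n : ℕ} (hn : 1 ≤ n) {K L : ℕ} (hK : L + 2 * n + 2 ≤ K)
    (g : Hgt → ℝ) (hg : ∀ h h' : Hgt, (∀ q ∈ Sq n, h q = h' q) → g h = g h') :
    ∑ y ∈ Net.TTs (V := V6 (Sq n)) K (Set.univ : Set (F6 (Sq n))),
      (if (n6 (Sq n)).HS Set.univ y ∧ |ex6 y 0| ≤ 2 * (L : ℤ) then
        (n6 (Sq n)).hw c Set.univ y * g (ex6 y) else 0) =
    ∑ j ∈ Finset.Icc (-(L : ℤ)) L, ∑ k : BE (2 * n) (2 * n) → ZMod 2,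
      g (fun q => pth (ofW (2 * n) (2 * n) (1 - (n : ℤ)) (1 - (n : ℤ)) k) q + 2 * j) *
        (boxNet (2 * n) (2 * n)).W6 (wc c) k := by
  rw [← FC.HL_sum L rfl hc (fun h h' hh => hg h h' hh), ← Finset.sum_filter,
    ← finsum_mem_coe_finset]
  have hex : ∀ (y : V6 (Sq n) ⊕ F6 (Sq n) → ℤ), ∀ q ∈ Sq n,
      ext0 (res0 (SqF n) (ex6 y)) q = ex6 y q := fun y q hq => ext0_res0 _ hq
  have h0 : (0 : ℤ × ℤ) ∈ Sq n := (FC.con_SqF n).1
  refine finsum_mem_eq_of_bijOn (fun y => res0 (SqF n) (ex6 y)) ⟨?_, ?_, ?_⟩ ?_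
  · intro y hy
    rw [Finset.mem_coe, Finset.mem_filter] at hy
    obtain ⟨-, hHS, hL⟩ := hy
    refine ⟨(hon_of_HS hn hHS).congr fun q hq => (hex y q hq).symm, ?_⟩
    rw [hex y 0 h0]
    exact hL
  · intro y _ y' _ h
    apply ex6_inj
    funext q
    by_cases hq : q ∈ Sq n
    · rw [← hex y q hq, ← hex y' q hq]
      exact congrFun (congrArg (fun z : SqF n → ℤ => ext0 z) h) q
    · rw [ex6_of_not y hq, ex6_of_not y' hq]
  · rintro x ⟨hx, hx0⟩
    set y : V6 (Sq n) ⊕ F6 (Sq n) → ℤ := Sum.elim (fun v => ext0 x v.1) (fun f => ext0 x f.1)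
      with hy
    have hyx : ∀ q ∈ Sq n, ex6 y q = ext0 x q := by
      intro q hq
      by_cases he : Even (q.1 + q.2)
      · exact ex6_inl y ⟨q, mem_ev6.2 ⟨hq, he⟩⟩
      · exact ex6_inr y ⟨q, mem_od6.2 ⟨hq, he⟩⟩
    have hb : ∀ q ∈ Sq n, |ext0 x q| ≤ 2 * (K : ℤ) := by
      intro q hq
      have h1 := FC.Hon_bound hx hq
      have h2 : (L : ℤ) + 2 * n + 2 ≤ K := by exact_mod_cast hK
      linarith
    refine ⟨y, ?_, ?_⟩
    · rw [Finset.mem_coe, Finset.mem_filter]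
      refine ⟨?_, ⟨fun v hv => absurd (fun f _ => trivial) hv, fun f hf => absurd trivial hf,
        fun v => ?_, fun v f hvf _ => ?_⟩, ?_⟩
      · rw [Net.mem_TTs]
        rintro (v | f)
        · refine Net.mem_TT_inl ?_ (hb v.1 (mem_ev6.1 v.2).1)
          have h1 := hx.1 v.1 (mem_ev6.1 v.2).1
          have h2 := (mem_ev6.1 v.2).2
          have h3 := (even_iff_two_dvd.2 h1).add h2
          rwa [sub_add_cancel] at h3
        · refine Net.mem_TT_inr trivial ?_ ((hb f.1 (mem_od6.1 f.2).1).trans (by omega))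
          have h1 := hx.1 f.1 (mem_od6.1 f.2).1
          have h2 := (mem_od6.1 f.2).2
          rw [Int.not_even_iff_odd] at h2
          have h3 := (even_iff_two_dvd.2 h1).add_odd h2
          rwa [sub_add_cancel] at h3
      · have h1 := hx.1 v.1 (mem_ev6.1 v.2).1
        have h2 := (mem_ev6.1 v.2).2
        have h3 := (even_iff_two_dvd.2 h1).add h2
        rwa [sub_add_cancel] at h3
      · exact hon_adj hx (mem_ev6.1 v.2).1 (mem_od6.1 f.2).1 hvf
      · rw [hyx 0 h0]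
        exact hx0
    · funext q
      show ex6 y q.1 = x q
      rw [hyx q.1 q.2, ext0_of_mem x q.2]
  · intro y hy
    rw [Finset.mem_coe, Finset.mem_filter] at hy
    obtain ⟨-, hHS, hL⟩ := hy
    congr 1
    · rw [hw6_eq']
      have e1 : ∀ w : E6 (Sq n), (if (n6 (Sq n)).inE Set.univ w then vw6 c (ex6 y) w.1 else 1) =
          (fun w : ℤ × ℤ => FC.fw c (ex6 y) w) w.1 := by
        intro w
        rw [if_pos (show (n6 (Sq n)).inE Set.univ w from ⟨trivial, trivial⟩), vw6_eq_fw]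
      rw [Finset.prod_congr rfl fun w _ => e1 w, Finset.prod_coe_sort (FC.VB (Sq n))
        (fun w : ℤ × ℤ => FC.fw c (ex6 y) w)]
      unfold WB
      refine Finset.prod_congr rfl fun w hw => ?_
      simp only [FC.VB, Finset.mem_filter] at hw
      obtain ⟨h1, h2, h3, h4⟩ := hw
      unfold FC.fw
      simp only [hex y _ h1, hex y _ h2, hex y _ h3, hex y _ h4]
    · exact hg _ _ fun q hq => (hex y q hq).symm

end Vale.Agent.P145.FK
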