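import Vale.Agent.P145.FK.LowA
import Vale.Agent.P145.FK.LimH
import Vale.Agent.P145.FC.UpMU
import Vale.Agent.P145.FK.ZA

/-!
P145, block K1: the passage from the boxes with free heights to the plane, for local observables of
the absolute heights and of the set of blocked vertices.
-/

namespace Vale.Agent.P145.FK

open Finset Filter Topology MeasureTheory Vale.Agent.P145.FP Vale.Agent.P145.Dom
open Vale.Agent.P145.FA (Hgt mu0 Pl BoxLim ofW)
open Vale.Agent.P145.FB (Pt Mk mkm om MU)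
open Vale.Agent.P152 (Ori pth wc)
open Vale.Agent.P152.GFF.B3 (IsP boxNet BE)

open scoped Classical

/-- Average over the marks of a plane observable. -/
noncomputable def av6 (t : ℝ) (G : Hgt → Set Pt → ℝ) (h : Hgt) : ℝ :=
  ∫ ξ, G h (bl (h, om h ξ)) ∂(mkm t)

/-- The observable depends only on the heights and the blocked vertices of the square. -/
def Loc6 (m : ℕ) (G : Hgt → Set Pt → ℝ) : Prop :=
  ∀ h h' b b', (∀ q ∈ Sq m, h q = h' q) → (∀ w ∈ FC.VB (Sq m), (w ∈ b ↔ w ∈ b')) → G h b = G h' b'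

lemma Sq_mono {m n : ℕ} (h : m ≤ n) : Sq m ⊆ Sq n := by
  intro q hq
  rw [mem_Sq] at hq ⊢
  have : (m : ℤ) ≤ n := by exact_mod_cast h
  exact ⟨hq.1.trans this, hq.2.trans this⟩

lemma VB_mono {B B' : Finset (ℤ × ℤ)} (h : B ⊆ B') : FC.VB B ⊆ FC.VB B' := by
  intro w hw
  rw [mem_VB] at hw ⊢
  exact ⟨h hw.1, h hw.2.1, h hw.2.2.1, h hw.2.2.2⟩

lemma Loc6.mono {m n : ℕ} (h : m ≤ n) {G : Hgt → Set Pt → ℝ} (hG : Loc6 m G) : Loc6 n G :=
  fun _ _ _ _ h1 h2 => hG _ _ _ _ (fun q hq => h1 q (Sq_mono h hq))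
    (fun w hw => h2 w (VB_mono (Sq_mono h) hw))

lemma Loc6.mul {m : ℕ} {G G' : Hgt → Set Pt → ℝ} (hG : Loc6 m G) (hG' : Loc6 m G') :
    Loc6 m (fun h b => G h b * G' h b) :=
  fun h h' b b' h1 h2 => by
    show G h b * G' h b = G h' b' * G' h' b'
    rw [hG _ _ _ _ h1 h2, hG' _ _ _ _ h1 h2]

lemma om_congr {h h' : Hgt} {w : Pt} (h1 : h (FB.e1 w) = h' (FB.e1 w))
    (h2 : h (FB.e2 w) = h' (FB.e2 w)) (h3 : h (FB.o1 w) = h' (FB.o1 w))
    (h4 : h (FB.o2 w) = h' (FB.o2 w)) (ξ : Mk) : om h ξ w = om h' ξ w := by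
  unfold om
  rw [h1, h2, h3, h4]

lemma av6_congr {m : ℕ} {G : Hgt → Set Pt → ℝ} (hG : Loc6 m G) (t : ℝ) {h h' : Hgt}
    (hh : ∀ q ∈ Sq m, h q = h' q) : av6 t G h = av6 t G h' := by
  unfold av6
  congr 1
  funext ξ
  refine hG _ _ _ _ hh fun w hw => ?_
  obtain ⟨h1, h2, h3, h4⟩ := mem_VB.1 hw
  have e := om_congr (hh _ h1) (hh _ h2) (hh _ h3) (hh _ h4) ξ
  unfold bl
  simp only [Set.mem_ofPred_eq]
  rw [hh _ h1, hh _ h2, e]

/-- Summation over magnitudes and signs, in terms of the heights. -/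
theorem J6_eq {B : Finset (ℤ × ℤ)} {K m : ℕ} (hm : Sq m ⊆ B) {t : ℝ} (ht : 0 < t) (ht1 : t ≤ 1)
    {G : Hgt → Set Pt → ℝ} (hG : Loc6 m G) :
    J6 B K t G = t ^ Fintype.card (E6 B) * ∑ y ∈ Net.TTs (V := V6 B) K (Set.univ : Set (F6 B)),
      (if (n6 B).HS Set.univ y then (n6 B).hw t⁻¹ Set.univ y else 0) * av6 t G (ex6 y) := by
  set G' : FC.Cf (V6 B) (F6 B) (E6 B) → ℝ := fun c =>
    G (ex6 (Sum.elim c.h c.k)) {p | ∃ h : p ∈ FC.VB B, c.w ⟨p, h⟩ = false} with hG'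
  have key := (n6 B).bridge_sum (K := K) ht Set.univ G'
  have e1 : (fun (x : Net.Cfg (V6 B) (F6 B) (E6 B) K) (s : V6 B ⊕ F6 B → Bool) =>
      (n6 B).zbi Set.univ x * G' ((n6 B).img Set.univ x s)) =
      fun x s => G (hg6 x s) (bk6 x) := by
    funext x s
    have h1 : (n6 B).zbi Set.univ x = 1 := by
      refine if_pos ⟨fun i hi => absurd ?_ hi, fun e he => absurd ?_ he⟩
      · rcases i with v | f
        · exact fun f _ => Set.mem_univ f
        · exact Set.mem_univ f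
      · exact ⟨Set.mem_univ _, Set.mem_univ _⟩
    have h2 : ex6 (Sum.elim ((n6 B).img Set.univ x s).h ((n6 B).img Set.univ x s).k) = hg6 x s := by
      unfold hg6
      congr 1
      funext i
      rcases i with v | f <;> rfl
    have h3 : {p | ∃ h : p ∈ FC.VB B, ((n6 B).img Set.univ x s).w ⟨p, h⟩ = false} = bk6 x := by
      ext p
      unfold bk6
      simp only [Set.mem_ofPred_eq]
      refine exists_congr fun hp => ?_
      simp only [Net.img, decide_eq_false_iff_not, not_and, not_not]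
      constructor
      · intro h
        exact h ⟨Set.mem_univ _, Set.mem_univ _⟩
      · intro h _
        exact h
    rw [h1, one_mul, hG']
    simp only
    rw [h2, h3]
  rw [e1] at key
  have e2 : ∀ inst : DecidablePred (fun f : F6 B => f ∉ (Set.univ : Set (F6 B))),
      (@Finset.filter _ (fun f : F6 B => f ∉ (Set.univ : Set (F6 B))) inst Finset.univ).card = 0 := by
    intro inst
    rw [Finset.card_eq_zero, Finset.filter_eq_empty_iff]
    intro f _ h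
    exact h (Set.mem_univ f)
  rw [e2, pow_zero, mul_one] at key
  unfold J6
  rw [key]
  congr 1
  refine Finset.sum_congr rfl fun y _ => ?_
  by_cases h : (n6 B).HS Set.univ y
  · rw [if_pos h]
    have e0 := Net.sum_phi (n6 B) ht.ne' h (fun w => G' (Net.toCf y w))
    refine Eq.trans (Finset.sum_congr (Finset.ext fun _ => by simp) fun _ _ => rfl)
      (e0.trans ?_)
    congr 1
    rw [← int_mkm (ι := fun e : E6 B => e.1) Subtype.val_injective ht.le ht1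
      (fun η => G' (Net.toCf y ((n6 B).wof y η)))]
    unfold av6
    congr 1
    funext ξ
    have e3 : ex6 (Sum.elim (Net.toCf y ((n6 B).wof y (fun e : E6 B => ξ e.1))).h
        (Net.toCf y ((n6 B).wof y (fun e : E6 B => ξ e.1))).k) = ex6 y := by
      congr 1
      funext i
      rcases i with v | f <;> rfl
    rw [hG']
    simp only
    rw [e3]
    refine hG _ _ _ _ (fun _ _ => rfl) fun w hw => ?_
    have hwB : w ∈ FC.VB B := VB_mono hm hw
    have t1 : ex6 y (FB.e1 w) = y (.inl ((n6 B).u ⟨w, hwB⟩)) := ex6_inl y ((n6 B).u ⟨w, hwB⟩)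
    have t2 : ex6 y (FB.e2 w) = y (.inl ((n6 B).v ⟨w, hwB⟩)) := ex6_inl y ((n6 B).v ⟨w, hwB⟩)
    have t3 : ex6 y (FB.o1 w) = y (.inr ((n6 B).f ⟨w, hwB⟩)) := ex6_inr y ((n6 B).f ⟨w, hwB⟩)
    have t4 : ex6 y (FB.o2 w) = y (.inr ((n6 B).g ⟨w, hwB⟩)) := ex6_inr y ((n6 B).g ⟨w, hwB⟩)
    unfold bl om
    simp only [Set.mem_ofPred_eq]
    rw [t1, t2, t3, t4]
    have e4 : (∃ h : w ∈ FC.VB B, (Net.toCf y ((n6 B).wof y (fun e : E6 B => ξ e.1))).w ⟨w, h⟩ =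
        false) ↔ (n6 B).wof y (fun e : E6 B => ξ e.1) ⟨w, hwB⟩ = false :=
      ⟨fun ⟨_, h⟩ => h, fun h => ⟨hwB, h⟩⟩
    rw [e4]
    unfold Net.wof
    by_cases h1 : y (.inl ((n6 B).u ⟨w, hwB⟩)) = 0 <;>
      by_cases h2 : y (.inl ((n6 B).v ⟨w, hwB⟩)) = 0 <;>
      by_cases h3 : y (.inr ((n6 B).f ⟨w, hwB⟩)) = y (.inr ((n6 B).g ⟨w, hwB⟩)) <;>
      simp [h1, h2, h3]
  · rw [if_neg h, zero_mul]
    refine Finset.sum_eq_zero fun w _ => ?_
    unfold Net.Φ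
    rw [if_neg, zero_mul]
    intro hC
    exact h ⟨hC.1, hC.2.1, hC.2.2.1, hC.2.2.2.1⟩

lemma Hon_mono {B B' : Finset (ℤ × ℤ)} (h : B ⊆ B') {η : Hgt} (hη : FC.Hon B' η) : FC.Hon B η :=
  ⟨fun q hq => hη.1 q (h hq), fun x y h1 h2 => hη.2.1 x y (h h1) (h h2),
    fun x y h1 h2 => hη.2.2 x y (h h1) (h h2)⟩

/-- The normalisation. -/
noncomputable def Dn (c : ℝ) (n : ℕ) : ℝ :=
  c⁻¹ ^ Fintype.card (E6 (Sq n)) * (boxNet (2 * n) (2 * n)).ar (wc c) (fun _ => 1)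

lemma Dn_pos {c : ℝ} (hc : 0 < c) (hc2 : c ≤ 2) (n : ℕ) : 0 < Dn c n :=
  mul_pos (pow_pos (inv_pos.2 hc) _) (lh_ar_pos hc hc2 _ _)

/-- The observable vanishes unless the height of the face `0` is bounded. -/
def Sup6 (m L : ℕ) (G : Hgt → Set Pt → ℝ) : Prop :=
  ∀ h b, FC.Hon (Sq m) h → G h b ≠ 0 → |h 0| ≤ 2 * (L : ℤ)

lemma Sup6.av6 {m L : ℕ} {G : Hgt → Set Pt → ℝ} (hG : Sup6 m L G) (t : ℝ) {h : Hgt}
    (hh : FC.Hon (Sq m) h) (h0 : ¬ |h 0| ≤ 2 * (L : ℤ)) : av6 t G h = 0 := by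
  unfold FK.av6
  have : ∀ ξ, G h (bl (h, om h ξ)) = 0 := fun ξ => by
    by_contra hne
    exact h0 (hG h _ hh hne)
  simp only [this]
  exact integral_zero _ _

/-- The integral over the absolute heights as a finite sum. -/
lemma int_sum {c : ℝ} {P : Measure (Ori (ℤ × ℤ))} (hPl : Pl c P) {g : Hgt → ℝ} {L : ℕ}
    (hi : Integrable g (mu0 P)) (h0 : ∀ᵐ h ∂(mu0 P), ¬ |h 0| ≤ 2 * (L : ℤ) → g h = 0) :
    ∫ h, g h ∂(mu0 P) = ∑ j ∈ Finset.Icc (-(L : ℤ)) L, ∫ w, g (fun q => pth w q + 2 * j) ∂P := by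
  set g' : Hgt → ℝ := fun h => if |h 0| ≤ 2 * (L : ℤ) then g h else 0 with hg'
  have he : g =ᵐ[mu0 P] g' := by
    filter_upwards [h0] with h hh
    simp only [hg']
    split_ifs with h1
    · rfl
    · exact hh h1
  have h1 := FA.s_base c P hPl (0, 0) ℝ g' (hi.congr he)
  have e1 : ∀ (k : ℤ) (w : Ori (ℤ × ℤ)), g' (fun q => pth w q - pth w (0, 0) +
      (2 * k + ((0, 0) : ℤ × ℤ).1 + ((0, 0) : ℤ × ℤ).2)) =
      if k ∈ Finset.Icc (-(L : ℤ)) L then g (fun q => pth w q + 2 * k) else 0 := by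
    intro k w
    have e0 : pth w (0, 0) = 0 := P152.pth_zero w
    have e2 : (fun q => pth w q - pth w (0, 0) + (2 * k + ((0, 0) : ℤ × ℤ).1 +
        ((0, 0) : ℤ × ℤ).2)) = fun q => pth w q + 2 * k := by
      funext q
      rw [e0]
      simp
    rw [e2]
    have e3 : (fun q => pth w q + 2 * k : Hgt) 0 = 2 * k := by
      show pth w 0 + 2 * k = 2 * k
      rw [P152.pth_zero, zero_add]
    by_cases hk : k ∈ Finset.Icc (-(L : ℤ)) L
    · rw [if_pos hk]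
      refine if_pos ?_
      rw [e3, abs_le]
      rw [Finset.mem_Icc] at hk
      omega
    · rw [if_neg hk]
      refine if_neg fun h => hk ?_
      rw [e3, abs_le] at h
      rw [Finset.mem_Icc]
      omega
  simp only [e1] at h1
  rw [integral_congr_ae he]
  refine h1.unique ?_
  have h3 : ∑ k ∈ Finset.Icc (-(L : ℤ)) L, ∫ w, (if k ∈ Finset.Icc (-(L : ℤ)) L then
      g (fun q => pth w q + 2 * k) else 0) ∂P =
      ∑ k ∈ Finset.Icc (-(L : ℤ)) L, ∫ w, g (fun q => pth w q + 2 * k) ∂P :=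
    Finset.sum_congr rfl fun k hk => by simp only [if_pos hk]
  rw [← h3]
  refine hasSum_sum_of_ne_finset_zero fun k hk => ?_
  simp only [if_neg hk]
  exact integral_zero _ _

/-- The passage to the plane. -/
theorem lim6 {c : ℝ} (hc : 1 ≤ c) (hb : BoxLim c) {P : Measure (Ori (ℤ × ℤ))}
    (hPl : Pl c P) (hP : IsP c P) {m L : ℕ} {G : Hgt → Set Pt → ℝ} (hG : Loc6 m G)
    (hL : Sup6 m L G) (hi : Integrable (fun x => G x.1 (bl x)) (MU c⁻¹ P)) {K : ℕ → ℕ}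
    (hK : ∀ n, L + 2 * n + 2 ≤ K n) :
    Tendsto (fun n : ℕ => J6 (Sq n) (K n) c⁻¹ G / Dn c n) atTop
      (𝓝 (∫ x, G x.1 (bl x) ∂(MU c⁻¹ P))) := by
  have hc0 : 0 < c := by linarith
  have ht : 0 < c⁻¹ := inv_pos.mpr hc0
  have ht1 : c⁻¹ ≤ 1 := inv_le_one_of_one_le₀ hc
  have := hPl.prob
  obtain ⟨i1, i2⟩ := int_MU hi
  have e0 : (fun h => ∫ ξ, G h (bl (h, om h ξ)) ∂(mkm c⁻¹)) = av6 c⁻¹ G := rfl
  simp only at i1 i2
  rw [i1]
  change Integrable (av6 c⁻¹ G) (mu0 P) at i2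
  change Tendsto _ _ (𝓝 (∫ h, av6 c⁻¹ G h ∂(mu0 P)))
  rw [int_sum hPl (L := L) i2 (by
    filter_upwards [FC.ae_Hon hPl (Sq m)] with h hh h1
    exact hL.av6 _ hh h1)]
  have hloc : ∀ h h' : Hgt, (∀ q ∈ Sq m, h q = h' q) → av6 c⁻¹ G h = av6 c⁻¹ G h' :=
    fun h h' => av6_congr hG _
  have hlim : Tendsto (fun n : ℕ => ∑ j ∈ Finset.Icc (-(L : ℤ)) L,
      (∑ k : BE (2 * n) (2 * n) → ZMod 2,
        av6 c⁻¹ G (fun q => pth (ofW (2 * n) (2 * n) (1 - n) (1 - n) k) q + 2 * j) *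
          (boxNet (2 * n) (2 * n)).W6 (wc c) k) / (boxNet (2 * n) (2 * n)).ar (wc c)
            (fun _ => 1)) atTop
      (𝓝 (∑ j ∈ Finset.Icc (-(L : ℤ)) L, ∫ w, av6 c⁻¹ G (fun q => pth w q + 2 * j) ∂P)) :=
    tendsto_finsetSum _ fun j _ => lim_hgt hb hP (m := m) (av6 c⁻¹ G) hloc j
  refine hlim.congr' ?_
  filter_upwards [eventually_ge_atTop (m + 1)] with n hn
  have hmn : Sq m ⊆ Sq n := Sq_mono (by omega)
  have e1 := J6_eq (K := K n) hmn ht ht1 hG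
  rw [inv_inv] at e1
  have e2 : ∑ y ∈ Net.TTs (V := V6 (Sq n)) (K n) (Set.univ : Set (F6 (Sq n))),
      (if (n6 (Sq n)).HS Set.univ y then (n6 (Sq n)).hw c Set.univ y else 0) *
        av6 c⁻¹ G (ex6 y) =
      ∑ y ∈ Net.TTs (V := V6 (Sq n)) (K n) (Set.univ : Set (F6 (Sq n))),
      (if (n6 (Sq n)).HS Set.univ y ∧ |ex6 y 0| ≤ 2 * (L : ℤ) then
        (n6 (Sq n)).hw c Set.univ y * av6 c⁻¹ G (ex6 y) else 0) := by
    refine Finset.sum_congr rfl fun y _ => ?_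
    by_cases h1 : (n6 (Sq n)).HS Set.univ y
    · rw [if_pos h1]
      by_cases h2 : |ex6 y 0| ≤ 2 * (L : ℤ)
      · rw [if_pos ⟨h1, h2⟩]
      · rw [if_neg fun h => h2 h.2,
          hL.av6 _ (Hon_mono hmn (hon_of_HS (by omega) h1)) h2, mul_zero]
    · rw [if_neg h1, if_neg fun h => h1 h.1, zero_mul]
  rw [e2, za hc0 (by omega) (hK n) (av6 c⁻¹ G) (fun h h' hh => hloc h h' fun q hq =>
    hh q (hmn hq))] at e1
  rw [e1]
  unfold Dn
  rw [mul_div_mul_left _ _ (pow_pos ht _).ne', Finset.sum_div]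

end Vale.Agent.P145.FK
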