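import Vale.Agent.P145.FK.Dom

/-!
P145, block K1: spatial Markov property for blocked boundaries, by exchanging the insides of two
configurations.
-/

namespace Vale.Agent.P145.FK

open Finset
open scoped Classical

namespace Net

variable {V F E : Type*} {K : ℕ}

/-- The boundary of `D` is blocked: even sites adjacent to both sides of the boundary are zero,
medial vertices between the inside and the outside are closed. -/
def blk (N : Net V F E) (D : Set F) (x : Cfg V F E K) : Prop :=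
  (∀ v, ¬ N.inD D (.inl v) → (∃ f, N.inc v f ∧ f ∈ D) → (x.1 (.inl v) : ℕ) = 0) ∧
    ∀ e, ¬ (N.f e ∈ D ↔ N.g e ∈ D) → x.2 e = false

lemma zb_blk {N : Net V F E} {D : Set F} {x : Cfg V F E K} (hx : N.zb D x) : N.blk D x := by
  refine ⟨fun v hv _ => hx.1 _ hv, fun e he => hx.2 e fun h => he ⟨fun _ => h.2, fun _ => h.1⟩⟩

/-- Outside from `x`, inside from `y`. -/
noncomputable def mixC (N : Net V F E) (D : Set F) (x y : Cfg V F E K) : Cfg V F E K :=
  (fun i => if N.inD D i then y.1 i else x.1 i, fun e => if N.inE D e then y.2 e else x.2 e)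

/-- Outside from `s`, inside from `s'`. -/
noncomputable def mixS (N : Net V F E) (D : Set F) (s s' : V ⊕ F → Bool) : V ⊕ F → Bool :=
  fun i => if N.inD D i then s' i else s i

lemma mixC_in {N : Net V F E} {D : Set F} {x y : Cfg V F E K} {i : V ⊕ F} (h : N.inD D i) :
    (N.mixC D x y).1 i = y.1 i := if_pos h

lemma mixC_out {N : Net V F E} {D : Set F} {x y : Cfg V F E K} {i : V ⊕ F} (h : ¬ N.inD D i) :
    (N.mixC D x y).1 i = x.1 i := if_neg h

lemma mixC_mixC (N : Net V F E) (D : Set F) (x y : Cfg V F E K) :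
    N.mixC D (N.mixC D x y) (N.mixC D y x) = x := by
  refine Prod.ext ?_ ?_
  · funext i
    by_cases h : N.inD D i <;> simp [mixC, h]
  · funext e
    by_cases h : N.inE D e <;> simp [mixC, h]

lemma mixS_mixS (N : Net V F E) (D : Set F) (s s' : V ⊕ F → Bool) :
    N.mixS D (N.mixS D s s') (N.mixS D s' s) = s := by
  funext i
  by_cases h : N.inD D i <;> simp [mixS, h]

/-- The two cases at a pair of incident sites. -/
lemma loc_vf {N : Net V F E} {D : Set F} {x y : Cfg V F E K} (hx : N.blk D x) (hy : N.blk D y)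
    {v : V} {f : F} (h : N.inc v f) :
    ((N.mixC D x y).1 (.inl v) = x.1 (.inl v) ∧ (N.mixC D x y).1 (.inr f) = x.1 (.inr f) ∧
      (N.mixC D y x).1 (.inl v) = y.1 (.inl v) ∧ (N.mixC D y x).1 (.inr f) = y.1 (.inr f)) ∨
    ((N.mixC D x y).1 (.inl v) = y.1 (.inl v) ∧ (N.mixC D x y).1 (.inr f) = y.1 (.inr f) ∧
      (N.mixC D y x).1 (.inl v) = x.1 (.inl v) ∧ (N.mixC D y x).1 (.inr f) = x.1 (.inr f)) := by
  by_cases hf : f ∈ D
  · have hf' : N.inD D (.inr f) := hf
    by_cases hv : N.inD D (.inl v)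
    · right
      exact ⟨mixC_in hv, mixC_in hf', mixC_in hv, mixC_in hf'⟩
    · right
      have e : x.1 (.inl v) = y.1 (.inl v) := by
        apply Fin.ext
        rw [hx.1 v hv ⟨f, h, hf⟩, hy.1 v hv ⟨f, h, hf⟩]
      exact ⟨(mixC_out hv).trans e, mixC_in hf', (mixC_out hv).trans e.symm, mixC_in hf'⟩
  · have hf' : ¬ N.inD D (.inr f) := hf
    have hv : ¬ N.inD D (.inl v) := fun h' => hf (h' f h)
    left
    exact ⟨mixC_out hv, mixC_out hf', mixC_out hv, mixC_out hf'⟩

/-- The two cases at a medial vertex. -/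
lemma loc_e {N : Net V F E} {D : Set F} {x y : Cfg V F E K} (hx : N.blk D x) (hy : N.blk D y)
    (ax : N.adm x.1) (ay : N.adm y.1) (e : E) :
    ((N.mixC D x y).1 (.inl (N.u e)) = x.1 (.inl (N.u e)) ∧
      (N.mixC D x y).1 (.inl (N.v e)) = x.1 (.inl (N.v e)) ∧
      (N.mixC D x y).1 (.inr (N.f e)) = x.1 (.inr (N.f e)) ∧
      (N.mixC D x y).1 (.inr (N.g e)) = x.1 (.inr (N.g e)) ∧
      (N.mixC D y x).1 (.inl (N.u e)) = y.1 (.inl (N.u e)) ∧
      (N.mixC D y x).1 (.inl (N.v e)) = y.1 (.inl (N.v e)) ∧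
      (N.mixC D y x).1 (.inr (N.f e)) = y.1 (.inr (N.f e)) ∧
      (N.mixC D y x).1 (.inr (N.g e)) = y.1 (.inr (N.g e))) ∨
    ((N.mixC D x y).1 (.inl (N.u e)) = y.1 (.inl (N.u e)) ∧
      (N.mixC D x y).1 (.inl (N.v e)) = y.1 (.inl (N.v e)) ∧
      (N.mixC D x y).1 (.inr (N.f e)) = y.1 (.inr (N.f e)) ∧
      (N.mixC D x y).1 (.inr (N.g e)) = y.1 (.inr (N.g e)) ∧
      (N.mixC D y x).1 (.inl (N.u e)) = x.1 (.inl (N.u e)) ∧
      (N.mixC D y x).1 (.inl (N.v e)) = x.1 (.inl (N.v e)) ∧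
      (N.mixC D y x).1 (.inr (N.f e)) = x.1 (.inr (N.f e)) ∧
      (N.mixC D y x).1 (.inr (N.g e)) = x.1 (.inr (N.g e))) := by
  -- the value of a site which is in the outer half of a pair of incident sites one of which is in
  by_cases hfg : N.f e ∈ D ∨ N.g e ∈ D
  · right
    have hv : ∀ v, (∃ f, N.inc v f ∧ f ∈ D) → (N.mixC D x y).1 (.inl v) = y.1 (.inl v) ∧
        (N.mixC D y x).1 (.inl v) = x.1 (.inl v) ∧
        (¬ N.inD D (.inl v) → (x.1 (.inl v) : ℕ) = 0 ∧ (y.1 (.inl v) : ℕ) = 0) := by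
      intro v hf
      by_cases hv : N.inD D (.inl v)
      · exact ⟨mixC_in hv, mixC_in hv, fun h => absurd hv h⟩
      · have e : x.1 (.inl v) = y.1 (.inl v) := by
          apply Fin.ext
          rw [hx.1 v hv hf, hy.1 v hv hf]
        exact ⟨(mixC_out hv).trans e, (mixC_out hv).trans e.symm,
          fun _ => ⟨hx.1 v hv hf, hy.1 v hv hf⟩⟩
    have hu1 := hv (N.u e) (by
      rcases hfg with h | h
      · exact ⟨_, N.huf e, h⟩
      · exact ⟨_, N.hug e, h⟩)
    have hv1 := hv (N.v e) (by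
      rcases hfg with h | h
      · exact ⟨_, N.hvf e, h⟩
      · exact ⟨_, N.hvg e, h⟩)
    have hf1 : ∀ f, N.inc (N.u e) f → (N.mixC D x y).1 (.inr f) = y.1 (.inr f) ∧
        (N.mixC D y x).1 (.inr f) = x.1 (.inr f) := by
      intro f hf
      by_cases hfD : f ∈ D
      · have hf' : N.inD D (.inr f) := hfD
        exact ⟨mixC_in hf', mixC_in hf'⟩
      · have hf' : ¬ N.inD D (.inr f) := hfD
        have hnu : ¬ N.inD D (.inl (N.u e)) := fun h' => hfD (h' f hf)
        obtain ⟨h1, h2⟩ := hu1.2.2 hnu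
        have a1 := ax _ _ hf
        have a2 := ay _ _ hf
        have e : x.1 (.inr f) = y.1 (.inr f) := by
          apply Fin.ext
          omega
        exact ⟨(mixC_out hf').trans e, (mixC_out hf').trans e.symm⟩
    exact ⟨hu1.1, hv1.1, (hf1 _ (N.huf e)).1, (hf1 _ (N.hug e)).1, hu1.2.1, hv1.2.1,
      (hf1 _ (N.huf e)).2, (hf1 _ (N.hug e)).2⟩
  · left
    push Not at hfg
    have hf' : ¬ N.inD D (.inr (N.f e)) := hfg.1
    have hg' : ¬ N.inD D (.inr (N.g e)) := hfg.2
    have hu' : ¬ N.inD D (.inl (N.u e)) := fun h' => hfg.1 (h' _ (N.huf e))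
    have hv' : ¬ N.inD D (.inl (N.v e)) := fun h' => hfg.1 (h' _ (N.hvf e))
    exact ⟨mixC_out hu', mixC_out hv', mixC_out hf', mixC_out hg',
      mixC_out hu', mixC_out hv', mixC_out hf', mixC_out hg'⟩

section
variable [Fintype V] [Fintype F] [Fintype E]

/-- Total weight. -/
noncomputable def tw (N : Net V F E) (t : ℝ) (κ : V ⊕ F → Fin (K + 1) → ℝ) (β : E → Bool → ℝ)
    (x : Cfg V F E K) (s : V ⊕ F → Bool) : ℝ := N.jw t κ β x * N.cst (act x) s

omit [Fintype E] in
lemma adm_ind (N : Net V F E) (a : V ⊕ F → Fin (K + 1)) :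
    (if N.adm a then (1 : ℝ) else 0) = ∏ p ∈ Finset.univ.filter (fun p : V × F => N.inc p.1 p.2),
      (if (a (.inr p.2) : ℕ) = a (.inl p.1) ∨ (a (.inr p.2) : ℕ) + 1 = a (.inl p.1)
        then (1 : ℝ) else 0) := by
  by_cases h : N.adm a
  · rw [if_pos h]
    refine (Finset.prod_eq_one fun p hp => ?_).symm
    rw [if_pos (h p.1 p.2 (Finset.mem_filter.mp hp).2)]
  · rw [if_neg h]
    unfold adm at h
    push Not at h
    obtain ⟨v, f, hvf, h⟩ := h
    refine (Finset.prod_eq_zero (i := (v, f)) (by simp [hvf]) ?_).symm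
    rw [if_neg]
    push Not
    exact h

lemma cst_act (N : Net V F E) (x : Cfg V F E K) (s : V ⊕ F → Bool) :
    N.cst (act x) s = (∏ p ∈ Finset.univ.filter (fun p : V × F => N.inc p.1 p.2),
      (if (x.1 (.inl p.1) : ℕ) ≠ 0 then pr (1 / 2) (1 / 2) (.inl p.1) (.inr p.2) s else 1)) *
      ∏ e, (if x.2 e = true then N.th 0 e s else 1) := by
  unfold cst act
  rw [Finset.prod_filter, Fintype.prod_sum_type]
  simp only [Sum.elim_inl, Sum.elim_inr, con]
  have e1 : ∀ v : V, (if (x.1 (.inl v) : ℕ) ≠ 0 then N.cv v s else 1)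
      = ∏ f, (if N.inc v f then
        (if (x.1 (.inl v) : ℕ) ≠ 0 then pr (1 / 2) (1 / 2) (.inl v) (.inr f) s else 1) else 1) := by
    intro v
    by_cases h : (x.1 (.inl v) : ℕ) ≠ 0
    · simp only [h, ne_eq, not_false_eq_true, if_true]
      unfold cv
      rw [Finset.prod_filter]
    · simp only [h, if_false, ite_self, Finset.prod_const_one]
  congr 1
  · rw [Finset.prod_filter, Fintype.prod_prod_type]
    refine Finset.prod_congr rfl fun v _ => ?_
    refine Eq.trans ?_ (e1 v)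
    congr
  · refine Finset.prod_congr rfl fun e _ => ?_
    congr

/-- Exchange of the insides. -/
lemma tw_swap (N : Net V F E) (t : ℝ) (κ : V ⊕ F → Fin (K + 1) → ℝ) (β : E → Bool → ℝ)
    {D : Set F} {x y : Cfg V F E K} (hx : N.blk D x) (hy : N.blk D y) (s s' : V ⊕ F → Bool) :
    N.tw t κ β x s * N.tw t κ β y s'
      = N.tw t κ β (N.mixC D x y) (N.mixS D s s') * N.tw t κ β (N.mixC D y x) (N.mixS D s' s) := by
  have i1 : (if N.adm x.1 then (1 : ℝ) else 0) * (if N.adm y.1 then (1 : ℝ) else 0)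
      = (if N.adm (N.mixC D x y).1 then (1 : ℝ) else 0) *
        (if N.adm (N.mixC D y x).1 then (1 : ℝ) else 0) := by
    rw [adm_ind, adm_ind, adm_ind, adm_ind, ← Finset.prod_mul_distrib, ← Finset.prod_mul_distrib]
    refine Finset.prod_congr rfl fun p hp => ?_
    rcases loc_vf hx hy (Finset.mem_filter.mp hp).2 with ⟨h1, h2, h3, h4⟩ | ⟨h1, h2, h3, h4⟩
    · rw [h1, h2, h3, h4]
    · rw [h1, h2, h3, h4, mul_comm]
  have i2 : (∏ i, κ i (x.1 i)) * (∏ i, κ i (y.1 i))
      = (∏ i, κ i ((N.mixC D x y).1 i)) * (∏ i, κ i ((N.mixC D y x).1 i)) := by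
    rw [← Finset.prod_mul_distrib, ← Finset.prod_mul_distrib]
    refine Finset.prod_congr rfl fun i _ => ?_
    by_cases h : N.inD D i
    · rw [mixC_in h, mixC_in h, mul_comm]
    · rw [mixC_out h, mixC_out h]
  have i3 : (∏ e, β e (x.2 e)) * (∏ e, β e (y.2 e))
      = (∏ e, β e ((N.mixC D x y).2 e)) * (∏ e, β e ((N.mixC D y x).2 e)) := by
    rw [← Finset.prod_mul_distrib, ← Finset.prod_mul_distrib]
    refine Finset.prod_congr rfl fun e _ => ?_
    by_cases h : N.inE D e <;> simp [mixC, h, mul_comm]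
  have i4 : N.cst (act x) s * N.cst (act y) s'
      = N.cst (act (N.mixC D x y)) (N.mixS D s s') *
        N.cst (act (N.mixC D y x)) (N.mixS D s' s) := by
    rw [cst_act, cst_act, cst_act, cst_act]
    have j1 : (∏ p ∈ Finset.univ.filter (fun p : V × F => N.inc p.1 p.2),
        (if (x.1 (.inl p.1) : ℕ) ≠ 0 then pr (1 / 2) (1 / 2) (.inl p.1) (.inr p.2) s else 1)) *
        (∏ p ∈ Finset.univ.filter (fun p : V × F => N.inc p.1 p.2),
        (if (y.1 (.inl p.1) : ℕ) ≠ 0 then pr (1 / 2) (1 / 2) (.inl p.1) (.inr p.2) s' else 1))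
        = (∏ p ∈ Finset.univ.filter (fun p : V × F => N.inc p.1 p.2),
        (if ((N.mixC D x y).1 (.inl p.1) : ℕ) ≠ 0 then
          pr (1 / 2) (1 / 2) (.inl p.1) (.inr p.2) (N.mixS D s s') else 1)) *
        (∏ p ∈ Finset.univ.filter (fun p : V × F => N.inc p.1 p.2),
        (if ((N.mixC D y x).1 (.inl p.1) : ℕ) ≠ 0 then
          pr (1 / 2) (1 / 2) (.inl p.1) (.inr p.2) (N.mixS D s' s) else 1)) := by
      rw [← Finset.prod_mul_distrib, ← Finset.prod_mul_distrib]
      refine Finset.prod_congr rfl fun p hp => ?_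
      have hinc := (Finset.mem_filter.mp hp).2
      by_cases hf : p.2 ∈ D
      · have hf' : N.inD D (.inr p.2) := hf
        by_cases hv : N.inD D (.inl p.1)
        · rw [mixC_in hv, mixC_in hv]
          simp only [pr, mixS, if_pos hv, if_pos hf']
          rw [mul_comm]
        · rw [mixC_out hv, mixC_out hv, hx.1 _ hv ⟨_, hinc, hf⟩, hy.1 _ hv ⟨_, hinc, hf⟩]
          simp
      · have hf' : ¬ N.inD D (.inr p.2) := hf
        have hv : ¬ N.inD D (.inl p.1) := fun h' => hf (h' _ hinc)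
        rw [mixC_out hv, mixC_out hv]
        simp only [pr, mixS, if_neg hv, if_neg hf']
    have j2 : (∏ e, (if x.2 e = true then N.th 0 e s else 1)) *
        (∏ e, (if y.2 e = true then N.th 0 e s' else 1))
        = (∏ e, (if (N.mixC D x y).2 e = true then N.th 0 e (N.mixS D s s') else 1)) *
          (∏ e, (if (N.mixC D y x).2 e = true then N.th 0 e (N.mixS D s' s) else 1)) := by
      rw [← Finset.prod_mul_distrib, ← Finset.prod_mul_distrib]
      refine Finset.prod_congr rfl fun e _ => ?_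
      by_cases hf : N.f e ∈ D
      · have hf' : N.inD D (.inr (N.f e)) := hf
        by_cases hg : N.g e ∈ D
        · have hg' : N.inD D (.inr (N.g e)) := hg
          have he : N.inE D e := ⟨hf, hg⟩
          simp only [mixC, if_pos he, th, pr, mixS, if_pos hf', if_pos hg']
          rw [mul_comm]
        · have he : ¬ N.inE D e := fun h => hg h.2
          have h1 := hx.2 e (fun h => hg (h.1 hf))
          have h2 := hy.2 e (fun h => hg (h.1 hf))
          simp [mixC, h1, h2]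
      · have hf' : ¬ N.inD D (.inr (N.f e)) := hf
        have he : ¬ N.inE D e := fun h => hf h.1
        by_cases hg : N.g e ∈ D
        · have h1 := hx.2 e (fun h => hf (h.2 hg))
          have h2 := hy.2 e (fun h => hf (h.2 hg))
          simp [mixC, h1, h2]
        · have hg' : ¬ N.inD D (.inr (N.g e)) := hg
          simp only [mixC, if_neg he, th, pr, mixS, if_neg hf', if_neg hg']
    calc _ = ((∏ p ∈ Finset.univ.filter (fun p : V × F => N.inc p.1 p.2),
        (if (x.1 (.inl p.1) : ℕ) ≠ 0 then pr (1 / 2) (1 / 2) (.inl p.1) (.inr p.2) s else 1)) *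
        (∏ p ∈ Finset.univ.filter (fun p : V × F => N.inc p.1 p.2),
        (if (y.1 (.inl p.1) : ℕ) ≠ 0 then pr (1 / 2) (1 / 2) (.inl p.1) (.inr p.2) s' else 1))) *
        ((∏ e, (if x.2 e = true then N.th 0 e s else 1)) *
        (∏ e, (if y.2 e = true then N.th 0 e s' else 1))) := by ring
      _ = _ := by rw [j1, j2]; ring
  by_cases had : N.adm x.1 ∧ N.adm y.1
  · obtain ⟨ax, ay⟩ := had
    have i5 : (∏ e, N.wE t x.1 e) * (∏ e, N.wE t y.1 e)
        = (∏ e, N.wE t (N.mixC D x y).1 e) * (∏ e, N.wE t (N.mixC D y x).1 e) := by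
      rw [← Finset.prod_mul_distrib, ← Finset.prod_mul_distrib]
      refine Finset.prod_congr rfl fun e _ => ?_
      unfold wE
      rcases loc_e hx hy ax ay e with ⟨h1, h2, h3, h4, h5, h6, h7, h8⟩ |
        ⟨h1, h2, h3, h4, h5, h6, h7, h8⟩
      · rw [h1, h2, h3, h4, h5, h6, h7, h8]
      · rw [h1, h2, h3, h4, h5, h6, h7, h8, mul_comm]
    unfold tw jw mw
    calc _ = ((if N.adm x.1 then (1 : ℝ) else 0) * (if N.adm y.1 then (1 : ℝ) else 0)) *
          ((∏ e, N.wE t x.1 e) * (∏ e, N.wE t y.1 e)) *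
          ((∏ i, κ i (x.1 i)) * (∏ i, κ i (y.1 i))) *
          ((∏ e, β e (x.2 e)) * (∏ e, β e (y.2 e))) *
          (N.cst (act x) s * N.cst (act y) s') := by ring
      _ = _ := by rw [i1, i2, i3, i4, i5]; ring
  · have z1 : (if N.adm x.1 then (1 : ℝ) else 0) * (if N.adm y.1 then (1 : ℝ) else 0) = 0 := by
      by_cases ax : N.adm x.1
      · have ay : ¬ N.adm y.1 := fun h => had ⟨ax, h⟩
        rw [if_neg ay, mul_zero]
      · rw [if_neg ax, zero_mul]
    have z2 := i1.symm.trans z1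
    unfold tw jw mw
    calc _ = ((if N.adm x.1 then (1 : ℝ) else 0) * (if N.adm y.1 then (1 : ℝ) else 0)) *
          (((∏ e, N.wE t x.1 e) * ∏ i, κ i (x.1 i)) * (∏ e, β e (x.2 e)) * N.cst (act x) s *
          (((∏ e, N.wE t y.1 e) * ∏ i, κ i (y.1 i)) * (∏ e, β e (y.2 e)) * N.cst (act y) s')) := by
            ring
      _ = ((if N.adm (N.mixC D x y).1 then (1 : ℝ) else 0) *
          (if N.adm (N.mixC D y x).1 then (1 : ℝ) else 0)) *
          (((∏ e, N.wE t (N.mixC D x y).1 e) * ∏ i, κ i ((N.mixC D x y).1 i)) *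
          (∏ e, β e ((N.mixC D x y).2 e)) * N.cst (act (N.mixC D x y)) (N.mixS D s s') *
          (((∏ e, N.wE t (N.mixC D y x).1 e) * ∏ i, κ i ((N.mixC D y x).1 i)) *
          (∏ e, β e ((N.mixC D y x).2 e)) * N.cst (act (N.mixC D y x)) (N.mixS D s' s))) := by
            rw [z1, z2, zero_mul, zero_mul]
      _ = _ := by ring

end

end Net

end Vale.Agent.P145.FK
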