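import Vale.Agent.P145.FK.Spin

/-!
P145, block K1: six-vertex heights (a = b = t, c = 1, t at most 1) on a finite incidence structure,
magnitudes and signs; lattice condition.
-/

namespace Vale.Agent.P145.FK

open Finset
open scoped Classical

/-- Even sites `V`, odd sites `F`, medial vertices `E`; `u e, v e` are the two even sites and
`f e, g e` the two odd sites around `e`. -/
structure Net (V F E : Type*) where
  u : E → V
  v : E → V
  f : E → F
  g : E → F
  inc : V → F → Prop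
  huf : ∀ e, inc (u e) (f e)
  hug : ∀ e, inc (u e) (g e)
  hvf : ∀ e, inc (v e) (f e)
  hvg : ∀ e, inc (v e) (g e)

namespace Net

variable {V F E : Type*} {K : ℕ}

/-- Magnitudes: the modulus of the height is `2 a` on `V` and `2 a + 1` on `F`. -/
def adm (N : Net V F E) (a : V ⊕ F → Fin (K + 1)) : Prop :=
  ∀ v f, N.inc v f → (a (.inr f) : ℕ) = a (.inl v) ∨ (a (.inr f) : ℕ) + 1 = a (.inl v)

/-- The flat weight. -/
noncomputable def wE (N : Net V F E) (t : ℝ) (a : V ⊕ F → Fin (K + 1)) (e : E) : ℝ :=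
  if (a (.inl (N.u e)) : ℕ) = a (.inl (N.v e)) ∧ (a (.inr (N.f e)) : ℕ) = a (.inr (N.g e))
  then 1 else t

lemma fmin {n : ℕ} (x y : Fin n) : ((x ⊓ y : Fin n) : ℕ) = min (x : ℕ) y := by
  rcases le_total x y with h | h
  · rw [inf_eq_left.mpr h, min_eq_left (by exact_mod_cast h)]
  · rw [inf_eq_right.mpr h, min_eq_right (by exact_mod_cast h)]

lemma fmax {n : ℕ} (x y : Fin n) : ((x ⊔ y : Fin n) : ℕ) = max (x : ℕ) y := by
  rcases le_total x y with h | h
  · rw [sup_eq_right.mpr h, max_eq_right (by exact_mod_cast h)]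
  · rw [sup_eq_left.mpr h, max_eq_left (by exact_mod_cast h)]

lemma adm_inf {N : Net V F E} {a b : V ⊕ F → Fin (K + 1)} (ha : N.adm a) (hb : N.adm b) :
    N.adm (a ⊓ b) := by
  intro v f h
  have h1 := ha v f h
  have h2 := hb v f h
  simp only [Pi.inf_apply, fmin]
  omega

lemma adm_sup {N : Net V F E} {a b : V ⊕ F → Fin (K + 1)} (ha : N.adm a) (hb : N.adm b) :
    N.adm (a ⊔ b) := by
  intro v f h
  have h1 := ha v f h
  have h2 := hb v f h
  simp only [Pi.sup_apply, fmax]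
  omega

lemma wE_nonneg {N : Net V F E} {t : ℝ} (ht : 0 ≤ t) (a : V ⊕ F → Fin (K + 1)) (e : E) :
    0 ≤ N.wE t a e := by
  unfold wE; split_ifs <;> linarith

lemma wE_pos {N : Net V F E} {t : ℝ} (ht : 0 < t) (a : V ⊕ F → Fin (K + 1)) (e : E) :
    0 < N.wE t a e := by
  unfold wE; split_ifs <;> linarith

lemma wE_ge {N : Net V F E} {t : ℝ} (ht : t ≤ 1) (a : V ⊕ F → Fin (K + 1)) (e : E) :
    t ≤ N.wE t a e := by
  unfold wE; split_ifs <;> linarith

lemma wE_lattice {N : Net V F E} {t : ℝ} (ht0 : 0 ≤ t) (ht : t ≤ 1)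
    {a b : V ⊕ F → Fin (K + 1)} (ha : N.adm a) (hb : N.adm b) (e : E) :
    N.wE t a e * N.wE t b e ≤ N.wE t (a ⊓ b) e * N.wE t (a ⊔ b) e := by
  have a1 := ha _ _ (N.huf e)
  have a2 := ha _ _ (N.hug e)
  have a3 := ha _ _ (N.hvf e)
  have a4 := ha _ _ (N.hvg e)
  have b1 := hb _ _ (N.huf e)
  have b2 := hb _ _ (N.hug e)
  have b3 := hb _ _ (N.hvf e)
  have b4 := hb _ _ (N.hvg e)
  unfold wE
  simp only [Pi.inf_apply, Pi.sup_apply, fmin, fmax]
  generalize (a (.inl (N.u e)) : ℕ) = x1 at *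
  generalize (a (.inl (N.v e)) : ℕ) = x2 at *
  generalize (a (.inr (N.f e)) : ℕ) = x3 at *
  generalize (a (.inr (N.g e)) : ℕ) = x4 at *
  generalize (b (.inl (N.u e)) : ℕ) = y1 at *
  generalize (b (.inl (N.v e)) : ℕ) = y2 at *
  generalize (b (.inr (N.f e)) : ℕ) = y3 at *
  generalize (b (.inr (N.g e)) : ℕ) = y4 at *
  by_cases hA : x1 = x2 ∧ x3 = x4
  · by_cases hB : y1 = y2 ∧ y3 = y4
    · obtain ⟨rfl, rfl⟩ := hA
      obtain ⟨rfl, rfl⟩ := hB
      simp
    · have h : (min x1 y1 = min x2 y2 ∧ min x3 y3 = min x4 y4) ∨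
          (max x1 y1 = max x2 y2 ∧ max x3 y3 = max x4 y4) := by omega
      rw [if_pos hA, if_neg hB]
      rcases h with h | h
      · rw [if_pos h]
        split_ifs <;> linarith
      · rw [if_pos h]
        split_ifs <;> linarith
  · by_cases hB : y1 = y2 ∧ y3 = y4
    · have h : (min x1 y1 = min x2 y2 ∧ min x3 y3 = min x4 y4) ∨
          (max x1 y1 = max x2 y2 ∧ max x3 y3 = max x4 y4) := by omega
      rw [if_neg hA, if_pos hB]
      rcases h with h | h
      · rw [if_pos h]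
        split_ifs <;> linarith
      · rw [if_pos h]
        split_ifs <;> linarith
    · rw [if_neg hA, if_neg hB]
      split_ifs <;> nlinarith

/-- Sites of `V` with nonzero height. -/
noncomputable def supp [Fintype V] (a : V ⊕ F → Fin (K + 1)) : Finset V :=
  Finset.univ.filter (fun v => (a (.inl v) : ℕ) ≠ 0)

lemma supp_inf [Fintype V] (a b : V ⊕ F → Fin (K + 1)) :
    supp (a ⊓ b) = supp a ∩ supp b := by
  ext v
  simp only [supp, Finset.mem_filter, Finset.mem_univ, true_and, Finset.mem_inter, Pi.inf_apply,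
    fmin]
  omega

lemma supp_sup [Fintype V] (a b : V ⊕ F → Fin (K + 1)) :
    supp (a ⊔ b) = supp a ∪ supp b := by
  ext v
  simp only [supp, Finset.mem_filter, Finset.mem_univ, true_and, Finset.mem_union, Pi.sup_apply,
    fmax]
  omega

lemma supp_mono [Fintype V] {a b : V ⊕ F → Fin (K + 1)} (h : a ≤ b) : supp a ⊆ supp b := by
  intro v
  simp only [supp, Finset.mem_filter, Finset.mem_univ, true_and]
  have h1 : (a (.inl v) : ℕ) ≤ b (.inl v) := by exact_mod_cast h (.inl v)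
  omega

/-- A pair interaction. -/
noncomputable def pr (x y : ℝ) (i j : V ⊕ F) (s : V ⊕ F → Bool) : ℝ :=
  x + y * (sv (s i) * sv (s j))

variable [Fintype V] [Fintype F] [Fintype E]

lemma pair_chi (i j : V ⊕ F) : ∃ A : V ⊕ F → Bool, ∀ s, sv (s i) * sv (s j) = chi A s := by
  have h : ∀ (k : V ⊕ F) (s : V ⊕ F → Bool), sv (s k) = chi (fun l => decide (l = k)) s := by
    intro k s
    unfold chi
    rw [Finset.prod_eq_single k]
    · simp
    · intro b _ hb; simp [hb]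
    · simp
  refine ⟨fun l => xor (decide (l = i)) (decide (l = j)), fun s => ?_⟩
  rw [h i, h j, chi_mul]

lemma pr_pos {x y : ℝ} (hx : 0 ≤ x) (hy : 0 ≤ y) (i j : V ⊕ F) : Pos (pr x y i j) := by
  obtain ⟨A, hA⟩ := pair_chi (V := V) (F := F) i j
  have h := Pos.add (Pos.const (I := V ⊕ F) x hx) (Pos.chr y hy A)
  refine (congrArg Pos ?_).mp h
  funext s
  simp only [pr, hA]

lemma pr_ferro {x y : ℝ} (hy : 0 ≤ y) (hxy : y ≤ x) (i j : V ⊕ F) : Ferro (pr x y i j) := by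
  obtain ⟨A, hA⟩ := pair_chi (V := V) (F := F) i j
  have h := Ferro.affine hy hxy A
  refine (congrArg Ferro ?_).mp h
  funext s
  simp only [pr, hA]

/-- The sign interaction across a medial vertex. -/
noncomputable def th (N : Net V F E) (r : ℝ) (e : E) (s : V ⊕ F → Bool) : ℝ :=
  pr ((1 + r) / 2) ((1 - r) / 2) (.inr (N.f e)) (.inr (N.g e)) s

/-- The constraint at a site of `V` with nonzero height. -/
noncomputable def cv (N : Net V F E) (v : V) (s : V ⊕ F → Bool) : ℝ :=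
  ∏ f ∈ Finset.univ.filter (fun f => N.inc v f), pr (1 / 2) (1 / 2) (.inl v) (.inr f) s

omit [Fintype E] in
lemma th_pos (N : Net V F E) {r : ℝ} (h0 : 0 ≤ r) (h1 : r ≤ 1) (e : E) : Pos (N.th r e) :=
  pr_pos (by linarith) (by linarith) _ _

omit [Fintype E] in
lemma th_ferro (N : Net V F E) {r : ℝ} (h0 : 0 ≤ r) (h1 : r ≤ 1) (e : E) : Ferro (N.th r e) :=
  pr_ferro (by linarith) (by linarith) _ _

omit [Fintype E] in
lemma cv_pos (N : Net V F E) (v : V) : Pos (N.cv v) :=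
  Pos.prod _ _ (fun _ _ => pr_pos (by norm_num) (by norm_num) _ _)

omit [Fintype E] in
lemma cv_ferro (N : Net V F E) (v : V) : Ferro (N.cv v) :=
  Ferro.prod _ _ (fun _ _ => pr_ferro (by norm_num) (by norm_num) _ _)

omit [Fintype V] [Fintype F] in
lemma pr_half_cases (i j : V ⊕ F) (s : V ⊕ F → Bool) :
    pr (1 / 2) (1 / 2) i j s = 0 ∨ pr (1 / 2) (1 / 2) i j s = 1 := by
  unfold pr
  cases s i <;> cases s j <;> norm_num

omit [Fintype V] [Fintype E] in
lemma cv_cases (N : Net V F E) (v : V) (s : V ⊕ F → Bool) : N.cv v s = 0 ∨ N.cv v s = 1 := by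
  unfold cv
  by_cases h : ∃ f ∈ Finset.univ.filter (fun f => N.inc v f),
      pr (1 / 2) (1 / 2) (.inl v) (.inr f) s = 0
  · obtain ⟨f, hf, h0⟩ := h
    exact Or.inl (Finset.prod_eq_zero hf h0)
  · push Not at h
    refine Or.inr (Finset.prod_eq_one (fun f hf => ?_))
    exact (pr_half_cases _ _ s).resolve_left (h f hf)

omit [Fintype V] [Fintype E] in
lemma cv_nonneg (N : Net V F E) (v : V) (s : V ⊕ F → Bool) : 0 ≤ N.cv v s := by
  rcases N.cv_cases v s with h | h <;> simp [h]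

omit [Fintype V] [Fintype E] in
lemma cv_sq (N : Net V F E) (v : V) (s : V ⊕ F → Bool) : N.cv v s * N.cv v s = N.cv v s := by
  rcases N.cv_cases v s with h | h <;> simp [h]

omit [Fintype V] [Fintype F] [Fintype E] in
lemma th_nonneg (N : Net V F E) {r : ℝ} (h0 : 0 ≤ r) (e : E) (s : V ⊕ F → Bool) :
    0 ≤ N.th r e s := by
  unfold th pr
  cases s (.inr (N.f e)) <;> cases s (.inr (N.g e)) <;> norm_num <;> linarith

/-- Sign weight for the set `S` of nonzero even sites. -/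
noncomputable def W (N : Net V F E) (r : E → ℝ) (S : Finset V) (s : V ⊕ F → Bool) : ℝ :=
  (∏ e, N.th (r e) e s) * ∏ v ∈ S, N.cv v s

/-- Sign sum. -/
noncomputable def Z (N : Net V F E) (r : E → ℝ) (S : Finset V) (φ : (V ⊕ F → Bool) → ℝ) : ℝ :=
  ∑ s, N.W r S s * φ s

omit [Fintype V] in
lemma W_nonneg (N : Net V F E) {r : E → ℝ} (h0 : ∀ e, 0 ≤ r e) (S : Finset V)
    (s : V ⊕ F → Bool) : 0 ≤ N.W r S s :=
  mul_nonneg (Finset.prod_nonneg fun e _ => N.th_nonneg (h0 e) e s)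
    (Finset.prod_nonneg fun v _ => N.cv_nonneg v s)

lemma W_ferro (N : Net V F E) {r : E → ℝ} (h0 : ∀ e, 0 ≤ r e) (h1 : ∀ e, r e ≤ 1)
    (S : Finset V) : Ferro (N.W r S) :=
  Ferro.mul (Ferro.prod _ _ fun e _ => N.th_ferro (h0 e) (h1 e) e)
    (Ferro.prod _ _ fun v _ => N.cv_ferro v)

lemma cvs_pos (N : Net V F E) (S : Finset V) : Pos (fun s => ∏ v ∈ S, N.cv v s) :=
  Pos.prod _ _ fun v _ => N.cv_pos v

omit [Fintype V] in
lemma W_union (N : Net V F E) (r : E → ℝ) (S T : Finset V) (hd : Disjoint S T)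
    (s : V ⊕ F → Bool) : N.W r (S ∪ T) s = N.W r S s * ∏ v ∈ T, N.cv v s := by
  unfold W
  rw [Finset.prod_union hd, mul_assoc]

lemma Z_one_pos (N : Net V F E) {r : E → ℝ} (h0 : ∀ e, 0 ≤ r e) (S : Finset V) :
    0 < N.Z r S (fun _ => 1) := by
  unfold Z
  have h : (1 : ℝ) ≤ N.W r S (fun _ => false) := by
    unfold W th cv pr
    have e1 : ∀ x : ℝ, (1 + x) / 2 + (1 - x) / 2 * (1 * 1) = 1 := fun x => by ring
    simp only [sv_false, e1, Finset.prod_const_one]
    norm_num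
  have h2 : N.W r S (fun _ => false) * 1 ≤ ∑ s, N.W r S s * 1 :=
    Finset.single_le_sum (f := fun s => N.W r S s * 1)
      (fun s _ => by rw [mul_one]; exact N.W_nonneg h0 S s) (Finset.mem_univ _)
  linarith

/-- Supermodularity of the sign partition function. -/
lemma Z_super (N : Net V F E) {r : E → ℝ} (h0 : ∀ e, 0 ≤ r e) (h1 : ∀ e, r e ≤ 1)
    (S T : Finset V) :
    N.Z r S (fun _ => 1) * N.Z r T (fun _ => 1)
      ≤ N.Z r (S ∩ T) (fun _ => 1) * N.Z r (S ∪ T) (fun _ => 1) := by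
  have h := gks (N.W_ferro h0 h1 (S ∩ T)) (N.cvs_pos (S \ T)) (N.cvs_pos (T \ S))
  have eS : S = (S ∩ T) ∪ (S \ T) := by ext x; simp; tauto
  have eT : T = (S ∩ T) ∪ (T \ S) := by ext x; simp; tauto
  have eU : S ∪ T = ((S ∩ T) ∪ (S \ T)) ∪ (T \ S) := by ext x; simp; tauto
  have d1 : Disjoint (S ∩ T) (S \ T) := by
    rw [Finset.disjoint_left]; intro x hx hx'; simp at hx hx'; tauto
  have d2 : Disjoint (S ∩ T) (T \ S) := by
    rw [Finset.disjoint_left]; intro x hx hx'; simp at hx hx'; tauto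
  have d3 : Disjoint ((S ∩ T) ∪ (S \ T)) (T \ S) := by
    rw [Finset.disjoint_left]; intro x hx hx'; simp at hx hx'; tauto
  have z1 : N.Z r S (fun _ => 1) = ∑ s, N.W r (S ∩ T) s * ∏ v ∈ S \ T, N.cv v s := by
    unfold Z
    refine Finset.sum_congr rfl fun s _ => ?_
    rw [mul_one, ← N.W_union r _ _ d1, ← eS]
  have z2 : N.Z r T (fun _ => 1) = ∑ s, N.W r (S ∩ T) s * ∏ v ∈ T \ S, N.cv v s := by
    unfold Z
    refine Finset.sum_congr rfl fun s _ => ?_
    rw [mul_one, ← N.W_union r _ _ d2, ← eT]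
  have z3 : N.Z r (S ∪ T) (fun _ => 1) = ∑ s, N.W r (S ∩ T) s *
      ((∏ v ∈ S \ T, N.cv v s) * ∏ v ∈ T \ S, N.cv v s) := by
    unfold Z
    refine Finset.sum_congr rfl fun s _ => ?_
    rw [mul_one, ← mul_assoc, ← N.W_union r _ _ d1, ← N.W_union r _ _ d3, ← eU]
  have z4 : N.Z r (S ∩ T) (fun _ => 1) = ∑ s, N.W r (S ∩ T) s := by
    unfold Z; simp
  rw [z1, z2, z3, z4]
  exact h

/-- Monotonicity of sign expectations in the set of nonzero sites. -/
lemma Z_mono (N : Net V F E) {r : E → ℝ} (h0 : ∀ e, 0 ≤ r e) (h1 : ∀ e, r e ≤ 1)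
    {S T : Finset V} (hST : S ⊆ T) {φ : (V ⊕ F → Bool) → ℝ} (hφ : Pos φ) :
    N.Z r S φ * N.Z r T (fun _ => 1) ≤ N.Z r S (fun _ => 1) * N.Z r T φ := by
  have h := gks (N.W_ferro h0 h1 S) hφ (N.cvs_pos (T \ S))
  have d1 : Disjoint S (T \ S) := Finset.disjoint_sdiff
  have eT : T = S ∪ (T \ S) := (Finset.union_sdiff_of_subset hST).symm
  have z1 : N.Z r T (fun _ => 1) = ∑ s, N.W r S s * ∏ v ∈ T \ S, N.cv v s := by
    unfold Z
    refine Finset.sum_congr rfl fun s _ => ?_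
    rw [mul_one, ← N.W_union r _ _ d1, ← eT]
  have z2 : N.Z r T φ = ∑ s, N.W r S s * (φ s * ∏ v ∈ T \ S, N.cv v s) := by
    unfold Z
    refine Finset.sum_congr rfl fun s _ => ?_
    rw [eT, N.W_union r _ _ d1, ← eT]; ring
  have z3 : N.Z r S (fun _ => 1) = ∑ s, N.W r S s := by
    unfold Z; simp
  rw [z1, z2, z3]
  exact h

lemma Z_pos (N : Net V F E) {r : E → ℝ} (h0 : ∀ e, 0 ≤ r e) (h1 : ∀ e, r e ≤ 1)
    (S : Finset V) {φ : (V ⊕ F → Bool) → ℝ} (hφ : Pos φ) : 0 ≤ N.Z r S φ := by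
  unfold Z
  refine Pos.sum_nonneg (Pos.mul (Pos.mul ?_ (N.cvs_pos S)) hφ)
  exact Pos.prod _ _ fun e _ => N.th_pos (h0 e) (h1 e) e

end Net

end Vale.Agent.P145.FK
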