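import Vale.Agent.P145.FK.K1
import Vale.Agent.P145.Top.Stmt
import Vale.Agent.P145.Dom.BridgeC

/-!
P145: the input MONO of the block F-TOP.
-/

namespace Vale.Agent.P145.FK

open Finset Vale.Agent.P145.FP Vale.Agent.P145.Dom Vale.Agent.P145.Top
open scoped Classical

lemma posH_vh (v : ℤ × ℤ) : PosH (fun x => vh x v) := by
  have h := PosH.smul (c := 1 / 2) (by norm_num) (PosH.ht v)
  refine (congrArg PosH ?_).mp h
  funext x
  simp only [vh]
  ring

lemma posH_list (v : List (ℤ × ℤ)) : PosH (fun x => (v.map (vh x)).prod) := by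
  induction v with
  | nil => simpa using PosH.const 1 zero_le_one
  | cons a l ih => simpa only [List.map_cons, List.prod_cons] using PosH.mul (posH_vh a) ih

lemma neg_mem_ZH {F : Finset (ℤ × ℤ)} {x : Site → ℤ} (hx : x ∈ ZH F) : -x ∈ ZH F := by
  obtain ⟨h1, h2, h3⟩ := hx
  refine ⟨fun v => (h1 v).neg, fun f hf => ?_, fun f a b ha hb => ⟨fun hf => ?_, fun hf => ?_⟩⟩
  · show -x (.inr f) = 0
    rw [h2 f hf, neg_zero]
  · show -x (.inl (f.1 + a, f.2 + b)) = 0
    rw [(h3 f a b ha hb).1 hf, neg_zero]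
  · show |-x (.inr f) - -x (.inl (f.1 + a, f.2 + b))| = 1
    rw [← (h3 f a b ha hb).2 hf, ← abs_neg]
    congr 1
    ring

lemma zw_neg (c : ℝ) (F : Finset (ℤ × ℤ)) (x : Site → ℤ) : zw c F (-x) = zw c F x := by
  unfold zw
  simp only [Pi.neg_apply, neg_inj]

/-- Symmetry of the zero boundary law. -/
lemma zs_neg (c : ℝ) (F : Finset (ℤ × ℤ)) (Φ : (Site → ℤ) → ℝ) :
    zs c F (fun x => Φ (-x)) = zs c F Φ := by
  unfold zs
  refine finsum_mem_eq_of_bijOn (fun x => -x) ?_ ?_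
  · refine ⟨fun x hx => neg_mem_ZH hx, fun x _ y _ h => neg_injective h, fun x hx => ?_⟩
    exact ⟨-x, neg_mem_ZH hx, neg_neg x⟩
  · intro x _
    rw [zw_neg]

lemma zs_odd (c : ℝ) (F : Finset (ℤ × ℤ)) {Φ : (Site → ℤ) → ℝ} (h : ∀ x, Φ (-x) = -Φ x) :
    zs c F Φ = 0 := by
  have h1 := zs_neg c F Φ
  simp only [h] at h1
  have h2 : zs c F (fun x => -Φ x) = -zs c F Φ := by
    unfold zs
    simp only [mul_neg]
    exact finsum_mem_neg_distrib _ (ZH_finite F)
  rw [h2] at h1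
  linarith

theorem s_mono {c : ℝ} (hc : 1 ≤ c) : S_mono c := by
  intro F F' hF v
  refine ⟨ze_nonneg hc F (posH_list v), ze_mono hc hF (posH_list v), fun u => ?_⟩
  unfold ze
  rw [zs_odd c F (Φ := fun x => vh x u), zero_div]
  intro x
  simp only [vh, Pi.neg_apply]
  push_cast
  ring

end Vale.Agent.P145.FK
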