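import Vale.Agent.P145.FK.K1
import Vale.Agent.P145.FC.Plane2
import Vale.Agent.P145.FB.Space

/-!
P145, block K1: the incidence structure of a finite set of faces of the six-vertex lattice and its
zero boundary heights.
-/

namespace Vale.Agent.P145.FK

open Finset Vale.Agent.P145.FP Vale.Agent.P145.Dom
open Vale.Agent.P145.FA (Hgt)
open scoped Classical

/-- Even faces of `B`. -/
noncomputable def ev6 (B : Finset (ℤ × ℤ)) : Finset (ℤ × ℤ) := B.filter fun q => Even (q.1 + q.2)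
/-- Odd faces of `B`. -/
noncomputable def od6 (B : Finset (ℤ × ℤ)) : Finset (ℤ × ℤ) := B.filter fun q => ¬ Even (q.1 + q.2)

/-- Even faces of `B`. -/
abbrev V6 (B : Finset (ℤ × ℤ)) := {q // q ∈ ev6 B}
/-- Odd faces of `B`. -/
abbrev F6 (B : Finset (ℤ × ℤ)) := {q // q ∈ od6 B}
/-- Vertices with all their faces in `B`. -/
abbrev E6 (B : Finset (ℤ × ℤ)) := {w // w ∈ FC.VB B}

/-- Neighbouring faces. -/
def Adj (v f : ℤ × ℤ) : Prop :=
  (v.1 = f.1 ∧ (v.2 = f.2 + 1 ∨ f.2 = v.2 + 1)) ∨ (v.2 = f.2 ∧ (v.1 = f.1 + 1 ∨ f.1 = v.1 + 1))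

lemma e1_mem {B : Finset (ℤ × ℤ)} {w : ℤ × ℤ} (h : w ∈ FC.VB B) : FB.e1 w ∈ ev6 B := by
  simp only [FC.VB, Finset.mem_filter] at h
  unfold FB.e1 ev6
  split_ifs with hp
  · exact Finset.mem_filter.2 ⟨h.1, hp⟩
  · refine Finset.mem_filter.2 ⟨h.2.1, ?_⟩
    rw [Int.not_even_iff_odd] at hp
    show Even (w.1 - 1 + w.2)
    obtain ⟨k, hk⟩ := hp
    exact ⟨k, by omega⟩

lemma e2_mem {B : Finset (ℤ × ℤ)} {w : ℤ × ℤ} (h : w ∈ FC.VB B) : FB.e2 w ∈ ev6 B := by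
  simp only [FC.VB, Finset.mem_filter] at h
  unfold FB.e2 ev6
  split_ifs with hp
  · refine Finset.mem_filter.2 ⟨h.2.2.2, ?_⟩
    show Even (w.1 - 1 + (w.2 - 1))
    obtain ⟨k, hk⟩ := hp
    exact ⟨k - 1, by omega⟩
  · refine Finset.mem_filter.2 ⟨h.2.2.1, ?_⟩
    rw [Int.not_even_iff_odd] at hp
    show Even (w.1 + (w.2 - 1))
    obtain ⟨k, hk⟩ := hp
    exact ⟨k, by omega⟩

lemma o1_mem {B : Finset (ℤ × ℤ)} {w : ℤ × ℤ} (h : w ∈ FC.VB B) : FB.o1 w ∈ od6 B := by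
  simp only [FC.VB, Finset.mem_filter] at h
  unfold FB.o1 od6
  split_ifs with hp
  · refine Finset.mem_filter.2 ⟨h.2.1, ?_⟩
    rw [Int.not_even_iff_odd]
    show Odd (w.1 - 1 + w.2)
    obtain ⟨k, hk⟩ := hp
    exact ⟨k - 1, by omega⟩
  · exact Finset.mem_filter.2 ⟨h.1, hp⟩

lemma o2_mem {B : Finset (ℤ × ℤ)} {w : ℤ × ℤ} (h : w ∈ FC.VB B) : FB.o2 w ∈ od6 B := by
  simp only [FC.VB, Finset.mem_filter] at h
  unfold FB.o2 od6
  split_ifs with hp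
  · refine Finset.mem_filter.2 ⟨h.2.2.1, ?_⟩
    rw [Int.not_even_iff_odd]
    show Odd (w.1 + (w.2 - 1))
    obtain ⟨k, hk⟩ := hp
    exact ⟨k - 1, by omega⟩
  · refine Finset.mem_filter.2 ⟨h.2.2.2, ?_⟩
    show ¬ Even (w.1 - 1 + (w.2 - 1))
    rw [Int.not_even_iff_odd] at hp ⊢
    obtain ⟨k, hk⟩ := hp
    exact ⟨k - 1, by omega⟩

lemma adj_e1_o1 (w : ℤ × ℤ) : Adj (FB.e1 w) (FB.o1 w) := by
  unfold Adj FB.e1 FB.o1; split_ifs <;> simp
lemma adj_e1_o2 (w : ℤ × ℤ) : Adj (FB.e1 w) (FB.o2 w) := by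
  unfold Adj FB.e1 FB.o2; split_ifs <;> simp
lemma adj_e2_o1 (w : ℤ × ℤ) : Adj (FB.e2 w) (FB.o1 w) := by
  unfold Adj FB.e2 FB.o1; split_ifs <;> simp
lemma adj_e2_o2 (w : ℤ × ℤ) : Adj (FB.e2 w) (FB.o2 w) := by
  unfold Adj FB.e2 FB.o2; split_ifs <;> simp

/-- The incidence structure of the finite set `B` of faces. -/
noncomputable def n6 (B : Finset (ℤ × ℤ)) : Net (V6 B) (F6 B) (E6 B) where
  u w := ⟨FB.e1 w.1, e1_mem w.2⟩
  v w := ⟨FB.e2 w.1, e2_mem w.2⟩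
  f w := ⟨FB.o1 w.1, o1_mem w.2⟩
  g w := ⟨FB.o2 w.1, o2_mem w.2⟩
  inc v f := Adj v.1 f.1
  huf w := adj_e1_o1 w.1
  hug w := adj_e1_o2 w.1
  hvf w := adj_e2_o1 w.1
  hvg w := adj_e2_o2 w.1

/-- Extension by zero to all faces. -/
noncomputable def ex6 {B : Finset (ℤ × ℤ)} (y : V6 B ⊕ F6 B → ℤ) : Hgt := fun q =>
  if h : q ∈ ev6 B then y (.inl ⟨q, h⟩) else if h' : q ∈ od6 B then y (.inr ⟨q, h'⟩) else 0

lemma not_ev_of_od {B : Finset (ℤ × ℤ)} {q : ℤ × ℤ} (h : q ∈ od6 B) : q ∉ ev6 B := by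
  intro h'
  exact (Finset.mem_filter.1 h).2 (Finset.mem_filter.1 h').2

lemma ex6_inl {B : Finset (ℤ × ℤ)} (y : V6 B ⊕ F6 B → ℤ) (v : V6 B) : ex6 y v.1 = y (.inl v) := by
  unfold ex6
  rw [dif_pos v.2]

lemma ex6_inr {B : Finset (ℤ × ℤ)} (y : V6 B ⊕ F6 B → ℤ) (f : F6 B) : ex6 y f.1 = y (.inr f) := by
  unfold ex6
  rw [dif_neg (not_ev_of_od f.2), dif_pos f.2]

lemma mem_ev6 {B : Finset (ℤ × ℤ)} {q : ℤ × ℤ} : q ∈ ev6 B ↔ q ∈ B ∧ Even (q.1 + q.2) :=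
  Finset.mem_filter
lemma mem_od6 {B : Finset (ℤ × ℤ)} {q : ℤ × ℤ} : q ∈ od6 B ↔ q ∈ B ∧ ¬ Even (q.1 + q.2) :=
  Finset.mem_filter

lemma ex6_of_not {B : Finset (ℤ × ℤ)} (y : V6 B ⊕ F6 B → ℤ) {q : ℤ × ℤ} (h : q ∉ B) :
    ex6 y q = 0 := by
  unfold ex6
  rw [dif_neg fun h' => h (mem_ev6.1 h').1, dif_neg fun h' => h (mem_od6.1 h').1]

lemma ex6_inj {B : Finset (ℤ × ℤ)} : Function.Injective (ex6 (B := B)) := by
  intro y y' h
  funext i
  rcases i with v | f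
  · rw [← ex6_inl y, ← ex6_inl y', h]
  · rw [← ex6_inr y, ← ex6_inr y', h]

/-! ### The faces of the square lattice -/

lemma fc6_l (v : ℤ × ℤ) : fc (.inl v) = (v.1 - v.2, v.1 + v.2) := rfl
lemma fc6_r (f : ℤ × ℤ) : fc (.inr f) = (f.1 - f.2, f.1 + f.2 + 1) := rfl

lemma fc_inl_even (v : ℤ × ℤ) : Even ((fc (.inl v)).1 + (fc (.inl v)).2) := ⟨v.1, by
  simp only [fc6_l]; ring⟩

lemma fc_inr_odd (f : ℤ × ℤ) : ¬ Even ((fc (.inr f)).1 + (fc (.inr f)).2) := by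
  rw [Int.not_even_iff_odd]
  exact ⟨f.1, by simp only [fc6_r]; ring⟩

lemma fc_inj : Function.Injective fc := fun x y h => by rw [← cf_fc x, ← cf_fc y, h]

lemma adj_fc {v f : ℤ × ℤ} : Adj (fc (.inl v)) (fc (.inr f)) ↔ Cor v f := by
  unfold Adj Cor
  simp only [fc6_l, fc6_r]
  constructor
  · intro h
    refine ⟨v.1 - f.1, v.2 - f.2, by omega, by omega, by ext <;> simp⟩
  · rintro ⟨a, b, ha, hb, rfl⟩
    simp only
    omega

/-- Faces of the square lattice as odd faces of `B`. -/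
def in6 (B : Finset (ℤ × ℤ)) (F : Set (ℤ × ℤ)) : Set (F6 B) := {f | ∃ g ∈ F, fc (.inr g) = f.1}

/-- `B` contains `F` and all faces which touch `F`. -/
def Nb6 (B : Finset (ℤ × ℤ)) (F : Set (ℤ × ℤ)) : Prop :=
  ∀ f ∈ F, ∀ v, Cor v f → fc (.inl v) ∈ B ∧ ∀ f', Cor v f' → fc (.inr f') ∈ B

lemma Nb6.mem {B : Finset (ℤ × ℤ)} {F : Set (ℤ × ℤ)} (h : Nb6 B F) {f : ℤ × ℤ} (hf : f ∈ F) :
    fc (.inr f) ∈ B := (h f hf f (cor00 f)).2 f (cor00 f)

lemma Nb6.mono {B : Finset (ℤ × ℤ)} {F F' : Set (ℤ × ℤ)} (h : Nb6 B F') (hF : F ⊆ F') : Nb6 B F :=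
  fun f hf => h f (hF hf)

lemma mem_in6 {B : Finset (ℤ × ℤ)} {F : Set (ℤ × ℤ)} {f : ℤ × ℤ} (h : fc (.inr f) ∈ od6 B) :
    (⟨_, h⟩ : F6 B) ∈ in6 B F ↔ f ∈ F := by
  constructor
  · rintro ⟨g, hg, he⟩
    have he' : fc (.inr g) = fc (.inr f) := he
    have := fc_inj he'
    simp only [Sum.inr.injEq] at this
    rwa [← this]
  · intro hf
    exact ⟨f, hf, rfl⟩

lemma od6_fc {B : Finset (ℤ × ℤ)} {f : ℤ × ℤ} (h : fc (.inr f) ∈ B) : fc (.inr f) ∈ od6 B :=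
  mem_od6.2 ⟨h, fc_inr_odd f⟩

lemma ev6_fc {B : Finset (ℤ × ℤ)} {v : ℤ × ℤ} (h : fc (.inl v) ∈ B) : fc (.inl v) ∈ ev6 B :=
  mem_ev6.2 ⟨h, fc_inl_even v⟩

lemma exists_od {B : Finset (ℤ × ℤ)} (f : F6 B) : ∃ g, fc (.inr g) = f.1 := by
  have h := (mem_od6.1 f.2).2
  rw [Int.not_even_iff_odd] at h
  have h2 := fc_cf f.1
  rcases hc : cf f.1 with v | g
  · rw [hc] at h2
    exfalso
    rw [← h2] at h
    rw [← Int.not_even_iff_odd] at h
    exact h (fc_inl_even v)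
  · rw [hc] at h2
    exact ⟨g, h2⟩

lemma exists_ev {B : Finset (ℤ × ℤ)} (f : V6 B) : ∃ g, fc (.inl g) = f.1 := by
  have h := (mem_ev6.1 f.2).2
  have h2 := fc_cf f.1
  rcases hc : cf f.1 with v | g
  · rw [hc] at h2
    exact ⟨v, h2⟩
  · rw [hc] at h2
    exfalso
    rw [← h2] at h
    exact fc_inr_odd g h

/-- Zero boundary heights. -/
lemma HS6_iff {B F : Finset (ℤ × ℤ)} (hI : ∀ v : V6 B, ∃ f : F6 B, Adj v.1 f.1) (hB : Nb6 B F)
    (y : V6 B ⊕ F6 B → ℤ) :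
    (n6 B).HS (in6 B F) y ↔ (fun s => ex6 y (fc s)) ∈ ZH F := by
  constructor
  · rintro ⟨h1, h2, h3, h4⟩
    refine ⟨fun v => ?_, fun f hf => ?_, fun f a b ha hb => ⟨fun hf => ?_, fun hf => ?_⟩⟩
    · show Even (ex6 y (fc (.inl v)))
      by_cases hv : fc (.inl v) ∈ B
      · have := h3 ⟨_, ev6_fc hv⟩
        rwa [← ex6_inl y] at this
      · rw [ex6_of_not y hv]
        exact Even.zero
    · show ex6 y (fc (.inr f)) = 0
      by_cases hf' : fc (.inr f) ∈ B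
      · have := h2 ⟨_, od6_fc hf'⟩ (fun h => hf ((mem_in6 (od6_fc hf')).1 h))
        rwa [← ex6_inr y] at this
      · exact ex6_of_not y hf'
    · show ex6 y (fc (.inl (f.1 + a, f.2 + b))) = 0
      have hcor : Cor (f.1 + a, f.2 + b) f := ⟨a, b, ha, hb, rfl⟩
      by_cases hv : fc (.inl (f.1 + a, f.2 + b)) ∈ B
      · have h5 : (⟨_, ev6_fc hv⟩ : V6 B) ∉ (n6 B).UU (in6 B F) := by
          intro h'
          obtain ⟨f', hf'⟩ := hI ⟨_, ev6_fc hv⟩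
          obtain ⟨g, hgF, hg⟩ := h' f' hf'
          have hc : Cor (f.1 + a, f.2 + b) g := by
            rw [← adj_fc, hg]
            exact hf'
          have h6 : fc (.inr f) ∈ B := (hB g hgF _ hc).2 f hcor
          exact hf ((mem_in6 (od6_fc h6)).1 (h' ⟨_, od6_fc h6⟩ (adj_fc.2 hcor)))
        have := h1 _ h5
        rwa [← ex6_inl y] at this
      · exact ex6_of_not y hv
    · have hcor : Cor (f.1 + a, f.2 + b) f := ⟨a, b, ha, hb, rfl⟩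
      have hfB : fc (.inr f) ∈ B := hB.mem hf
      have hv : fc (.inl (f.1 + a, f.2 + b)) ∈ B := (hB f hf _ hcor).1
      have := h4 ⟨_, ev6_fc hv⟩ ⟨_, od6_fc hfB⟩ (adj_fc.2 hcor) ((mem_in6 (od6_fc hfB)).2 hf)
      rw [← ex6_inl y, ← ex6_inr y, abs_sub_comm] at this
      exact this
  · rintro ⟨h1, h2, h3⟩
    refine ⟨fun v hv => ?_, fun f hf => ?_, fun v => ?_, fun v f hvf hf => ?_⟩
    · have h' : ¬ ∀ f, (n6 B).inc v f → f ∈ in6 B F := hv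
      push Not at h'
      obtain ⟨f, hvf, hf⟩ := h'
      obtain ⟨g, hg⟩ := exists_od f
      obtain ⟨v', hv'⟩ := exists_ev v
      have hvf' : Adj v.1 f.1 := hvf
      rw [← hv', ← hg, adj_fc] at hvf'
      obtain ⟨a, b, ha, hb, hvv⟩ := hvf'
      have := (h3 g a b ha hb).1 (fun h => hf ⟨g, h, hg⟩)
      rw [← hvv] at this
      change ex6 y (fc (.inl v')) = 0 at this
      rw [hv', ex6_inl] at this
      exact this
    · obtain ⟨g, hg⟩ := exists_od f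
      have := h2 g (fun h => hf ⟨g, h, hg⟩)
      change ex6 y (fc (.inr g)) = 0 at this
      rw [hg, ex6_inr] at this
      exact this
    · obtain ⟨v', hv'⟩ := exists_ev v
      have := h1 v'
      change Even (ex6 y (fc (.inl v'))) at this
      rw [hv', ex6_inl] at this
      exact this
    · obtain ⟨g, hgF, hg⟩ := hf
      obtain ⟨v', hv'⟩ := exists_ev v
      have hvf' : Adj v.1 f.1 := hvf
      rw [← hv', ← hg, adj_fc] at hvf'
      obtain ⟨a, b, ha, hb, hvv⟩ := hvf'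
      have := (h3 g a b ha hb).2 hgF
      rw [← hvv] at this
      change |ex6 y (fc (.inr g)) - ex6 y (fc (.inl v'))| = 1 at this
      rw [hv', hg, ex6_inl, ex6_inr, abs_sub_comm] at this
      exact this


/-- The vertex of the six-vertex lattice in the middle of a horizontal edge. -/
def Hm (e : ℤ × ℤ) : ℤ × ℤ := (e.1 - e.2 + 1, e.1 + e.2 + 1)
/-- The vertex of the six-vertex lattice in the middle of a vertical edge. -/
def Vm (e : ℤ × ℤ) : ℤ × ℤ := (e.1 - e.2, e.1 + e.2 + 1)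

lemma Hm_even (e : ℤ × ℤ) : Even ((Hm e).1 + (Hm e).2) := ⟨e.1 + 1, by simp only [Hm]; ring⟩
lemma Vm_odd (e : ℤ × ℤ) : ¬ Even ((Vm e).1 + (Vm e).2) := by
  rw [Int.not_even_iff_odd]; exact ⟨e.1, by simp only [Vm]; ring⟩

lemma e1_Hm (e : ℤ × ℤ) : FB.e1 (Hm e) = fc (.inl (e.1 + 1, e.2)) := by
  rw [FB.e1, if_pos (Hm_even e)]
  simp only [Hm, fc6_l, fc6_r]; ext <;> simp only <;> ring
lemma e2_Hm (e : ℤ × ℤ) : FB.e2 (Hm e) = fc (.inl e) := by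
  rw [FB.e2, if_pos (Hm_even e)]
  simp only [Hm, fc6_l, fc6_r]; ext <;> simp only <;> ring
lemma o1_Hm (e : ℤ × ℤ) : FB.o1 (Hm e) = fc (.inr e) := by
  rw [FB.o1, if_pos (Hm_even e)]
  simp only [Hm, fc6_l, fc6_r]; ext <;> simp only <;> ring
lemma o2_Hm (e : ℤ × ℤ) : FB.o2 (Hm e) = fc (.inr (e.1, e.2 - 1)) := by
  rw [FB.o2, if_pos (Hm_even e)]
  simp only [Hm, fc6_l, fc6_r]; ext <;> simp only <;> ring
lemma e1_Vm (e : ℤ × ℤ) : FB.e1 (Vm e) = fc (.inl (e.1, e.2 + 1)) := by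
  rw [FB.e1, if_neg (Vm_odd e)]
  simp only [Vm, fc6_l, fc6_r]; ext <;> simp only <;> ring
lemma e2_Vm (e : ℤ × ℤ) : FB.e2 (Vm e) = fc (.inl e) := by
  rw [FB.e2, if_neg (Vm_odd e)]
  simp only [Vm, fc6_l, fc6_r]; ext <;> simp only <;> ring
lemma o1_Vm (e : ℤ × ℤ) : FB.o1 (Vm e) = fc (.inr e) := by
  rw [FB.o1, if_neg (Vm_odd e)]
  simp only [Vm, fc6_l, fc6_r]
lemma o2_Vm (e : ℤ × ℤ) : FB.o2 (Vm e) = fc (.inr (e.1 - 1, e.2)) := by
  rw [FB.o2, if_neg (Vm_odd e)]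
  simp only [Vm, fc6_l, fc6_r]; ext <;> simp only <;> ring

lemma mem_VB {B : Finset (ℤ × ℤ)} {w : ℤ × ℤ} : w ∈ FC.VB B ↔
    FB.e1 w ∈ B ∧ FB.e2 w ∈ B ∧ FB.o1 w ∈ B ∧ FB.o2 w ∈ B := by
  simp only [FC.VB, Finset.mem_filter, FB.e1, FB.e2, FB.o1, FB.o2]
  split_ifs <;> tauto

/-- Interior vertices. -/
def In6 (F : Set (ℤ × ℤ)) (w : ℤ × ℤ) : Prop :=
  (∃ g ∈ F, fc (.inr g) = FB.o1 w) ∧ ∃ g ∈ F, fc (.inr g) = FB.o2 w

lemma In6_iff {F : Set (ℤ × ℤ)} {w : ℤ × ℤ} : In6 F w ↔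
    (∃ e, w = Hm e ∧ e ∈ F ∧ (e.1, e.2 - 1) ∈ F) ∨ ∃ e, w = Vm e ∧ e ∈ F ∧ (e.1 - 1, e.2) ∈ F := by
  constructor
  · rintro ⟨⟨g, hg, h1⟩, ⟨g', hg', h2⟩⟩
    by_cases hp : Even (w.1 + w.2)
    · left
      rw [FB.o1, if_pos hp] at h1
      rw [FB.o2, if_pos hp] at h2
      simp only [fc6_l, fc6_r, Prod.mk.injEq] at h1 h2
      refine ⟨g, ?_, hg, ?_⟩
      · ext <;> simp only [Hm] <;> omega
      · have : g' = (g.1, g.2 - 1) := by ext <;> simp only <;> omega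
        rwa [← this]
    · right
      rw [FB.o1, if_neg hp] at h1
      rw [FB.o2, if_neg hp] at h2
      simp only [fc6_l, fc6_r, Prod.ext_iff] at h1 h2
      refine ⟨g, ?_, hg, ?_⟩
      · ext <;> simp only [Vm] <;> omega
      · have : g' = (g.1 - 1, g.2) := by ext <;> simp only <;> omega
        rwa [← this]
  · rintro (⟨e, rfl, h1, h2⟩ | ⟨e, rfl, h1, h2⟩)
    · exact ⟨⟨e, h1, (o1_Hm e).symm⟩, ⟨_, h2, (o2_Hm e).symm⟩⟩
    · exact ⟨⟨e, h1, (o1_Vm e).symm⟩, ⟨_, h2, (o2_Vm e).symm⟩⟩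

lemma inE_iff {B : Finset (ℤ × ℤ)} {F : Set (ℤ × ℤ)} (w : E6 B) :
    (n6 B).inE (in6 B F) w ↔ In6 F w.1 := Iff.rfl

lemma Hm_mem {B : Finset (ℤ × ℤ)} {F : Set (ℤ × ℤ)} (hB : Nb6 B F) {e : ℤ × ℤ} (he : e ∈ F) :
    Hm e ∈ FC.VB B := by
  rw [mem_VB, e1_Hm, e2_Hm, o1_Hm, o2_Hm]
  exact ⟨(hB e he _ (cor_h2 e)).1, (hB e he _ (cor00 e)).1, hB.mem he,
    (hB e he _ (cor00 e)).2 _ (cor_h1 e)⟩

lemma Vm_mem {B : Finset (ℤ × ℤ)} {F : Set (ℤ × ℤ)} (hB : Nb6 B F) {e : ℤ × ℤ} (he : e ∈ F) :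
    Vm e ∈ FC.VB B := by
  rw [mem_VB, e1_Vm, e2_Vm, o1_Vm, o2_Vm]
  exact ⟨(hB e he _ (cor_v2 e)).1, (hB e he _ (cor00 e)).1, hB.mem he,
    (hB e he _ (cor00 e)).2 _ (cor_v1 e)⟩

lemma In6_mem {B : Finset (ℤ × ℤ)} {F : Set (ℤ × ℤ)} (hB : Nb6 B F) {w : ℤ × ℤ} (hw : In6 F w) :
    w ∈ FC.VB B := by
  rcases In6_iff.1 hw with ⟨e, rfl, h, _⟩ | ⟨e, rfl, h, _⟩
  · exact Hm_mem hB h
  · exact Vm_mem hB h

lemma Hm_inj : Function.Injective Hm := by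
  intro e e' h
  simp only [Hm, Prod.mk.injEq] at h
  ext <;> omega

lemma Vm_inj : Function.Injective Vm := by
  intro e e' h
  simp only [Vm, Prod.mk.injEq] at h
  ext <;> omega

/-- A product over the interior vertices. -/
lemma prod_In6 {B F : Finset (ℤ × ℤ)} (hB : Nb6 B F) (ψ : ℤ × ℤ → ℝ)
    (hψ : ∀ w, ¬ In6 (F : Set (ℤ × ℤ)) w → ψ w = 1) :
    ∏ w : E6 B, ψ w.1 = (∏ e ∈ F with e - (0, 1) ∈ F, ψ (Hm e)) *
      ∏ e ∈ F with e - (1, 0) ∈ F, ψ (Vm e) := by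
  rw [Finset.prod_coe_sort (FC.VB B) ψ]
  have h01 : ∀ e : ℤ × ℤ, e - (0, 1) = (e.1, e.2 - 1) := fun e => by ext <;> simp
  have h10 : ∀ e : ℤ × ℤ, e - (1, 0) = (e.1 - 1, e.2) := fun e => by ext <;> simp
  have hd : Disjoint ((F.filter fun e => e - (0, 1) ∈ F).image Hm)
      ((F.filter fun e => e - (1, 0) ∈ F).image Vm) := by
    rw [Finset.disjoint_left]
    intro w h1 h2
    obtain ⟨e, _, rfl⟩ := Finset.mem_image.1 h1
    obtain ⟨e', _, he'⟩ := Finset.mem_image.1 h2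
    exact Vm_odd e' (he' ▸ Hm_even e)
  rw [← Finset.prod_image (f := ψ) (g := Hm) (fun x _ y _ h => Hm_inj h),
    ← Finset.prod_image (f := ψ) (g := Vm) (fun x _ y _ h => Vm_inj h), ← Finset.prod_union hd]
  symm
  refine Finset.prod_subset ?_ ?_
  · intro w hw
    rcases Finset.mem_union.1 hw with h | h
    · obtain ⟨e, he, rfl⟩ := Finset.mem_image.1 h
      exact Hm_mem hB (Finset.mem_filter.1 he).1
    · obtain ⟨e, he, rfl⟩ := Finset.mem_image.1 h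
      exact Vm_mem hB (Finset.mem_filter.1 he).1
  · intro w _ hw
    refine hψ w fun h => hw ?_
    rcases In6_iff.1 h with ⟨e, rfl, h1, h2⟩ | ⟨e, rfl, h1, h2⟩
    · refine Finset.mem_union_left _ (Finset.mem_image_of_mem _ (Finset.mem_filter.2 ⟨h1, ?_⟩))
      rw [h01]; exact h2
    · refine Finset.mem_union_right _ (Finset.mem_image_of_mem _ (Finset.mem_filter.2 ⟨h1, ?_⟩))
      rw [h10]; exact h2

/-- The vertex weight. -/
noncomputable def vw6 (c : ℝ) (η : Hgt) (w : ℤ × ℤ) : ℝ :=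
  if η (FB.e1 w) = η (FB.e2 w) ∧ η (FB.o1 w) = η (FB.o2 w) then c else 1

lemma hw6_eq' {B : Finset (ℤ × ℤ)} (c : ℝ) (S : Set (F6 B)) (y : V6 B ⊕ F6 B → ℤ) :
    (n6 B).hw c S y = ∏ w : E6 B, if (n6 B).inE S w then vw6 c (ex6 y) w.1 else 1 := by
  unfold Net.hw vw6
  refine Finset.prod_congr rfl fun w _ => ?_
  rw [← ex6_inl y ((n6 B).u w), ← ex6_inl y ((n6 B).v w), ← ex6_inr y ((n6 B).f w),
    ← ex6_inr y ((n6 B).g w)]
  rfl

lemma hw6_eq {B F : Finset (ℤ × ℤ)} (hB : Nb6 B F) (c : ℝ) (y : V6 B ⊕ F6 B → ℤ) :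
    (n6 B).hw c (in6 B F) y = zw c F (fun s => ex6 y (fc s)) := by
  rw [hw6_eq']
  have e1 : ∏ w : E6 B, (if (n6 B).inE (in6 B F) w then vw6 c (ex6 y) w.1 else 1)
      = ∏ w : E6 B, (fun w : ℤ × ℤ => if In6 (F : Set (ℤ × ℤ)) w then vw6 c (ex6 y) w else 1) w.1 :=
    rfl
  rw [e1, prod_In6 hB _ (fun w hw => if_neg hw)]
  have h01 : ∀ e : ℤ × ℤ, e - (0, 1) = (e.1, e.2 - 1) := fun e => by ext <;> simp
  have h10 : ∀ e : ℤ × ℤ, e - (1, 0) = (e.1 - 1, e.2) := fun e => by ext <;> simp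
  unfold zw
  congr 1
  · refine Finset.prod_congr rfl fun e he => ?_
    obtain ⟨h1, h2⟩ := Finset.mem_filter.1 he
    rw [h01] at h2
    simp only
    rw [if_pos (In6_iff.2 (Or.inl ⟨e, rfl, h1, h2⟩)), vw6, e1_Hm, e2_Hm, o1_Hm, o2_Hm]
    simp only [eq_comm]
  · refine Finset.prod_congr rfl fun e he => ?_
    obtain ⟨h1, h2⟩ := Finset.mem_filter.1 he
    rw [h10] at h2
    simp only
    rw [if_pos (In6_iff.2 (Or.inr ⟨e, rfl, h1, h2⟩)), vw6, e1_Vm, e2_Vm, o1_Vm, o2_Vm]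
    simp only [eq_comm]

/-- `B` is a domain in which every even face has a neighbour. -/
def NI (B : Finset (ℤ × ℤ)) : Prop := ∀ v : V6 B, ∃ f : F6 B, Adj v.1 f.1

/-- The sum over the zero boundary heights as a finite sum. -/
lemma zs6_eq {B F : Finset (ℤ × ℤ)} (hI : NI B) (hB : Nb6 B F) {K : ℕ} (hK : KF F ≤ K) (c : ℝ)
    (Φ : (Site → ℤ) → ℝ) :
    zs c F Φ = ∑ y ∈ Net.TTs (V := V6 B) K (in6 B F),
      (if (n6 B).HS (in6 B F) y then (n6 B).hw c (in6 B F) y else 0) *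
        Φ (fun s => ex6 y (fc s)) := by
  have hinj : Function.Injective (fun (y : V6 B ⊕ F6 B → ℤ) (s : Site) => ex6 y (fc s)) := by
    intro y y' h
    apply ex6_inj
    funext q
    have := congrFun h (cf q)
    simpa only [fc_cf] using this
  unfold zs
  rw [finsum_mem_def, finsum_eq_sum_of_support_subset
    (s := (Net.TTs (V := V6 B) K (in6 B F)).image fun (y : V6 B ⊕ F6 B → ℤ) (s : Site) =>
      ex6 y (fc s))]
  · rw [Finset.sum_image (fun p _ q _ h => hinj h)]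
    refine Finset.sum_congr rfl fun y _ => ?_
    by_cases h : (n6 B).HS (in6 B F) y
    · rw [Set.indicator_of_mem ((HS6_iff hI hB y).mp h), if_pos h, hw6_eq hB]
    · rw [Set.indicator_of_notMem (fun h' => h ((HS6_iff hI hB y).mpr h')), if_neg h, zero_mul]
  · intro x hx
    have hxZ : x ∈ ZH F := by
      by_contra h
      exact hx (Set.indicator_of_notMem h _)
    rw [Finset.coe_image, Set.mem_image]
    set y : V6 B ⊕ F6 B → ℤ := Sum.elim (fun q => x (cf q.1)) (fun q => x (cf q.1)) with hy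
    have hxy : (fun s => ex6 y (fc s)) = x := by
      funext s
      by_cases hs : fc s ∈ B
      · rcases s with v | f
        · have := ex6_inl y ⟨_, ev6_fc hs⟩
          rw [this]
          show x (cf (fc (.inl v))) = _
          rw [cf_fc]
        · have := ex6_inr y ⟨_, od6_fc hs⟩
          rw [this]
          show x (cf (fc (.inr f))) = _
          rw [cf_fc]
      · rw [ex6_of_not y hs]
        rcases s with v | f
        · have hvB : v ∉ F := fun h => hs (hB v h v (cor00 v)).1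
          have h1 := (hxZ.2.2 v 0 0 (Or.inl rfl) (Or.inl rfl)).1 hvB
          have e5 : ((v.1 + 0, v.2 + 0) : ℤ × ℤ) = v := by simp
          rw [e5] at h1
          exact h1.symm
        · exact (hxZ.2.1 f fun h => hs (hB.mem h)).symm
    refine ⟨y, ?_, hxy⟩
    rw [Finset.mem_coe, Net.mem_TTs]
    obtain ⟨b1, b2⟩ := ZH_bound hxZ
    have hK' : (KF F : ℤ) ≤ K := by exact_mod_cast hK
    intro i
    rcases i with q | q
    · obtain ⟨v, hv⟩ := exists_ev q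
      have e1 : y (.inl q) = x (.inl v) := by
        show x (cf q.1) = _
        rw [← hv, cf_fc]
      rw [e1]
      refine Net.mem_TT_inl (hxZ.1 v) ?_
      have := b1 v
      linarith
    · obtain ⟨f, hf⟩ := exists_od q
      have e1 : y (.inr q) = x (.inr f) := by
        show x (cf q.1) = _
        rw [← hf, cf_fc]
      rw [e1]
      by_cases hfF : f ∈ F
      · refine Net.mem_TT_inr (show q ∈ in6 B F from ⟨f, hfF, hf⟩) ?_ ?_
        · have h1 := (hxZ.2.2 f 0 0 (Or.inl rfl) (Or.inl rfl)).2 hfF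
          obtain ⟨j, hj⟩ := hxZ.1 (f.1 + 0, f.2 + 0)
          rcases (abs_eq (by norm_num)).mp h1 with h2 | h2
          · exact ⟨j, by omega⟩
          · exact ⟨j - 1, by omega⟩
        · have := b2 f
          linarith
      · refine Net.mem_TT_out (fun h => hfF ?_) (hxZ.2.1 f hfF)
        obtain ⟨g, hg, hge⟩ := h
        rw [← hf] at hge
        have := fc_inj hge
        simp only [Sum.inr.injEq] at this
        rwa [← this]

/-- The square of faces. -/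
noncomputable def Sq (n : ℕ) : Finset (ℤ × ℤ) := Finset.Icc (-(n : ℤ)) n ×ˢ Finset.Icc (-(n : ℤ)) n

lemma mem_Sq {n : ℕ} {q : ℤ × ℤ} : q ∈ Sq n ↔ |q.1| ≤ n ∧ |q.2| ≤ n := by
  unfold Sq
  rw [Finset.mem_product, Finset.mem_Icc, Finset.mem_Icc, abs_le, abs_le]

end Vale.Agent.P145.FK
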