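import Vale.Agent.P145.FK.Explore
import Vale.Agent.P145.FK.Fiber
import Vale.Agent.P145.FC.Explore

/-!
P145, block K1: from magnitudes and signs to sums over signed heights with zero boundary
conditions, in the format of `FC.Explore`.
-/

namespace Vale.Agent.P145.FK

open Finset
open scoped Classical

namespace Net

variable {V F E : Type*} {K : ℕ}

/-- The incidence structure in the format of `FC`. -/
def toInc (N : Net V F E) : FC.Inc V F E :=
  ⟨N.u, N.v, N.f, N.g, N.inc, N.huf, N.hug, N.hvf, N.hvg⟩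

/-- The sign of a Boolean. -/
def sg (b : Bool) : ℤ := if b then -1 else 1

/-- Even sites inside `S`. -/
def UU (N : Net V F E) (S : Set F) : Set V := {v | ∀ f, N.inc v f → f ∈ S}

/-- Signed height of a site (zero at the odd sites outside `S`). -/
noncomputable def pv (S : Set F) (i : V ⊕ F) (p : Fin (K + 1) × Bool) : ℤ :=
  Sum.elim (fun _ => sg p.2 * (2 * ((p.1 : ℕ) : ℤ)))
    (fun f => if f ∈ S then sg p.2 * (2 * ((p.1 : ℕ) : ℤ) + 1) else 0) i

/-- Signed configuration. -/
noncomputable def img (N : Net V F E) (S : Set F) (x : Cfg V F E K) (s : V ⊕ F → Bool) :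
    FC.Cf V F E where
  h := fun v => pv (V := V) S (.inl v) (x.1 (.inl v), s (.inl v))
  k := fun f => pv (V := V) S (.inr f) (x.1 (.inr f), s (.inr f))
  w := fun e => decide (N.inE S e ∧ ¬ N.blocked x e)

/-- On-site weights of the six-vertex model. -/
noncomputable def κ6 (i : V ⊕ F) (a : Fin (K + 1)) : ℝ :=
  Sum.elim (fun _ => if (a : ℕ) = 0 then 1 / 2 else 1) (fun _ => 1) i

/-- Weights of closed and open medial vertices. -/
noncomputable def β6 (t : ℝ) (_ : E) (b : Bool) : ℝ := if b then 1 - t else t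

lemma κ6_nonneg (i : V ⊕ F) (a : Fin (K + 1)) : 0 ≤ κ6 i a := by
  rcases i with v | f
  · simp only [κ6, Sum.elim_inl]
    split_ifs <;> norm_num
  · simp [κ6]

lemma κ6_pos (i : V ⊕ F) (a : Fin (K + 1)) : 0 < κ6 i a := by
  rcases i with v | f
  · simp only [κ6, Sum.elim_inl]
    split_ifs <;> norm_num
  · simp [κ6]

lemma β6_nonneg {t : ℝ} (h0 : 0 ≤ t) (h1 : t ≤ 1) (e : E) (b : Bool) : 0 ≤ β6 t e b := by
  cases b
  · simpa [β6] using h0
  · simpa [β6] using h1

lemma β6_pos {t : ℝ} (h0 : 0 < t) (e : E) : 0 < β6 t e false := by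
  simpa [β6] using h0

lemma sg_cases (b : Bool) : sg b = 1 ∨ sg b = -1 := by cases b <;> simp [sg]

/-- Site weights with the zero boundary condition. -/
noncomputable def cS (N : Net V F E) (S : Set F) (i : V ⊕ F) (z : Fin (K + 1) × Bool) : ℝ :=
  κ6 i z.1 * (if N.inD S i then 1 else if (z.1 : ℕ) = 0 then 1 else 0)

lemma sum_even (y : ℤ) (c : Fin (K + 1) → ℝ) (hc0 : c 0 = 1 / 2)
    (hc : ∀ a : Fin (K + 1), (a : ℕ) ≠ 0 → c a = 1)
    (hy : ∃ z : Fin (K + 1) × Bool, sg z.2 * (2 * ((z.1 : ℕ) : ℤ)) = y) :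
    ∑ z ∈ Finset.univ.filter (fun z : Fin (K + 1) × Bool =>
      sg z.2 * (2 * ((z.1 : ℕ) : ℤ)) = y), c z.1 = 1 := by
  obtain ⟨⟨a0, s0⟩, h0⟩ := hy
  simp only at h0
  by_cases ha : (a0 : ℕ) = 0
  · have hy0 : y = 0 := by rw [← h0, ha]; simp
    have : Finset.univ.filter (fun z : Fin (K + 1) × Bool =>
        sg z.2 * (2 * ((z.1 : ℕ) : ℤ)) = y) = {((0 : Fin (K + 1)), true), ((0 : Fin (K + 1)), false)} := by
      ext ⟨a, s⟩
      simp only [Finset.mem_filter, Finset.mem_univ, true_and, Finset.mem_insert,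
        Finset.mem_singleton, Prod.mk.injEq, hy0]
      constructor
      · intro h
        have h1 : (a : ℕ) = 0 := by
          rcases sg_cases s with hs | hs <;> rw [hs] at h <;> omega
        have h2 : a = 0 := Fin.ext (by simpa using h1)
        cases s
        · right; exact ⟨h2, rfl⟩
        · left; exact ⟨h2, rfl⟩
      · rintro (⟨rfl, rfl⟩ | ⟨rfl, rfl⟩) <;> simp
    rw [this, Finset.sum_pair (by simp)]
    simp only [hc0]
    norm_num
  · have : Finset.univ.filter (fun z : Fin (K + 1) × Bool =>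
        sg z.2 * (2 * ((z.1 : ℕ) : ℤ)) = y) = {(a0, s0)} := by
      ext ⟨a, s⟩
      simp only [Finset.mem_filter, Finset.mem_univ, true_and,
        Finset.mem_singleton, Prod.mk.injEq]
      constructor
      · intro h
        rw [← h0] at h
        have h1 : (a : ℕ) = a0 ∧ s = s0 := by
          cases s <;> cases s0 <;> simp only [sg] at h <;>
            simp only [and_true, reduceCtorEq, and_false] <;> simp at h <;> omega
        exact ⟨Fin.ext h1.1, h1.2⟩
      · rintro ⟨rfl, rfl⟩
        exact h0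
    rw [this, Finset.sum_singleton]
    exact hc _ ha

lemma sum_odd (y : ℤ)
    (hy : ∃ z : Fin (K + 1) × Bool, sg z.2 * (2 * ((z.1 : ℕ) : ℤ) + 1) = y) :
    ∑ z ∈ Finset.univ.filter (fun z : Fin (K + 1) × Bool =>
      sg z.2 * (2 * ((z.1 : ℕ) : ℤ) + 1) = y), (1 : ℝ) = 1 := by
  obtain ⟨⟨a0, s0⟩, h0⟩ := hy
  simp only at h0
  have : Finset.univ.filter (fun z : Fin (K + 1) × Bool =>
      sg z.2 * (2 * ((z.1 : ℕ) : ℤ) + 1) = y) = {(a0, s0)} := by
    ext ⟨a, s⟩
    simp only [Finset.mem_filter, Finset.mem_univ, true_and,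
      Finset.mem_singleton, Prod.mk.injEq]
    constructor
    · intro h
      rw [← h0] at h
      have h1 : (a : ℕ) = a0 ∧ s = s0 := by
        cases s <;> cases s0 <;> simp only [sg] at h <;>
          simp only [and_true, reduceCtorEq, and_false] <;> simp at h <;> omega
      exact ⟨Fin.ext h1.1, h1.2⟩
    · rintro ⟨rfl, rfl⟩
      exact h0
  rw [this, Finset.sum_singleton]

/-- The fibre weights of the sites. -/
lemma d_site (N : Net V F E) (S : Set F) (i : V ⊕ F) (y : ℤ)
    (hy : ∃ z : Fin (K + 1) × Bool, pv S i z = y) (h0 : ¬ N.inD S i → y = 0) :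
    ∑ z ∈ Finset.univ.filter (fun z : Fin (K + 1) × Bool => pv S i z = y), N.cS S i z
      = Sum.elim (fun _ => 1) (fun f => if f ∈ S then 1 else 2) i := by
  rcases i with v | f
  · simp only [pv, Sum.elim_inl] at hy ⊢
    by_cases hv : N.inD S (.inl v)
    · refine Eq.trans (Finset.sum_congr rfl fun z _ => ?_) (sum_even (K := K) y
        (fun a => κ6 (V := V) (F := F) (.inl v) a) (by simp [κ6])
        (fun a ha => by simp only [κ6, Sum.elim_inl, if_neg ha]) hy)
      simp [cS, hv]
    · have hy0 := h0 hv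
      refine Eq.trans (Finset.sum_congr rfl fun z hz => ?_) (sum_even (K := K) y
        (fun a => κ6 (V := V) (F := F) (.inl v) a) (by simp [κ6])
        (fun a ha => by simp only [κ6, Sum.elim_inl, if_neg ha]) hy)
      have hz' := (Finset.mem_filter.mp hz).2
      rw [hy0] at hz'
      have h1 : (z.1 : ℕ) = 0 := by
        rcases sg_cases z.2 with hs | hs <;> rw [hs] at hz' <;> omega
      simp [cS, h1]
  · simp only [pv, Sum.elim_inr] at hy ⊢
    by_cases hf : f ∈ S
    · have hf' : N.inD S (.inr f) := hf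
      simp only [if_pos hf] at hy ⊢
      refine Eq.trans (Finset.sum_congr rfl fun z _ => ?_) (sum_odd (K := K) y hy)
      simp [cS, κ6, hf']
    · have hf' : ¬ N.inD S (.inr f) := hf
      have hy0 := h0 hf'
      simp only [if_neg hf] at hy ⊢
      have e1 : Finset.univ.filter (fun _ : Fin (K + 1) × Bool => (0 : ℤ) = y) = Finset.univ := by
        ext z; simp [hy0]
      rw [e1, Fintype.sum_prod_type]
      simp only [cS, κ6, Sum.elim_inr, if_neg hf', one_mul, Fintype.sum_bool]
      rw [Fin.sum_univ_succ]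
      simp
      norm_num

section
variable [Fintype V] [Fintype F] [Fintype E]

/-- Signed configuration from heights and edge variables. -/
def toCf (y : V ⊕ F → ℤ) (w : E → Bool) : FC.Cf V F E := ⟨fun v => y (.inl v), fun f => y (.inr f), w⟩

/-- The edge variable of `FC`. -/
noncomputable def pe (N : Net V F E) (S : Set F) (z0 : E → Prop) (e : E) (b : Bool) : Bool :=
  decide (N.inE S e ∧ ¬ (z0 e ∧ b = false))

omit [Fintype V] [Fintype F] [Fintype E] in
lemma pe_true {N : Net V F E} {S : Set F} {z0 : E → Prop} {e : E} {b : Bool} :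
    N.pe S z0 e b = true ↔ N.inE S e ∧ ¬ (z0 e ∧ b = false) := by
  unfold pe
  exact decide_eq_true_iff

omit [Fintype V] [Fintype F] [Fintype E] in
lemma img_w_true {N : Net V F E} {S : Set F} {x : Cfg V F E K} {s : V ⊕ F → Bool} {e : E} :
    (N.img S x s).w e = true ↔ N.inE S e ∧ ¬ N.blocked x e := by
  unfold img
  exact decide_eq_true_iff

/-- Edge weights with the zero boundary condition. -/
noncomputable def cE (N : Net V F E) (t : ℝ) (S : Set F) (s : V ⊕ F → Bool) (e : E) (b : Bool) : ℝ :=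
  β6 t e b * (if b = true then N.th 0 e s else 1) *
    (if N.inE S e then 1 else if b = false then 1 else 0)

omit [Fintype V] [Fintype F] [Fintype E] in
/-- The fibre weights of the medial vertices. -/
lemma d_edge (N : Net V F E) (t : ℝ) (S : Set F) (z0 : E → Prop) (s : V ⊕ F → Bool) (e : E)
    (b : Bool) :
    ∑ z ∈ Finset.univ.filter (fun z : Bool => N.pe S z0 e z = b), N.cE t S s e z
      = if N.inE S e then
          (if z0 e then (if b = true then (1 - t) * N.th 0 e s else t)
            else (if b = true then (1 - t) * N.th 0 e s + t else 0))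
        else (if b = true then 0 else t) := by
  rw [Finset.sum_filter, Fintype.sum_bool]
  by_cases h1 : N.inE S e
  · by_cases h2 : z0 e
    · cases b <;> simp [pe, cE, β6, h1, h2]
    · cases b <;> simp [pe, cE, β6, h1, h2]
  · cases b <;> simp [pe, cE, β6, h1]

/-- The weight of a signed configuration, zero if it is not admissible. -/
noncomputable def Φ (N : Net V F E) (t : ℝ) (S : Set F) (y : FC.Cf V F E) : ℝ :=
  if y ∈ FC.Cfg N.toInc (N.UU S) S then FC.wt N.toInc t⁻¹ S y else 0

omit [Fintype V] [Fintype E] in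
lemma cv_eq_one {N : Net V F E} {v : V} {s : V ⊕ F → Bool} :
    N.cv v s = 1 ↔ ∀ f, N.inc v f → s (.inl v) = s (.inr f) := by
  constructor
  · intro h f hf
    by_contra hne
    have h0 : N.cv v s = 0 := by
      unfold cv
      refine Finset.prod_eq_zero (i := f) (by simp [hf]) ?_
      unfold pr
      revert hne
      cases s (.inl v) <;> cases s (.inr f) <;> norm_num
    rw [h0] at h
    norm_num at h
  · intro h
    unfold cv
    refine Finset.prod_eq_one fun f hf => ?_
    have h1 := h f (Finset.mem_filter.mp hf).2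
    unfold pr
    rw [h1]
    cases s (.inr f) <;> norm_num

omit [Fintype V] [Fintype E] in
/-- The pair constraints in terms of the signed heights. -/
lemma pair_iff (N : Net V F E) (S : Set F) (a : V ⊕ F → Fin (K + 1)) (s : V ⊕ F → Bool)
    (ha : ∀ i, ¬ N.inD S i → (a i : ℕ) = 0) :
    (N.adm a ∧ ∀ v, (a (.inl v) : ℕ) ≠ 0 → N.cv v s = 1) ↔
      ∀ v f, N.inc v f → f ∈ S →
        |pv (V := V) S (.inl v) (a (.inl v), s (.inl v)) -
          pv (V := V) S (.inr f) (a (.inr f), s (.inr f))| = 1 := by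
  constructor
  · rintro ⟨h1, h2⟩ v f hvf hf
    simp only [pv, Sum.elim_inl, Sum.elim_inr, if_pos hf]
    have h3 := h1 v f hvf
    by_cases h0 : (a (.inl v) : ℕ) = 0
    · have h4 : (a (.inr f) : ℕ) = 0 := by omega
      rw [h0, h4]
      rcases sg_cases (s (.inr f)) with hs | hs <;> rw [hs] <;> simp
    · have h4 := cv_eq_one.mp (h2 v h0) f hvf
      rw [h4]
      rcases sg_cases (s (.inr f)) with hs | hs <;> rw [hs] <;> rcases h3 with h3 | h3 <;>
        rw [abs_eq (by norm_num)] <;> omega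
  · intro h
    constructor
    · intro v f hvf
      by_cases hf : f ∈ S
      · have h3 := h v f hvf hf
        simp only [pv, Sum.elim_inl, Sum.elim_inr, if_pos hf] at h3
        rw [abs_eq (by norm_num)] at h3
        rcases sg_cases (s (.inr f)) with hs | hs <;> rcases sg_cases (s (.inl v)) with hs' | hs' <;>
          rw [hs, hs'] at h3 <;> omega
      · have hv : ¬ N.inD S (.inl v) := fun h' => hf (h' f hvf)
        have h1 := ha _ hv
        have h2 := ha (.inr f) hf
        left
        rw [h1, h2]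
    · intro v hv
      rw [cv_eq_one]
      intro f hvf
      have hf : f ∈ S := by
        by_contra hf
        exact hv (ha _ fun h' => hf (h' f hvf))
      have h3 := h v f hvf hf
      simp only [pv, Sum.elim_inl, Sum.elim_inr, if_pos hf] at h3
      rw [abs_eq (by norm_num)] at h3
      cases hs : s (.inl v) <;> cases hs' : s (.inr f) <;> simp only [hs, hs', sg] at h3 ⊢ <;>
        simp at h3 <;> omega

omit [Fintype V] [Fintype E] in
/-- The identity at a medial vertex. -/
lemma edge_id (N : Net V F E) {t : ℝ} (ht : 0 < t) (S : Set F) (a : V ⊕ F → Fin (K + 1))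
    (s : V ⊕ F → Bool) (ha : ∀ i, ¬ N.inD S i → (a i : ℕ) = 0) (had : N.adm a)
    (hcv : ∀ v, (a (.inl v) : ℕ) ≠ 0 → N.cv v s = 1) (w : E → Bool) (e : E) :
    N.wE t a e * (if N.inE S e then
          (if (a (.inl (N.u e)) : ℕ) = 0 ∧ (a (.inl (N.v e)) : ℕ) = 0
            then (if w e = true then (1 - t) * N.th 0 e s else t)
            else (if w e = true then (1 - t) * N.th 0 e s + t else 0))
        else (if w e = true then 0 else t))
      = t * (if N.inE S e then
          (if w e = false ∧ ¬ ((a (.inl (N.u e)) : ℕ) = 0 ∧ (a (.inl (N.v e)) : ℕ) = 0) then 0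
            else FC.ew N.toInc t⁻¹ (toCf (fun i => pv (V := V) S i (a i, s i)) w) e)
          else (if w e = true then 0 else 1)) := by
  have m1 := had _ _ (N.huf e)
  have m2 := had _ _ (N.hug e)
  have m3 := had _ _ (N.hvf e)
  have m4 := had _ _ (N.hvg e)
  by_cases hE : N.inE S e
  · rw [if_pos hE, if_pos hE]
    have hfS : N.f e ∈ S := hE.1
    have hgS : N.g e ∈ S := hE.2
    have hew : FC.ew N.toInc t⁻¹ (toCf (fun i => pv (V := V) S i (a i, s i)) w) e
        = if (sg (s (.inl (N.u e))) * (2 * ((a (.inl (N.u e)) : ℕ) : ℤ)) = 0 ∧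
            sg (s (.inl (N.v e))) * (2 * ((a (.inl (N.v e)) : ℕ) : ℤ)) = 0) then
          (if w e = true then (if sg (s (.inr (N.f e))) * (2 * ((a (.inr (N.f e)) : ℕ) : ℤ) + 1)
            = sg (s (.inr (N.g e))) * (2 * ((a (.inr (N.g e)) : ℕ) : ℤ) + 1) then t⁻¹ - 1 else 0)
            else 1)
          else (if sg (s (.inl (N.u e))) * (2 * ((a (.inl (N.u e)) : ℕ) : ℤ)) =
            sg (s (.inl (N.v e))) * (2 * ((a (.inl (N.v e)) : ℕ) : ℤ)) ∧
            sg (s (.inr (N.f e))) * (2 * ((a (.inr (N.f e)) : ℕ) : ℤ) + 1)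
            = sg (s (.inr (N.g e))) * (2 * ((a (.inr (N.g e)) : ℕ) : ℤ) + 1) then t⁻¹ else 1) := by
      simp only [FC.ew, toInc, toCf, pv, Sum.elim_inl, Sum.elim_inr, if_pos hfS, if_pos hgS]
    rw [hew]
    by_cases hz : (a (.inl (N.u e)) : ℕ) = 0 ∧ (a (.inl (N.v e)) : ℕ) = 0
    · have hf0 : (a (.inr (N.f e)) : ℕ) = 0 := by omega
      have hg0 : (a (.inr (N.g e)) : ℕ) = 0 := by omega
      have hwE : N.wE t a e = 1 := by
        unfold wE
        rw [if_pos]
        omega
      rw [if_pos hz, hwE, hz.1, hz.2, hf0, hg0]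
      simp only [not_true_eq_false, and_false, if_false, Nat.cast_zero, mul_zero, and_self,
        if_true, zero_add, mul_one, one_mul]
      cases hw : w e
      · simp
      · simp only [if_true, th, pr]
        have hti : t * (t⁻¹ - 1) = 1 - t := by
          rw [mul_sub, mul_inv_cancel₀ ht.ne', mul_one]
        cases s (.inr (N.f e)) <;> cases s (.inr (N.g e)) <;> simp [sg, hti] <;> norm_num
    · have hzz : ¬ (sg (s (.inl (N.u e))) * (2 * ((a (.inl (N.u e)) : ℕ) : ℤ)) = 0 ∧
            sg (s (.inl (N.v e))) * (2 * ((a (.inl (N.v e)) : ℕ) : ℤ)) = 0) := by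
        intro h
        apply hz
        rcases sg_cases (s (.inl (N.u e))) with hs | hs <;>
          rcases sg_cases (s (.inl (N.v e))) with hs' | hs' <;> rw [hs, hs'] at h <;> omega
      rw [if_neg hz, if_neg hzz]
      cases hw : w e
      · simp only [Bool.false_eq_true, if_false, true_and, if_pos hz, mul_zero]
      · have hfg : s (.inr (N.f e)) = s (.inr (N.g e)) := by
          by_cases hu : (a (.inl (N.u e)) : ℕ) = 0
          · have hv : (a (.inl (N.v e)) : ℕ) ≠ 0 := fun h => hz ⟨hu, h⟩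
            have h := cv_eq_one.mp (hcv _ hv)
            rw [← h _ (N.hvf e), ← h _ (N.hvg e)]
          · have h := cv_eq_one.mp (hcv _ hu)
            rw [← h _ (N.huf e), ← h _ (N.hug e)]
        have hth : N.th 0 e s = 1 := by
          unfold th pr
          rw [hfg]
          cases s (.inr (N.g e)) <;> norm_num
        have hiff : (sg (s (.inl (N.u e))) * (2 * ((a (.inl (N.u e)) : ℕ) : ℤ)) =
            sg (s (.inl (N.v e))) * (2 * ((a (.inl (N.v e)) : ℕ) : ℤ)) ∧
            sg (s (.inr (N.f e))) * (2 * ((a (.inr (N.f e)) : ℕ) : ℤ) + 1)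
            = sg (s (.inr (N.g e))) * (2 * ((a (.inr (N.g e)) : ℕ) : ℤ) + 1)) ↔
            ((a (.inl (N.u e)) : ℕ) = a (.inl (N.v e)) ∧
              (a (.inr (N.f e)) : ℕ) = a (.inr (N.g e))) := by
          have hu : (a (.inl (N.u e)) : ℕ) ≠ 0 → s (.inl (N.u e)) = s (.inr (N.g e)) := fun h =>
            cv_eq_one.mp (hcv _ h) _ (N.hug e)
          have hv : (a (.inl (N.v e)) : ℕ) ≠ 0 → s (.inl (N.v e)) = s (.inr (N.g e)) := fun h =>
            cv_eq_one.mp (hcv _ h) _ (N.hvg e)
          rw [hfg]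
          constructor
          · rintro ⟨h1, h2⟩
            constructor
            · rcases sg_cases (s (.inl (N.u e))) with hs | hs <;>
                rcases sg_cases (s (.inl (N.v e))) with hs' | hs' <;> rw [hs, hs'] at h1 <;> omega
            · rcases sg_cases (s (.inr (N.g e))) with hs | hs <;> rw [hs] at h2 <;> omega
          · rintro ⟨h1, h2⟩
            constructor
            · by_cases h0 : (a (.inl (N.u e)) : ℕ) = 0
              · rw [← h1, h0]; simp
              · rw [hu h0, hv (h1 ▸ h0), h1]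
            · rw [h2]
        simp only [if_true, Bool.true_eq_false, false_and, if_false, hth, mul_one]
        unfold wE
        by_cases hfl : ((a (.inl (N.u e)) : ℕ) = a (.inl (N.v e)) ∧
              (a (.inr (N.f e)) : ℕ) = a (.inr (N.g e)))
        · rw [if_pos hfl, if_pos (hiff.mpr hfl), mul_inv_cancel₀ ht.ne']
          ring
        · rw [if_neg hfl, if_neg (fun h => hfl (hiff.mp h))]
          ring
  · rw [if_neg hE, if_neg hE]
    have h0 : (a (.inl (N.u e)) : ℕ) = 0 ∧ (a (.inl (N.v e)) : ℕ) = 0 := by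
      by_cases hfS : N.f e ∈ S
      · have hgS : N.g e ∉ S := fun h => hE ⟨hfS, h⟩
        exact ⟨ha _ fun h => hgS (h _ (N.hug e)), ha _ fun h => hgS (h _ (N.hvg e))⟩
      · exact ⟨ha _ fun h => hfS (h _ (N.huf e)), ha _ fun h => hfS (h _ (N.hvf e))⟩
    have hwE : N.wE t a e = 1 := by
      unfold wE
      rw [if_pos]
      omega
    rw [hwE]
    cases w e <;> simp

/-- The product of the pair constraints. -/
noncomputable def CV (N : Net V F E) (a : V ⊕ F → Fin (K + 1)) (s : V ⊕ F → Bool) : ℝ :=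
  ∏ p ∈ Finset.univ.filter (fun p : V × F => N.inc p.1 p.2),
      (if (a (.inl p.1) : ℕ) ≠ 0 then pr (1 / 2) (1 / 2) (.inl p.1) (.inr p.2) s else 1)

omit [Fintype E] in
lemma CV_eq (N : Net V F E) (a : V ⊕ F → Fin (K + 1)) (s : V ⊕ F → Bool) :
    N.CV a s = if (∀ v, (a (.inl v) : ℕ) ≠ 0 → N.cv v s = 1) then 1 else 0 := by
  by_cases h : ∀ v, (a (.inl v) : ℕ) ≠ 0 → N.cv v s = 1
  · rw [if_pos h]
    unfold CV
    refine Finset.prod_eq_one fun p hp => ?_
    by_cases h0 : (a (.inl p.1) : ℕ) ≠ 0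
    · rw [if_pos h0]
      have h1 := cv_eq_one.mp (h _ h0) _ (Finset.mem_filter.mp hp).2
      unfold pr
      rw [h1]
      cases s (.inr p.2) <;> norm_num
    · rw [if_neg h0]
  · rw [if_neg h]
    push Not at h
    obtain ⟨v, hv, hne⟩ := h
    have h1 : ¬ ∀ f, N.inc v f → s (.inl v) = s (.inr f) := fun h' => hne (cv_eq_one.mpr h')
    push Not at h1
    obtain ⟨f, hf, hsf⟩ := h1
    unfold CV
    refine Finset.prod_eq_zero (i := (v, f)) (by simp [hf]) ?_
    rw [if_pos hv]
    unfold pr
    revert hsf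
    cases s (.inl v) <;> cases s (.inr f) <;> norm_num

omit [Fintype V] [Fintype F] [Fintype E] in
lemma mem_Cfg (N : Net V F E) (S : Set F) (a : V ⊕ F → Fin (K + 1)) (s : V ⊕ F → Bool)
    (ha : ∀ i, ¬ N.inD S i → (a i : ℕ) = 0) (w : E → Bool) :
    toCf (fun i => pv (V := V) S i (a i, s i)) w ∈ FC.Cfg N.toInc (N.UU S) S ↔
      (∀ v f, N.inc v f → f ∈ S →
        |pv (V := V) S (.inl v) (a (.inl v), s (.inl v)) -
          pv (V := V) S (.inr f) (a (.inr f), s (.inr f))| = 1) ∧
      (∀ e, ¬ N.inE S e → w e = false) ∧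
      (∀ e, N.inE S e → w e = false → (a (.inl (N.u e)) : ℕ) = 0 ∧
        (a (.inl (N.v e)) : ℕ) = 0) := by
  have hz : ∀ v, pv (V := V) S (.inl v) (a (.inl v), s (.inl v)) = 0 ↔
      (a (.inl v) : ℕ) = 0 := by
    intro v
    simp only [pv, Sum.elim_inl]
    rcases sg_cases (s (.inl v)) with hs | hs <;> rw [hs] <;> constructor <;> intro h <;> omega
  constructor
  · intro h
    refine ⟨h.2.2.2.1, h.2.2.2.2.1, fun e he hw => ?_⟩
    have h1 := h.2.2.2.2.2 e he.1 he.2 hw
    exact ⟨(hz _).mp h1.1, (hz _).mp h1.2⟩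
  · rintro ⟨h1, h2, h3⟩
    refine ⟨fun v hv => ?_, fun f hf => ?_, fun v => ?_, h1, h2, fun e he1 he2 hw => ?_⟩
    · exact (hz v).mpr (ha _ hv)
    · simp only [toCf, pv, Sum.elim_inr, if_neg hf]
    · simp only [toCf, pv, Sum.elim_inl]
      rcases sg_cases (s (.inl v)) with hs | hs <;> rw [hs]
      · exact ⟨((a (.inl v) : ℕ) : ℤ), by ring⟩
      · exact ⟨-((a (.inl v) : ℕ) : ℤ), by ring⟩
    · have h4 := h3 e ⟨he1, he2⟩ hw
      exact ⟨(hz _).mpr h4.1, (hz _).mpr h4.2⟩

/-- The identity for a configuration. -/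
lemma Phi_eq (N : Net V F E) {t : ℝ} (ht : 0 < t) (S : Set F) (a : V ⊕ F → Fin (K + 1))
    (s : V ⊕ F → Bool) (ha : ∀ i, ¬ N.inD S i → (a i : ℕ) = 0) (w : E → Bool) :
    (if N.adm a then (1 : ℝ) else 0) * (∏ e, N.wE t a e) * N.CV a s *
      (∏ e, (if N.inE S e then
          (if (a (.inl (N.u e)) : ℕ) = 0 ∧ (a (.inl (N.v e)) : ℕ) = 0
            then (if w e = true then (1 - t) * N.th 0 e s else t)
            else (if w e = true then (1 - t) * N.th 0 e s + t else 0))
        else (if w e = true then 0 else t)))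
      = t ^ Fintype.card E * N.Φ t S (toCf (fun i => pv (V := V) S i (a i, s i)) w) := by
  rw [CV_eq]
  by_cases h : N.adm a ∧ ∀ v, (a (.inl v) : ℕ) ≠ 0 → N.cv v s = 1
  · obtain ⟨had, hcv⟩ := h
    rw [if_pos had, if_pos hcv, one_mul, mul_one, ← Finset.prod_mul_distrib]
    rw [Finset.prod_congr rfl fun e _ => N.edge_id ht S a s ha had hcv w e,
      Finset.prod_mul_distrib, Finset.prod_const, Finset.card_univ]
    congr 1
    have hice := (N.pair_iff S a s ha).mp ⟨had, hcv⟩
    unfold Φ
    by_cases hC : toCf (fun i => pv (V := V) S i (a i, s i)) w ∈ FC.Cfg N.toInc (N.UU S) S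
    · rw [if_pos hC]
      obtain ⟨_, h2, h3⟩ := (N.mem_Cfg S a s ha w).mp hC
      unfold FC.wt
      refine Finset.prod_congr rfl fun e _ => ?_
      by_cases he : N.inE S e
      · have he' : N.toInc.a e ∈ S ∧ N.toInc.b e ∈ S := he
        rw [if_pos he, if_pos he', if_neg]
        rintro ⟨hw, hn⟩
        exact hn (h3 e he hw)
      · have he' : ¬ (N.toInc.a e ∈ S ∧ N.toInc.b e ∈ S) := he
        rw [if_neg he, if_neg he', if_neg]
        rw [h2 e he]
        simp
    · rw [if_neg hC]
      have hn : ¬ ((∀ e, ¬ N.inE S e → w e = false) ∧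
          (∀ e, N.inE S e → w e = false → (a (.inl (N.u e)) : ℕ) = 0 ∧
            (a (.inl (N.v e)) : ℕ) = 0)) := fun h' =>
        hC ((N.mem_Cfg S a s ha w).mpr ⟨hice, h'.1, h'.2⟩)
      by_cases h2 : ∀ e, ¬ N.inE S e → w e = false
      · have h3 : ¬ ∀ e, N.inE S e → w e = false → (a (.inl (N.u e)) : ℕ) = 0 ∧
            (a (.inl (N.v e)) : ℕ) = 0 := fun h' => hn ⟨h2, h'⟩
        push Not at h3
        obtain ⟨e, he, hw, hz⟩ := h3
        refine Finset.prod_eq_zero (Finset.mem_univ e) ?_
        rw [if_pos he, if_pos]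
        exact ⟨hw, fun h' => hz h'.1 h'.2⟩
      · push Not at h2
        obtain ⟨e, he, hw⟩ := h2
        refine Finset.prod_eq_zero (Finset.mem_univ e) ?_
        rw [if_neg he, if_pos]
        simpa using hw
  · have hC : toCf (fun i => pv (V := V) S i (a i, s i)) w ∉ FC.Cfg N.toInc (N.UU S) S := by
      intro hC
      exact h ((N.pair_iff S a s ha).mpr ((N.mem_Cfg S a s ha w).mp hC).1)
    unfold Φ
    rw [if_neg hC, mul_zero]
    by_cases had : N.adm a
    · have hcv : ¬ ∀ v, (a (.inl v) : ℕ) ≠ 0 → N.cv v s = 1 := fun h' => h ⟨had, h'⟩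
      rw [if_neg hcv]
      ring
    · rw [if_neg had]
      ring

end

end Net

end Vale.Agent.P145.FK
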