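import Mathlib

/-!
P145, block K1: ferromagnetic spins, second Griffiths inequality.
-/

namespace Vale.Agent.P145.FK

open Finset

variable {I : Type*} [Fintype I] [DecidableEq I]

/-- The sign of a Boolean. -/
def sv (b : Bool) : ℝ := if b then -1 else 1

@[simp] lemma sv_true : sv true = -1 := rfl
@[simp] lemma sv_false : sv false = 1 := rfl

lemma sv_xor (a b : Bool) : sv (xor a b) = sv a * sv b := by
  cases a <;> cases b <;> norm_num [sv]

lemma sv_mul_self (a : Bool) : sv a * sv a = 1 := by cases a <;> norm_num [sv]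

lemma sv_abs_le (a : Bool) : |sv a| = 1 := by cases a <;> norm_num [sv]

/-- A character. -/
def chi (A : I → Bool) (s : I → Bool) : ℝ := ∏ i, if A i then sv (s i) else 1

omit [DecidableEq I] in
lemma chi_mul (A B s : I → Bool) : chi A s * chi B s = chi (fun i => xor (A i) (B i)) s := by
  unfold chi
  rw [← Finset.prod_mul_distrib]
  refine Finset.prod_congr rfl (fun i _ => ?_)
  rcases hA : A i <;> rcases hB : B i <;> simp [sv_mul_self, hA, hB]

omit [DecidableEq I] in
lemma chi_xor (A s r : I → Bool) : chi A (fun i => xor (s i) (r i)) = chi A s * chi A r := by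
  unfold chi
  rw [← Finset.prod_mul_distrib]
  refine Finset.prod_congr rfl (fun i _ => ?_)
  by_cases h : A i = true
  · simp only [h, if_true]
    exact sv_xor _ _
  · simp [h]

omit [DecidableEq I] in
lemma chi_false (s : I → Bool) : chi (fun _ => false) s = 1 := by
  simp [chi]

omit [DecidableEq I] in
lemma chi_le_one (A s : I → Bool) : chi A s ≤ 1 := by
  have h : |chi A s| ≤ 1 := by
    unfold chi
    rw [Finset.abs_prod]
    refine Finset.prod_le_one (fun i _ => abs_nonneg _) (fun i _ => ?_)
    split_ifs
    · exact (sv_abs_le _).le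
    · norm_num
  exact (abs_le.mp h).2

omit [DecidableEq I] in
lemma neg_one_le_chi (A s : I → Bool) : -1 ≤ chi A s := by
  have h : |chi A s| ≤ 1 := by
    unfold chi
    rw [Finset.abs_prod]
    refine Finset.prod_le_one (fun i _ => abs_nonneg _) (fun i _ => ?_)
    split_ifs
    · exact (sv_abs_le _).le
    · norm_num
  exact (abs_le.mp h).1

lemma sum_chi_nonneg (A : I → Bool) : 0 ≤ ∑ s : I → Bool, chi A s := by
  have h : ∑ s : I → Bool, chi A s = ∏ i, ∑ b : Bool, (if A i then sv b else (1 : ℝ)) := by
    rw [Finset.prod_univ_sum, Fintype.piFinset_univ]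
    rfl
  rw [h]
  refine Finset.prod_nonneg (fun i _ => ?_)
  cases A i <;> simp

/-- Nonnegative combinations of characters. -/
inductive Pos : ((I → Bool) → ℝ) → Prop
  | chr (c : ℝ) (hc : 0 ≤ c) (A : I → Bool) : Pos (fun s => c * chi A s)
  | add {f g : (I → Bool) → ℝ} : Pos f → Pos g → Pos (fun s => f s + g s)

namespace Pos

omit [DecidableEq I] in
lemma const (c : ℝ) (hc : 0 ≤ c) : Pos (fun _ : I → Bool => c) := by
  have h := Pos.chr c hc (fun _ : I => false)
  simpa [chi_false] using h

omit [DecidableEq I] in
lemma mul {f g : (I → Bool) → ℝ} (hf : Pos f) (hg : Pos g) : Pos (fun s => f s * g s) := by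
  induction hf with
  | chr c hc A =>
    induction hg with
    | chr c' hc' B =>
      have h := Pos.chr (c * c') (mul_nonneg hc hc') (fun i => xor (A i) (B i))
      have e : (fun s => c * c' * chi (fun i => xor (A i) (B i)) s)
          = fun s => c * chi A s * (c' * chi B s) := by
        funext s
        rw [← chi_mul]; ring
      rwa [e] at h
    | add h1 h2 ih1 ih2 =>
      have h := Pos.add ih1 ih2
      simpa only [mul_add] using h
  | add h1 h2 ih1 ih2 =>
    have h := Pos.add ih1 ih2
    simpa only [add_mul] using h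

omit [DecidableEq I] in
lemma smul {f : (I → Bool) → ℝ} (c : ℝ) (hc : 0 ≤ c) (hf : Pos f) : Pos (fun s => c * f s) :=
  mul (const c hc) hf

omit [DecidableEq I] in
lemma prod {ι : Type*} (T : Finset ι) (f : ι → (I → Bool) → ℝ)
    (h : ∀ i ∈ T, Pos (f i)) : Pos (fun s => ∏ i ∈ T, f i s) := by
  classical
  induction T using Finset.induction_on with
  | empty => simpa using const (I := I) 1 zero_le_one
  | insert i T hi ih =>
    have h1 := h i (Finset.mem_insert_self i T)
    have h2 := ih (fun j hj => h j (Finset.mem_insert_of_mem hj))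
    simpa only [Finset.prod_insert hi] using mul h1 h2

omit [DecidableEq I] in
lemma sum {ι : Type*} (T : Finset ι) (f : ι → (I → Bool) → ℝ)
    (h : ∀ i ∈ T, Pos (f i)) : Pos (fun s => ∑ i ∈ T, f i s) := by
  classical
  induction T using Finset.induction_on with
  | empty => simpa using const (I := I) 0 le_rfl
  | insert i T hi ih =>
    have h1 := h i (Finset.mem_insert_self i T)
    have h2 := ih (fun j hj => h j (Finset.mem_insert_of_mem hj))
    simpa only [Finset.sum_insert hi] using Pos.add h1 h2

lemma single (i : I) : Pos (fun s : I → Bool => sv (s i)) := by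
  have h := Pos.chr 1 zero_le_one (fun j : I => decide (j = i))
  have e : (fun s : I → Bool => 1 * chi (fun j : I => decide (j = i)) s) = fun s => sv (s i) := by
    funext s
    rw [one_mul]
    unfold chi
    rw [Finset.prod_eq_single i]
    · simp
    · intro b _ hb; simp [hb]
    · simp
  rwa [e] at h

lemma sum_nonneg {f : (I → Bool) → ℝ} (hf : Pos f) : 0 ≤ ∑ s, f s := by
  induction hf with
  | chr c hc A =>
    rw [← Finset.mul_sum]
    exact mul_nonneg hc (sum_chi_nonneg A)
  | add h1 h2 ih1 ih2 =>
    rw [Finset.sum_add_distrib]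
    exact add_nonneg ih1 ih2

omit [DecidableEq I] in
lemma diff {g : (I → Bool) → ℝ} (hg : Pos g) (r : I → Bool) :
    Pos (fun s => g s - g (fun i => xor (s i) (r i))) := by
  induction hg with
  | chr c hc A =>
    have h := Pos.chr (c * (1 - chi A r)) (mul_nonneg hc (by linarith [chi_le_one A r])) A
    have e : (fun s => c * (1 - chi A r) * chi A s)
        = fun s => c * chi A s - c * chi A (fun i => xor (s i) (r i)) := by
      funext s
      rw [chi_xor]; ring
    rwa [e] at h
  | add h1 h2 ih1 ih2 =>
    have h := Pos.add ih1 ih2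
    refine (congrArg Pos ?_).mp h
    funext s
    ring

end Pos

/-- Ferromagnetic weights. -/
def Ferro (W : (I → Bool) → ℝ) : Prop :=
  ∀ r : I → Bool, Pos (fun s => W s * W (fun i => xor (s i) (r i)))

omit [DecidableEq I] in
lemma Ferro.const (c : ℝ) : Ferro (fun _ : I → Bool => c) := by
  intro r
  exact Pos.const _ (mul_self_nonneg c)

omit [DecidableEq I] in
lemma Ferro.mul {W W' : (I → Bool) → ℝ} (h : Ferro W) (h' : Ferro W') :
    Ferro (fun s => W s * W' s) := by
  intro r
  have := Pos.mul (h r) (h' r)
  refine (congrArg Pos ?_).mp this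
  funext s
  ring

omit [DecidableEq I] in
lemma Ferro.prod {ι : Type*} (T : Finset ι) (f : ι → (I → Bool) → ℝ)
    (h : ∀ i ∈ T, Ferro (f i)) : Ferro (fun s => ∏ i ∈ T, f i s) := by
  classical
  induction T using Finset.induction_on with
  | empty => simpa using Ferro.const (I := I) 1
  | insert i T hi ih =>
    have h1 := h i (Finset.mem_insert_self i T)
    have h2 := ih (fun j hj => h j (Finset.mem_insert_of_mem hj))
    simpa only [Finset.prod_insert hi] using Ferro.mul h1 h2

omit [DecidableEq I] in
lemma Ferro.affine {a b : ℝ} (hb : 0 ≤ b) (hab : b ≤ a) (A : I → Bool) :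
    Ferro (fun s => a + b * chi A s) := by
  intro r
  have hc : Pos (fun s : I → Bool => (a * a + b * b * chi A r) + a * b * (1 + chi A r) * chi A s) :=
    Pos.add (Pos.const _ (by
      have h1 := neg_one_le_chi A r
      nlinarith [mul_nonneg hb hb, mul_nonneg hb (sub_nonneg.mpr hab), mul_self_nonneg (a - b)]))
      (Pos.chr _ (mul_nonneg (mul_nonneg (hb.trans hab) hb) (by linarith [neg_one_le_chi A r])) A)
  refine (congrArg Pos ?_).mp hc
  funext s
  show _ = (a + b * chi A s) * (a + b * chi A (fun i => xor (s i) (r i)))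
  rw [chi_xor]
  have h2 : chi A s * chi A s = 1 := by
    rw [chi_mul]; simp [chi_false]
  have h3 : b * chi A s * (b * (chi A s * chi A r)) = b * b * chi A r := by
    calc b * chi A s * (b * (chi A s * chi A r)) = b * b * (chi A s * chi A s) * chi A r := by ring
      _ = b * b * chi A r := by rw [h2]; ring
  calc a * a + b * b * chi A r + a * b * (1 + chi A r) * chi A s
      = a * a + a * (b * (chi A s * chi A r)) + b * chi A s * a + b * b * chi A r := by ring
    _ = (a + b * chi A s) * (a + b * (chi A s * chi A r)) := by rw [← h3]; ring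

/-- Translation of the spin configurations. -/
def flipE (s : I → Bool) : (I → Bool) ≃ (I → Bool) where
  toFun r := fun i => xor (s i) (r i)
  invFun r := fun i => xor (s i) (r i)
  left_inv r := by funext i; simp
  right_inv r := by funext i; simp

/-- Second Griffiths inequality. -/
theorem gks {W f g : (I → Bool) → ℝ} (hW : Ferro W) (hf : Pos f) (hg : Pos g) :
    (∑ s, W s * f s) * (∑ s, W s * g s) ≤ (∑ s, W s) * (∑ s, W s * (f s * g s)) := by
  have e1 : (∑ s, W s) * (∑ s, W s * (f s * g s)) - (∑ s, W s * f s) * (∑ s, W s * g s)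
      = ∑ s : I → Bool, ∑ s' : I → Bool, (W s * W s') * (f s * (g s - g s')) := by
    rw [mul_comm (∑ s, W s), Finset.sum_mul_sum, Finset.sum_mul_sum, ← Finset.sum_sub_distrib]
    refine Finset.sum_congr rfl (fun s _ => ?_)
    rw [← Finset.sum_sub_distrib]
    refine Finset.sum_congr rfl (fun s' _ => ?_)
    ring
  have e2 : ∀ s : I → Bool, ∑ s' : I → Bool, (W s * W s') * (f s * (g s - g s'))
      = ∑ r : I → Bool, (W s * W (fun i => xor (s i) (r i))) *
        (f s * (g s - g (fun i => xor (s i) (r i)))) := by
    intro s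
    exact ((flipE s).sum_comp (fun s' => (W s * W s') * (f s * (g s - g s')))).symm
  have e3 : 0 ≤ ∑ r : I → Bool, ∑ s : I → Bool, (W s * W (fun i => xor (s i) (r i))) *
        (f s * (g s - g (fun i => xor (s i) (r i)))) := by
    refine Finset.sum_nonneg (fun r _ => ?_)
    exact Pos.sum_nonneg (Pos.mul (hW r) (Pos.mul hf (Pos.diff hg r)))
  rw [Finset.sum_comm] at e3
  rw [← sub_nonneg, e1, Finset.sum_congr rfl (fun s _ => e2 s)]
  exact e3

end Vale.Agent.P145.FK
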