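import Vale.Agent.P145.FK.Bridge
import Vale.Agent.P145.Dom.Zb

/-!
P145, block K1 on the square lattice: the incidence structure of a finite set of faces, and the
zero boundary heights `Dom.ZH`.
-/

namespace Vale.Agent.P145.FK

open Finset Vale.Agent.P145.FP Vale.Agent.P145.Dom
open scoped Classical

/-- `v` is a corner of the face `f`. -/
def Cor (v f : ℤ × ℤ) : Prop :=
  ∃ a b : ℤ, (a = 0 ∨ a = 1) ∧ (b = 0 ∨ b = 1) ∧ v = (f.1 + a, f.2 + b)

lemma mem_verts {F : Finset (ℤ × ℤ)} {v : ℤ × ℤ} : v ∈ verts F ↔ ∃ f ∈ F, Cor v f := by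
  unfold verts Cor
  simp only [Finset.mem_union, Finset.mem_image]
  constructor
  · rintro (((h | ⟨f, hf, rfl⟩) | ⟨f, hf, rfl⟩) | ⟨f, hf, rfl⟩)
    · exact ⟨v, h, 0, 0, Or.inl rfl, Or.inl rfl, by simp⟩
    · exact ⟨f, hf, 1, 0, Or.inr rfl, Or.inl rfl, by ext <;> simp⟩
    · exact ⟨f, hf, 0, 1, Or.inl rfl, Or.inr rfl, by ext <;> simp⟩
    · exact ⟨f, hf, 1, 1, Or.inr rfl, Or.inr rfl, by ext <;> simp⟩
  · rintro ⟨f, hf, a, b, ha, hb, rfl⟩
    rcases ha with rfl | rfl <;> rcases hb with rfl | rfl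
    · left; left; left; simpa using hf
    · left; right; exact ⟨f, hf, by ext <;> simp⟩
    · left; left; right; exact ⟨f, hf, by ext <;> simp⟩
    · right; exact ⟨f, hf, by ext <;> simp⟩

/-- Horizontal edges with both sides in `B`. -/
noncomputable def hE (B : Finset (ℤ × ℤ)) : Finset (ℤ × ℤ) := {e ∈ B | (e.1, e.2 - 1) ∈ B}

/-- Vertical edges with both sides in `B`. -/
noncomputable def vE (B : Finset (ℤ × ℤ)) : Finset (ℤ × ℤ) := {e ∈ B | (e.1 - 1, e.2) ∈ B}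

/-- Vertices, faces and edges of the finite set `B` of faces. -/
abbrev VB (B : Finset (ℤ × ℤ)) := {v // v ∈ verts B}
/-- Faces. -/
abbrev FB (B : Finset (ℤ × ℤ)) := {f // f ∈ B}
/-- Edges. -/
abbrev EB (B : Finset (ℤ × ℤ)) := {e // e ∈ hE B} ⊕ {e // e ∈ vE B}

lemma hE1 {B : Finset (ℤ × ℤ)} (e : {e // e ∈ hE B}) : e.1 ∈ B := (Finset.mem_filter.mp e.2).1
lemma hE2 {B : Finset (ℤ × ℤ)} (e : {e // e ∈ hE B}) : (e.1.1, e.1.2 - 1) ∈ B :=
  (Finset.mem_filter.mp e.2).2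
lemma vE1 {B : Finset (ℤ × ℤ)} (e : {e // e ∈ vE B}) : e.1 ∈ B := (Finset.mem_filter.mp e.2).1
lemma vE2 {B : Finset (ℤ × ℤ)} (e : {e // e ∈ vE B}) : (e.1.1 - 1, e.1.2) ∈ B :=
  (Finset.mem_filter.mp e.2).2

lemma cor00 (e : ℤ × ℤ) : Cor e e := ⟨0, 0, Or.inl rfl, Or.inl rfl, by simp⟩
lemma cor_h1 (e : ℤ × ℤ) : Cor e (e.1, e.2 - 1) := ⟨0, 1, Or.inl rfl, Or.inr rfl, by simp⟩
lemma cor_h2 (e : ℤ × ℤ) : Cor (e.1 + 1, e.2) e := ⟨1, 0, Or.inr rfl, Or.inl rfl, by simp⟩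
lemma cor_h3 (e : ℤ × ℤ) : Cor (e.1 + 1, e.2) (e.1, e.2 - 1) :=
  ⟨1, 1, Or.inr rfl, Or.inr rfl, by simp⟩
lemma cor_v1 (e : ℤ × ℤ) : Cor e (e.1 - 1, e.2) := ⟨1, 0, Or.inr rfl, Or.inl rfl, by simp⟩
lemma cor_v2 (e : ℤ × ℤ) : Cor (e.1, e.2 + 1) e := ⟨0, 1, Or.inl rfl, Or.inr rfl, by simp⟩
lemma cor_v3 (e : ℤ × ℤ) : Cor (e.1, e.2 + 1) (e.1 - 1, e.2) :=
  ⟨1, 1, Or.inr rfl, Or.inr rfl, by simp⟩

/-- The incidence structure of the finite set `B` of faces. -/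
def boxN (B : Finset (ℤ × ℤ)) : Net (VB B) (FB B) (EB B) where
  u := Sum.elim (fun e => ⟨e.1, mem_verts.mpr ⟨_, hE1 e, cor00 _⟩⟩)
    (fun e => ⟨e.1, mem_verts.mpr ⟨_, vE1 e, cor00 _⟩⟩)
  v := Sum.elim (fun e => ⟨(e.1.1 + 1, e.1.2), mem_verts.mpr ⟨_, hE1 e, cor_h2 _⟩⟩)
    (fun e => ⟨(e.1.1, e.1.2 + 1), mem_verts.mpr ⟨_, vE1 e, cor_v2 _⟩⟩)
  f := Sum.elim (fun e => ⟨e.1, hE1 e⟩) (fun e => ⟨e.1, vE1 e⟩)
  g := Sum.elim (fun e => ⟨(e.1.1, e.1.2 - 1), hE2 e⟩) (fun e => ⟨(e.1.1 - 1, e.1.2), vE2 e⟩)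
  inc v f := Cor v.1 f.1
  huf := by rintro (e | e) <;> exact cor00 _
  hug := by
    rintro (e | e)
    · exact cor_h1 _
    · exact cor_v1 _
  hvf := by
    rintro (e | e)
    · exact cor_h2 _
    · exact cor_v2 _
  hvg := by
    rintro (e | e)
    · exact cor_h3 _
    · exact cor_v3 _

/-- A set of faces as a set of faces of `B`. -/
def inB (B : Finset (ℤ × ℤ)) (F : Set (ℤ × ℤ)) : Set (FB B) := {f | f.1 ∈ F}

/-- `B` contains `F` and all faces which touch `F`. -/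
def Nb (B : Finset (ℤ × ℤ)) (F : Set (ℤ × ℤ)) : Prop :=
  ∀ f ∈ F, ∀ v, Cor v f → ∀ f', Cor v f' → f' ∈ B

lemma Nb.mem {B : Finset (ℤ × ℤ)} {F : Set (ℤ × ℤ)} (h : Nb B F) {f : ℤ × ℤ} (hf : f ∈ F) :
    f ∈ B := h f hf f (cor00 f) f (cor00 f)

lemma Nb.mono {B : Finset (ℤ × ℤ)} {F F' : Set (ℤ × ℤ)} (h : Nb B F') (hF : F ⊆ F') : Nb B F :=
  fun f hf => h f (hF hf)

/-- Extension by zero. -/
noncomputable def xt {B : Finset (ℤ × ℤ)} (y : VB B ⊕ FB B → ℤ) : Site → ℤ :=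
  Sum.elim (fun v => if h : v ∈ verts B then y (.inl ⟨v, h⟩) else 0)
    (fun f => if h : f ∈ B then y (.inr ⟨f, h⟩) else 0)

lemma xt_inl {B : Finset (ℤ × ℤ)} (y : VB B ⊕ FB B → ℤ) (v : VB B) :
    xt y (.inl v.1) = y (.inl v) := by
  simp only [xt, Sum.elim_inl, dif_pos v.2]

lemma xt_inr {B : Finset (ℤ × ℤ)} (y : VB B ⊕ FB B → ℤ) (f : FB B) :
    xt y (.inr f.1) = y (.inr f) := by
  simp only [xt, Sum.elim_inr, dif_pos f.2]

lemma xt_inj {B : Finset (ℤ × ℤ)} : Function.Injective (xt (B := B)) := by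
  intro y y' h
  funext i
  rcases i with v | f
  · rw [← xt_inl y, ← xt_inl y', h]
  · rw [← xt_inr y, ← xt_inr y', h]

lemma HS_iff {B F : Finset (ℤ × ℤ)} (hB : Nb B F) (y : VB B ⊕ FB B → ℤ) :
    (boxN B).HS (inB B F) y ↔ xt y ∈ ZH F := by
  constructor
  · rintro ⟨h1, h2, h3, h4⟩
    refine ⟨fun v => ?_, fun f hf => ?_, fun f a b ha hb => ⟨fun hf => ?_, fun hf => ?_⟩⟩
    · by_cases hv : v ∈ verts B
      · have := h3 ⟨v, hv⟩
        rwa [← xt_inl y] at this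
      · simp only [xt, Sum.elim_inl, dif_neg hv]
        exact Even.zero
    · by_cases hf' : f ∈ B
      · have := h2 ⟨f, hf'⟩ hf
        rwa [← xt_inr y] at this
      · simp only [xt, Sum.elim_inr, dif_neg hf']
    · have hcor : Cor (f.1 + a, f.2 + b) f := ⟨a, b, ha, hb, rfl⟩
      by_cases hv : ((f.1 + a, f.2 + b) : ℤ × ℤ) ∈ verts B
      · have h5 : (⟨_, hv⟩ : VB B) ∉ (boxN B).UU (inB B F) := by
          intro h'
          obtain ⟨f', hf', hc⟩ := mem_verts.mp hv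
          have h6 : f' ∈ F := h' ⟨f', hf'⟩ hc
          have h7 : f ∈ B := hB f' h6 _ hc f hcor
          exact hf (h' ⟨f, h7⟩ hcor)
        have := h1 _ h5
        rwa [← xt_inl y] at this
      · simp only [xt, Sum.elim_inl, dif_neg hv]
    · have hcor : Cor (f.1 + a, f.2 + b) f := ⟨a, b, ha, hb, rfl⟩
      have hfB : f ∈ B := hB.mem hf
      have hv : ((f.1 + a, f.2 + b) : ℤ × ℤ) ∈ verts B := mem_verts.mpr ⟨f, hfB, hcor⟩
      have := h4 ⟨_, hv⟩ ⟨f, hfB⟩ hcor hf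
      rw [← xt_inl y, ← xt_inr y, abs_sub_comm] at this
      exact this
  · rintro ⟨h1, h2, h3⟩
    refine ⟨fun v hv => ?_, fun f hf => ?_, fun v => ?_, fun v f hvf hf => ?_⟩
    · have h' : ¬ ∀ f, (boxN B).inc v f → f ∈ inB B F := hv
      push Not at h'
      obtain ⟨f, ⟨a, b, ha, hb, hvf⟩, hf⟩ := h'
      have := (h3 f.1 a b ha hb).1 hf
      rw [← hvf, xt_inl] at this
      exact this
    · have := h2 f.1 hf
      rwa [xt_inr] at this
    · have := h1 v.1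
      rwa [xt_inl] at this
    · obtain ⟨a, b, ha, hb, hvf⟩ := hvf
      have := (h3 f.1 a b ha hb).2 hf
      rw [← hvf, xt_inl, xt_inr, abs_sub_comm] at this
      exact this

lemma hw_eq {B F : Finset (ℤ × ℤ)} (hFB : F ⊆ B) (c : ℝ) (y : VB B ⊕ FB B → ℤ) :
    (boxN B).hw c (inB B F) y = zw c F (xt y) := by
  unfold Net.hw zw
  rw [Fintype.prod_sum_type]
  congr 1
  · have e1 : ∀ e : {e // e ∈ hE B}, (if (boxN B).inE (inB B F) (.inl e) then
        (if y (.inl ((boxN B).u (.inl e))) = y (.inl ((boxN B).v (.inl e))) ∧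
          y (.inr ((boxN B).f (.inl e))) = y (.inr ((boxN B).g (.inl e))) then c else 1) else 1)
        = (fun e : ℤ × ℤ => if e ∈ F ∧ e - (0, 1) ∈ F then
          (if xt y (.inl e) = xt y (.inl (e.1 + 1, e.2)) ∧
            xt y (.inr e) = xt y (.inr (e.1, e.2 - 1)) then c else 1) else 1) e.1 := by
      intro e
      have h1 : (boxN B).inE (inB B F) (.inl e) ↔ e.1 ∈ F ∧ e.1 - (0, 1) ∈ F := by
        have : e.1 - (0, 1) = (e.1.1, e.1.2 - 1) := by ext <;> simp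
        rw [this]
        exact Iff.rfl
      simp only [← xt_inl, ← xt_inr]
      by_cases h : (boxN B).inE (inB B F) (.inl e)
      · rw [if_pos h, if_pos (h1.mp h)]
        rfl
      · rw [if_neg h, if_neg (fun h' => h (h1.mpr h'))]
    rw [Finset.prod_congr rfl fun e _ => e1 e]
    rw [Finset.prod_coe_sort (hE B) (fun e : ℤ × ℤ => if e ∈ F ∧ e - (0, 1) ∈ F then
          (if xt y (.inl e) = xt y (.inl (e.1 + 1, e.2)) ∧
            xt y (.inr e) = xt y (.inr (e.1, e.2 - 1)) then c else 1) else 1)]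
    rw [← Finset.prod_filter]
    refine Finset.prod_congr ?_ fun e _ => rfl
    ext e
    have : e - (0, 1) = (e.1, e.2 - 1) := by ext <;> simp
    simp only [Finset.mem_filter, hE, this]
    constructor
    · rintro ⟨_, h⟩; exact h
    · rintro ⟨h1, h2⟩
      exact ⟨⟨hFB h1, hFB h2⟩, h1, h2⟩
  · have e1 : ∀ e : {e // e ∈ vE B}, (if (boxN B).inE (inB B F) (.inr e) then
        (if y (.inl ((boxN B).u (.inr e))) = y (.inl ((boxN B).v (.inr e))) ∧
          y (.inr ((boxN B).f (.inr e))) = y (.inr ((boxN B).g (.inr e))) then c else 1) else 1)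
        = (fun e : ℤ × ℤ => if e ∈ F ∧ e - (1, 0) ∈ F then
          (if xt y (.inl e) = xt y (.inl (e.1, e.2 + 1)) ∧
            xt y (.inr e) = xt y (.inr (e.1 - 1, e.2)) then c else 1) else 1) e.1 := by
      intro e
      have h1 : (boxN B).inE (inB B F) (.inr e) ↔ e.1 ∈ F ∧ e.1 - (1, 0) ∈ F := by
        have : e.1 - (1, 0) = (e.1.1 - 1, e.1.2) := by ext <;> simp
        rw [this]
        exact Iff.rfl
      simp only [← xt_inl, ← xt_inr]
      by_cases h : (boxN B).inE (inB B F) (.inr e)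
      · rw [if_pos h, if_pos (h1.mp h)]
        rfl
      · rw [if_neg h, if_neg (fun h' => h (h1.mpr h'))]
    rw [Finset.prod_congr rfl fun e _ => e1 e]
    rw [Finset.prod_coe_sort (vE B) (fun e : ℤ × ℤ => if e ∈ F ∧ e - (1, 0) ∈ F then
          (if xt y (.inl e) = xt y (.inl (e.1, e.2 + 1)) ∧
            xt y (.inr e) = xt y (.inr (e.1 - 1, e.2)) then c else 1) else 1)]
    rw [← Finset.prod_filter]
    refine Finset.prod_congr ?_ fun e _ => rfl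
    ext e
    have : e - (1, 0) = (e.1 - 1, e.2) := by ext <;> simp
    simp only [Finset.mem_filter, vE, this]
    constructor
    · rintro ⟨_, h⟩; exact h
    · rintro ⟨h1, h2⟩
      exact ⟨⟨hFB h1, hFB h2⟩, h1, h2⟩

end Vale.Agent.P145.FK
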