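import Vale.Agent.P145.FK.Z2

/-!
P145, block K1 on the square lattice: bounds for the zero boundary heights, the zero boundary
expectation `Dom.ze` in terms of `Net.J`, monotonicity in the domain.
-/

namespace Vale.Agent.P145.FK

open Finset Vale.Agent.P145.FP Vale.Agent.P145.Dom
open scoped Classical

/-- Bound for the heights: `|h| ≤ 2 * KF F` at vertices and `2 * KF F + 1` at faces. -/
def KF (F : Finset (ℤ × ℤ)) : ℕ := 2 * F.sup (fun f => f.1.natAbs) + 2

lemma KF_mono {F F' : Finset (ℤ × ℤ)} (h : F ⊆ F') : KF F ≤ KF F' := by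
  unfold KF
  have := Finset.sup_mono (f := fun f : ℤ × ℤ => f.1.natAbs) h
  omega

lemma ZH_face {F : Finset (ℤ × ℤ)} {x : Site → ℤ} (hx : x ∈ ZH F) (n : ℕ) :
    ∀ f : ℤ × ℤ, (f.1 - n, f.2) ∉ F → |x (.inr f)| ≤ 2 * (n : ℤ) + 1 := by
  obtain ⟨h1, h2, h3⟩ := hx
  induction n with
  | zero =>
    intro f hf
    have hf' : f ∉ F := by simpa using hf
    rw [h2 f hf']
    simp
  | succ n ih =>
    intro f hf
    by_cases hfF : f ∈ F
    · have e1 : ((f.1 - 1 - (n : ℤ), f.2) : ℤ × ℤ) ∉ F := by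
        have : f.1 - 1 - (n : ℤ) = f.1 - ((n + 1 : ℕ) : ℤ) := by push_cast; ring
        rw [this]; exact hf
      have e2 := ih (f.1 - 1, f.2) e1
      have e3 := (h3 f 0 0 (Or.inl rfl) (Or.inl rfl)).2 hfF
      have e4 := h3 (f.1 - 1, f.2) 1 0 (Or.inr rfl) (Or.inl rfl)
      have e5 : ((f.1 + 0, f.2 + 0) : ℤ × ℤ) = f := by simp
      have e6 : (((f.1 - 1, f.2) : ℤ × ℤ).1 + 1, ((f.1 - 1, f.2) : ℤ × ℤ).2 + 0) = f := by simp
      rw [e5] at e3
      rw [e6] at e4
      push_cast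
      by_cases hg : ((f.1 - 1, f.2) : ℤ × ℤ) ∈ F
      · have e7 := e4.2 hg
        rw [abs_eq (by norm_num)] at e3 e7
        rw [abs_le] at e2 ⊢
        omega
      · have e7 := e4.1 hg
        rw [e7, sub_zero] at e3
        omega
    · rw [h2 f hfF]
      simp
      omega

lemma ZH_bound {F : Finset (ℤ × ℤ)} {x : Site → ℤ} (hx : x ∈ ZH F) :
    (∀ v, |x (.inl v)| ≤ 2 * (KF F : ℤ)) ∧ ∀ f, |x (.inr f)| ≤ 2 * (KF F : ℤ) + 1 := by
  set m : ℕ := F.sup (fun f => f.1.natAbs) with hm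
  have hF : ∀ f ∈ F, f.1.natAbs ≤ m := fun f hf =>
    Finset.le_sup (f := fun f : ℤ × ℤ => f.1.natAbs) hf
  have key : ∀ f ∈ F, |x (.inr f)| ≤ 4 * (m : ℤ) + 3 := by
    intro f hf
    have h1 : ((f.1 - ((2 * m + 1 : ℕ) : ℤ), f.2) : ℤ × ℤ) ∉ F := by
      intro h
      have h2 := hF _ h
      have h3 := hF _ hf
      simp only at h2
      omega
    have := ZH_face hx (2 * m + 1) f h1
    push_cast at this
    linarith
  have hK : (KF F : ℤ) = 2 * (m : ℤ) + 2 := by simp [KF, hm]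
  constructor
  · intro v
    by_cases hv : v ∈ F
    · have h1 := (hx.2.2 v 0 0 (Or.inl rfl) (Or.inl rfl)).2 hv
      have e5 : ((v.1 + 0, v.2 + 0) : ℤ × ℤ) = v := by simp
      rw [e5] at h1
      have h2 := key v hv
      rw [abs_eq (by norm_num)] at h1
      rw [abs_le] at h2 ⊢
      omega
    · have h1 := (hx.2.2 v 0 0 (Or.inl rfl) (Or.inl rfl)).1 hv
      have e5 : ((v.1 + 0, v.2 + 0) : ℤ × ℤ) = v := by simp
      rw [e5] at h1
      rw [h1]
      simp
  · intro f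
    by_cases hf : f ∈ F
    · have h2 := key f hf
      omega
    · rw [hx.2.1 f hf]
      simp
      omega

/-- The sum over the zero boundary heights as a finite sum. -/
lemma zs_eq {B F : Finset (ℤ × ℤ)} (hB : Nb B F) {K : ℕ} (hK : KF F ≤ K) (c : ℝ)
    (Φ : (Site → ℤ) → ℝ) :
    zs c F Φ = ∑ y ∈ Net.TTs (V := VB B) K (inB B F),
      (if (boxN B).HS (inB B F) y then (boxN B).hw c (inB B F) y else 0) * Φ (xt y) := by
  have hFB : F ⊆ B := fun f hf => hB.mem hf
  unfold zs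
  rw [finsum_mem_def, finsum_eq_sum_of_support_subset
    (s := (Net.TTs (V := VB B) K (inB B F)).image xt)]
  · rw [Finset.sum_image (fun p _ q _ h => xt_inj h)]
    refine Finset.sum_congr rfl fun y _ => ?_
    by_cases h : (boxN B).HS (inB B F) y
    · rw [Set.indicator_of_mem ((HS_iff hB y).mp h), if_pos h, hw_eq hFB]
    · rw [Set.indicator_of_notMem (fun h' => h ((HS_iff hB y).mpr h')), if_neg h, zero_mul]
  · intro x hx
    have hxZ : x ∈ ZH F := by
      by_contra h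
      exact hx (Set.indicator_of_notMem h _)
    rw [Finset.coe_image, Set.mem_image]
    set y : VB B ⊕ FB B → ℤ := fun i => x (Sum.map Subtype.val Subtype.val i) with hy
    have hxy : xt y = x := by
      funext s
      rcases s with v | f
      · by_cases hv : v ∈ verts B
        · exact xt_inl y ⟨v, hv⟩
        · simp only [xt, Sum.elim_inl, dif_neg hv]
          have hvB : v ∉ F := fun h => hv (mem_verts.mpr ⟨v, hFB h, cor00 v⟩)
          have h1 := (hxZ.2.2 v 0 0 (Or.inl rfl) (Or.inl rfl)).1 hvB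
          have e5 : ((v.1 + 0, v.2 + 0) : ℤ × ℤ) = v := by simp
          rw [e5] at h1
          exact h1.symm
      · by_cases hf : f ∈ B
        · exact xt_inr y ⟨f, hf⟩
        · simp only [xt, Sum.elim_inr, dif_neg hf]
          exact (hxZ.2.1 f fun h => hf (hFB h)).symm
    refine ⟨y, ?_, hxy⟩
    rw [Finset.mem_coe, Net.mem_TTs]
    obtain ⟨b1, b2⟩ := ZH_bound hxZ
    have hK' : (KF F : ℤ) ≤ K := by exact_mod_cast hK
    intro i
    rcases i with v | f
    · refine Net.mem_TT_inl (hxZ.1 v.1) ?_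
      have := b1 v.1
      show |x (.inl v.1)| ≤ _
      linarith
    · by_cases hf : f.1 ∈ F
      · refine Net.mem_TT_inr (show f ∈ inB B F from hf) ?_ ?_
        · have h1 := (hxZ.2.2 f.1 0 0 (Or.inl rfl) (Or.inl rfl)).2 hf
          obtain ⟨j, hj⟩ := hxZ.1 (f.1.1 + 0, f.1.2 + 0)
          show Odd (x (.inr f.1))
          rcases (abs_eq (by norm_num)).mp h1 with h2 | h2
          · exact ⟨j, by omega⟩
          · exact ⟨j - 1, by omega⟩
        · have := b2 f.1
          show |x (.inr f.1)| ≤ _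
          linarith
      · exact Net.mem_TT_out (show f ∉ inB B F from hf) (hxZ.2.1 f.1 hf)

/-- Signed heights of a configuration on the box. -/
noncomputable def sgh {B : Finset (ℤ × ℤ)} {K : ℕ} (F : Set (ℤ × ℤ))
    (x : Net.Cfg (VB B) (FB B) (EB B) K) (s : VB B ⊕ FB B → Bool) : Site → ℤ :=
  xt (fun i => Net.pv (V := VB B) (inB B F) i (x.1 i, s i))

/-- The constant in the bridge. -/
noncomputable def Cst (t : ℝ) (B F : Finset (ℤ × ℤ)) : ℝ :=
  t ^ Fintype.card (EB B) * 2 ^ (Finset.univ.filter (fun f => f ∉ inB B F)).card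

lemma Cst_pos {t : ℝ} (ht : 0 < t) (B F : Finset (ℤ × ℤ)) : 0 < Cst t B F := by
  unfold Cst; positivity

/-- The bridge on the square lattice. -/
theorem J_zs {B F : Finset (ℤ × ℤ)} (hB : Nb B F) {K : ℕ} (hK : KF F ≤ K) {t : ℝ} (ht : 0 < t)
    (Φ : (Site → ℤ) → ℝ) :
    (boxN B).J (K := K) t Net.κ6 (Net.β6 t) (fun x s => (boxN B).zbi (inB B F) x * Φ (sgh F x s))
      = Cst t B F * zs t⁻¹ F Φ := by
  rw [zs_eq hB hK]
  exact (boxN B).bridge_h ht (inB B F) (fun y => Φ (xt y))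

lemma zs_one_pos (F : Finset (ℤ × ℤ)) {t : ℝ} (ht : 0 < t) (ht1 : t ≤ 1) :
    0 < zs t⁻¹ F (fun _ => 1) := by
  -- a box around `F`
  set B : Finset (ℤ × ℤ) := (F.biUnion fun f => Finset.Icc (f.1 - 1) (f.1 + 1) ×ˢ
    Finset.Icc (f.2 - 1) (f.2 + 1)) with hBdef
  have hB : Nb B F := by
    rintro f hf v ⟨a, b, ha, hb, rfl⟩ f' ⟨a', b', ha', hb', hv⟩
    rw [hBdef, Finset.mem_biUnion]
    refine ⟨f, hf, ?_⟩
    rw [Finset.mem_product, Finset.mem_Icc, Finset.mem_Icc]
    simp only [Prod.mk.injEq] at hv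
    omega
  have h1 := J_zs hB (le_refl (KF F)) ht (fun _ => 1)
  simp only [mul_one] at h1
  have h2 := (boxN B).J_zbi_pos (K := KF F) ht.le Net.κ6_nonneg (Net.β6_nonneg ht.le ht1)
    (fun i => Net.κ6_pos i 0) (fun e => Net.β6_pos ht e) (inB B F)
  rw [h1] at h2
  exact pos_of_mul_pos_right h2 (Cst_pos ht B F).le

/-- Quotients of `J` are zero boundary expectations. -/
theorem J_ze {B F : Finset (ℤ × ℤ)} (hB : Nb B F) {K : ℕ} (hK : KF F ≤ K) {t : ℝ} (ht : 0 < t)
    (ht1 : t ≤ 1) (Φ : (Site → ℤ) → ℝ) :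
    (boxN B).J (K := K) t Net.κ6 (Net.β6 t) (fun x s => (boxN B).zbi (inB B F) x * Φ (sgh F x s))
      = (boxN B).J (K := K) t Net.κ6 (Net.β6 t) (fun x _ => (boxN B).zbi (inB B F) x) *
        ze t⁻¹ F Φ := by
  have h1 := J_zs hB hK ht Φ
  have h2 := J_zs hB hK ht (fun _ => 1)
  simp only [mul_one] at h2
  have h3 := zs_one_pos F ht ht1
  rw [h1, h2, ze, mul_assoc, mul_div_cancel₀ _ h3.ne']

end Vale.Agent.P145.FK
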