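import Vale.Agent.P145.FK.Ze
import Vale.Agent.P145.FC.BoxSand
import Vale.Agent.P145.FB.Space

/-!
P145: zero boundary expectations of functions of the heights and of the blocked edges.

The blocked edges are indexed by the vertices of the six-vertex lattice, as in `FB.Space`: the edge
`w` joins the even faces `e1 w`, `e2 w` and separates the odd faces `o1 w`, `o2 w`. It is blocked if
both even faces have height `0` and the odd heights differ or the mark is `true`.
-/

namespace Vale.Agent.P145.FK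

open Finset MeasureTheory Vale.Agent.P145.FP Vale.Agent.P145.Dom
open scoped Classical

lemma fcM_l (v : ℤ × ℤ) : fc (.inl v) = (v.1 - v.2, v.1 + v.2) := rfl
lemma fcM_r (f : ℤ × ℤ) : fc (.inr f) = (f.1 - f.2, f.1 + f.2 + 1) := rfl

/-! ### Finitely many coins -/

lemma mkm_fin {E : Type*} [Fintype E] {t : ℝ} (h0 : 0 ≤ t) (h1 : t ≤ 1) {g : E → ℤ × ℤ}
    (hg : Function.Injective g) (H : (E → Bool) → ℝ) :
    ∫ ξ, H (fun e => ξ (g e)) ∂(FB.mkm t) =
      ∑ η : E → Bool, (∏ e, (if η e = true then t else 1 - t)) * H η := by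
  have hm : Measurable (fun (ξ : FB.Mk) (e : E) => ξ (g e)) :=
    measurable_pi_lambda _ fun e => measurable_pi_apply _
  have hH : Measurable H := measurable_of_finite H
  have : IsProbabilityMeasure ((FB.mkm t).map (fun (ξ : FB.Mk) (e : E) => ξ (g e))) :=
    Measure.isProbabilityMeasure_map hm.aemeasurable
  have e1 : ∫ ξ, H (fun e => ξ (g e)) ∂(FB.mkm t) =
      ∫ η, H η ∂((FB.mkm t).map (fun (ξ : FB.Mk) (e : E) => ξ (g e))) :=
    (integral_map hm.aemeasurable hH.aestronglyMeasurable).symm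
  rw [e1, integral_fintype (Integrable.of_finite)]
  refine Finset.sum_congr rfl fun η _ => ?_
  rw [smul_eq_mul]
  congr 1
  have hpre : (fun (ξ : FB.Mk) (e : E) => ξ (g e)) ⁻¹' {η} =
      Set.pi ((Finset.univ.image g : Finset (ℤ × ℤ)) : Set (ℤ × ℤ))
        fun w => {b : Bool | ∀ e, g e = w → b = η e} := by
    ext ξ
    simp only [Set.mem_preimage, Set.mem_singleton_iff, Set.mem_pi, Finset.mem_coe,
      Finset.mem_image, Finset.mem_univ, true_and, forall_exists_index, forall_apply_eq_imp_iff,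
      Set.mem_ofPred_eq]
    constructor
    · rintro rfl a e he
      show ξ (g a) = ξ (g e)
      rw [he]
    · intro h
      funext e
      exact h e e rfl
  rw [Measure.real, Measure.map_apply hm (measurableSet_singleton _), hpre, FB.mkm,
    Measure.infinitePi_pi _ (fun w _ => by measurability), ENNReal.toReal_prod,
    Finset.prod_image (fun a _ b _ h => hg h)]
  refine Finset.prod_congr rfl fun e _ => ?_
  have h3 : {b : Bool | ∀ e', g e' = g e → b = η e'} = {η e} := by
    ext b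
    simp only [Set.mem_ofPred_eq, Set.mem_singleton_iff]
    exact ⟨fun h => h e rfl, fun h e' he' => by rw [hg he', h]⟩
  have h4 := FB.bern_real t {η e}
  rw [Measure.real] at h4
  rw [h3, h4, FB.cl_eq h0 h1]
  cases h5 : η e <;> simp

/-! ### Edges of the box and vertices of the six-vertex lattice -/

/-- The vertex of the six-vertex lattice at an edge of the box. -/
def we {B : Finset (ℤ × ℤ)} : EB B → ℤ × ℤ :=
  Sum.elim (fun e => (e.1.1 - e.1.2 + 1, e.1.1 + e.1.2 + 1))
    (fun e => (e.1.1 - e.1.2, e.1.1 + e.1.2 + 1))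

lemma we_inj {B : Finset (ℤ × ℤ)} : Function.Injective (we (B := B)) := by
  intro a b h
  rcases a with ⟨a, ha⟩ | ⟨a, ha⟩ <;> rcases b with ⟨b, hb⟩ | ⟨b, hb⟩ <;>
    simp only [we, Sum.elim_inl, Sum.elim_inr, Prod.mk.injEq] at h
  · have : a = b := by ext <;> omega
    subst this; rfl
  · omega
  · omega
  · have : a = b := by ext <;> omega
    subst this; rfl

lemma e1_we {B : Finset (ℤ × ℤ)} (e : EB B) : FB.e1 (we e) = fc (.inl ((boxN B).v e).1) := by
  rcases e with ⟨e, he⟩ | ⟨e, he⟩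
  · have h : Even (e.1 - e.2 + 1 + (e.1 + e.2 + 1)) := ⟨e.1 + 1, by ring⟩
    refine (if_pos h : FB.e1 (e.1 - e.2 + 1, e.1 + e.2 + 1) = _).trans ?_
    show _ = fc (.inl (e.1 + 1, e.2))
    rw [fcM_l]
    ext <;> dsimp only <;> ring
  · have h : ¬ Even (e.1 - e.2 + (e.1 + e.2 + 1)) := by
      rw [Int.not_even_iff_odd]; exact ⟨e.1, by ring⟩
    refine (if_neg h : FB.e1 (e.1 - e.2, e.1 + e.2 + 1) = _).trans ?_
    show _ = fc (.inl (e.1, e.2 + 1))
    rw [fcM_l]
    ext <;> dsimp only <;> ring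

lemma e2_we {B : Finset (ℤ × ℤ)} (e : EB B) : FB.e2 (we e) = fc (.inl ((boxN B).u e).1) := by
  rcases e with ⟨e, he⟩ | ⟨e, he⟩
  · have h : Even (e.1 - e.2 + 1 + (e.1 + e.2 + 1)) := ⟨e.1 + 1, by ring⟩
    refine (if_pos h : FB.e2 (e.1 - e.2 + 1, e.1 + e.2 + 1) = _).trans ?_
    show _ = fc (.inl e)
    rw [fcM_l]
    ext <;> dsimp only <;> ring
  · have h : ¬ Even (e.1 - e.2 + (e.1 + e.2 + 1)) := by
      rw [Int.not_even_iff_odd]; exact ⟨e.1, by ring⟩
    refine (if_neg h : FB.e2 (e.1 - e.2, e.1 + e.2 + 1) = _).trans ?_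
    show _ = fc (.inl e)
    rw [fcM_l]
    ext <;> dsimp only <;> ring

lemma o1_we {B : Finset (ℤ × ℤ)} (e : EB B) : FB.o1 (we e) = fc (.inr ((boxN B).f e).1) := by
  rcases e with ⟨e, he⟩ | ⟨e, he⟩
  · have h : Even (e.1 - e.2 + 1 + (e.1 + e.2 + 1)) := ⟨e.1 + 1, by ring⟩
    refine (if_pos h : FB.o1 (e.1 - e.2 + 1, e.1 + e.2 + 1) = _).trans ?_
    show _ = fc (.inr e)
    rw [fcM_r]
    ext <;> dsimp only <;> ring
  · have h : ¬ Even (e.1 - e.2 + (e.1 + e.2 + 1)) := by
      rw [Int.not_even_iff_odd]; exact ⟨e.1, by ring⟩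
    refine (if_neg h : FB.o1 (e.1 - e.2, e.1 + e.2 + 1) = _).trans ?_
    show _ = fc (.inr e)
    rw [fcM_r]

lemma o2_we {B : Finset (ℤ × ℤ)} (e : EB B) : FB.o2 (we e) = fc (.inr ((boxN B).g e).1) := by
  rcases e with ⟨e, he⟩ | ⟨e, he⟩
  · have h : Even (e.1 - e.2 + 1 + (e.1 + e.2 + 1)) := ⟨e.1 + 1, by ring⟩
    refine (if_pos h : FB.o2 (e.1 - e.2 + 1, e.1 + e.2 + 1) = _).trans ?_
    show _ = fc (.inr (e.1, e.2 - 1))
    rw [fcM_r]
    ext <;> dsimp only <;> ring
  · have h : ¬ Even (e.1 - e.2 + (e.1 + e.2 + 1)) := by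
      rw [Int.not_even_iff_odd]; exact ⟨e.1, by ring⟩
    refine (if_neg h : FB.o2 (e.1 - e.2, e.1 + e.2 + 1) = _).trans ?_
    show _ = fc (.inr (e.1 - 1, e.2))
    rw [fcM_r]
    ext <;> dsimp only <;> ring

lemma fc_injM : Function.Injective fc := fun a b h => by rw [← cf_fc a, ← cf_fc b, h]

/-- Edges with both faces in `F`. -/
def intE (F : Set (ℤ × ℤ)) (w : ℤ × ℤ) : Prop :=
  (∃ f ∈ F, FB.o1 w = fc (.inr f)) ∧ ∃ f ∈ F, FB.o2 w = fc (.inr f)

lemma intE_we {B : Finset (ℤ × ℤ)} {F : Set (ℤ × ℤ)} (e : EB B) :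
    intE F (we e) ↔ (boxN B).inE (inB B F) e := by
  unfold intE
  rw [o1_we, o2_we]
  constructor
  · rintro ⟨⟨f, hf, h1⟩, ⟨g, hg, h2⟩⟩
    have h1 := Sum.inr_injective (fc_injM h1)
    have h2 := Sum.inr_injective (fc_injM h2)
    exact ⟨by show _ ∈ F; rw [h1]; exact hf, by show _ ∈ F; rw [h2]; exact hg⟩
  · rintro ⟨h1, h2⟩
    exact ⟨⟨_, h1, rfl⟩, ⟨_, h2, rfl⟩⟩

/-- The blocked edges of the heights `x` with zero boundary condition outside `F`, given the marks
`ξ`. The edges which are not interior to `F` are blocked. -/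
noncomputable def blM (F : Set (ℤ × ℤ)) (x : Site → ℤ) (ξ : FB.Mk) : FB.Mk := fun w =>
  if intE F w then decide (x (cf (FB.e1 w)) = 0 ∧ x (cf (FB.e2 w)) = 0 ∧
    (x (cf (FB.o1 w)) ≠ x (cf (FB.o2 w)) ∨ ξ w = true)) else true

/-- Zero boundary expectation of a function of the heights and the blocked edges. -/
noncomputable def zeM (c : ℝ) (F : Finset (ℤ × ℤ)) (A : (Site → ℤ) → FB.Mk → ℝ) : ℝ :=
  ze c F fun x => ∫ ξ, A x (blM F x ξ) ∂(FB.mkm c⁻¹)

/-- The edges of the box as a set of vertices of the six-vertex lattice: `w` is mapped to the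
negation of the edge variable, all other vertices are blocked. -/
noncomputable def bwM {B : Finset (ℤ × ℤ)} (u : EB B → Bool) : FB.Mk := fun w =>
  if h : ∃ e : EB B, we e = w then !(u h.choose) else true

lemma bwM_we {B : Finset (ℤ × ℤ)} (u : EB B → Bool) (e : EB B) : bwM u (we e) = !(u e) := by
  have h : ∃ e' : EB B, we e' = we e := ⟨e, rfl⟩
  unfold bwM
  rw [dif_pos h, we_inj h.choose_spec]

lemma bwM_out {B : Finset (ℤ × ℤ)} (u : EB B → Bool) {w : ℤ × ℤ} (h : ¬ ∃ e : EB B, we e = w) :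
    bwM u w = true := by
  unfold bwM
  rw [dif_neg h]

/-- Every interior edge of `F` is an edge of the box. -/
lemma exists_we {B F : Finset (ℤ × ℤ)} (hF : F ⊆ B) {w : ℤ × ℤ} (h : intE (F : Set (ℤ × ℤ)) w) :
    ∃ e : EB B, we e = w := by
  obtain ⟨⟨f, hf, h1⟩, ⟨g, hg, h2⟩⟩ := h
  have hf : f ∈ B := hF hf
  have hg : g ∈ B := hF hg
  by_cases hw : Even (w.1 + w.2)
  · have e1 : g = (f.1, f.2 - 1) := by
      simp only [FB.o1, FB.o2, if_pos hw, fcM_l, fcM_r, Prod.mk.injEq] at h1 h2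
      ext <;> dsimp only <;> omega
    refine ⟨.inl ⟨f, Finset.mem_filter.2 ⟨hf, by rw [← e1]; exact hg⟩⟩, ?_⟩
    simp only [FB.o1, if_pos hw, fcM_l, fcM_r, Prod.mk.injEq] at h1
    simp only [we, Sum.elim_inl]
    ext <;> dsimp only <;> omega
  · have e1 : g = (f.1 - 1, f.2) := by
      simp only [FB.o1, FB.o2, if_neg hw, fcM_l, fcM_r, Prod.ext_iff] at h1 h2
      ext <;> dsimp only <;> omega
    refine ⟨.inr ⟨f, Finset.mem_filter.2 ⟨hf, by rw [← e1]; exact hg⟩⟩, ?_⟩
    simp only [FB.o1, if_neg hw, fcM_l, fcM_r, Prod.ext_iff] at h1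
    simp only [we, Sum.elim_inr]
    ext <;> dsimp only <;> omega

/-- The blocked edges given by marks are a function of the edges of the box. -/
lemma bwM_blM {B F : Finset (ℤ × ℤ)} (hF : F ⊆ B) (x : Site → ℤ) (ξ : FB.Mk) :
    bwM (B := B) (fun e => !(blM F x ξ (we e))) = blM F x ξ := by
  funext w
  by_cases h : ∃ e : EB B, we e = w
  · obtain ⟨e, rfl⟩ := h
    rw [bwM_we, Bool.not_not]
  · rw [bwM_out _ h]
    have h2 : ¬ intE (F : Set (ℤ × ℤ)) w := fun h' => h (exists_we hF h')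
    unfold blM
    rw [if_neg h2]

/-! ### Summation over the edge variables -/

/-- The probability of the value `b` of the edge variable. -/
noncomputable def mue (t : ℝ) {B : Finset (ℤ × ℤ)} (S : Set (FB B)) (y : VB B ⊕ FB B → ℤ)
    (e : EB B) (b : Bool) : ℝ :=
  if (boxN B).inE S e then
    (if y (.inl ((boxN B).u e)) = 0 ∧ y (.inl ((boxN B).v e)) = 0 then
      (if y (.inr ((boxN B).f e)) = y (.inr ((boxN B).g e)) then (if b = true then 1 - t else t)
        else (if b = true then 0 else 1))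
      else (if b = true then 1 else 0))
  else (if b = true then 0 else 1)

/-- The edge variable as a function of the mark. -/
noncomputable def rve {B : Finset (ℤ × ℤ)} (S : Set (FB B)) (y : VB B ⊕ FB B → ℤ)
    (e : EB B) (b : Bool) : Bool :=
  if (boxN B).inE S e then
    (if y (.inl ((boxN B).u e)) = 0 ∧ y (.inl ((boxN B).v e)) = 0 then
      (if y (.inr ((boxN B).f e)) = y (.inr ((boxN B).g e)) then !b else false) else true)
  else false

lemma rve_eq {B F : Finset (ℤ × ℤ)} (y : VB B ⊕ FB B → ℤ) (ξ : FB.Mk) (e : EB B) :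
    (!(blM F (xt y) ξ (we e))) = rve (inB B F) y e (ξ (we e)) := by
  unfold blM rve
  rw [e1_we, e2_we, o1_we, o2_we, cf_fc, cf_fc, cf_fc, cf_fc, xt_inl, xt_inl, xt_inr, xt_inr]
  by_cases h : (boxN B).inE (inB B F) e
  · rw [if_pos ((intE_we e).2 h), if_pos h]
    by_cases h1 : y (.inl ((boxN B).u e)) = 0
    · by_cases h2 : y (.inl ((boxN B).v e)) = 0
      · by_cases h3 : y (.inr ((boxN B).f e)) = y (.inr ((boxN B).g e))
        · cases h4 : ξ (we e) <;> simp [h1, h2, h3]
        · simp [h1, h2, h3]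
      · simp [h2]
    · simp [h1]
  · rw [if_neg (fun h' => h ((intE_we e).1 h')), if_neg h]
    rfl

lemma sum_rve (t : ℝ) {B : Finset (ℤ × ℤ)} (S : Set (FB B)) (y : VB B ⊕ FB B → ℤ) (e : EB B)
    (w : Bool) :
    ∑ z ∈ Finset.univ.filter (fun z => rve S y e z = w), (if z = true then t else 1 - t) =
      mue t S y e w := by
  rw [Finset.sum_filter, Fintype.sum_bool]
  unfold rve mue
  by_cases h : (boxN B).inE S e
  · by_cases h1 : y (.inl ((boxN B).u e)) = 0 ∧ y (.inl ((boxN B).v e)) = 0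
    · by_cases h3 : y (.inr ((boxN B).f e)) = y (.inr ((boxN B).g e))
      · cases w <;> simp [h, h1, h3]
      · cases w <;> simp [h, h1, h3]
    · cases w <;> simp [h, h1]
  · cases w <;> simp [h]

lemma Phi_prod {t : ℝ} (ht : 0 < t) {B : Finset (ℤ × ℤ)} {S : Set (FB B)}
    {y : VB B ⊕ FB B → ℤ} (h : (boxN B).HS S y) (w : EB B → Bool) :
    (boxN B).Φ t S (Net.toCf y w) = (boxN B).hw t⁻¹ S y * ∏ e, mue t S y e (w e) := by
  set N := boxN B with hN
  unfold Net.hw
  rw [← Finset.prod_mul_distrib]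
  have e1 : N.Φ t S (Net.toCf y w) = ∏ e, (if N.inE S e then
      (if w e = false ∧ ¬ (y (.inl (N.u e)) = 0 ∧ y (.inl (N.v e)) = 0) then 0
        else (if y (.inl (N.u e)) = 0 ∧ y (.inl (N.v e)) = 0 then
          (if w e = true then (if y (.inr (N.f e)) = y (.inr (N.g e)) then t⁻¹ - 1 else 0) else 1)
          else (if y (.inl (N.u e)) = y (.inl (N.v e)) ∧ y (.inr (N.f e)) = y (.inr (N.g e))
            then t⁻¹ else 1)))
      else (if w e = true then 0 else 1)) := by
    unfold Net.Φ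
    by_cases hC : Net.toCf y w ∈ FC.Cfg N.toInc (N.UU S) S
    · rw [if_pos hC]
      unfold FC.wt
      refine Finset.prod_congr rfl fun e _ => ?_
      by_cases he : N.inE S e
      · have he' : N.toInc.a e ∈ S ∧ N.toInc.b e ∈ S := he
        rw [if_pos he, if_pos he', if_neg]
        · rfl
        · rintro ⟨hw, hn⟩
          exact hn (hC.2.2.2.2.2 e he.1 he.2 hw)
      · have he' : ¬ (N.toInc.a e ∈ S ∧ N.toInc.b e ∈ S) := he
        have hw : w e = false := hC.2.2.2.2.1 e he
        rw [if_neg he, if_neg he', if_neg]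
        rw [hw]
        simp
    · rw [if_neg hC]
      have hn : ¬ ((∀ e, ¬ N.inE S e → w e = false) ∧
          (∀ e, N.inE S e → w e = false → y (.inl (N.u e)) = 0 ∧ y (.inl (N.v e)) = 0)) := by
        intro h'
        exact hC ⟨h.1, h.2.1, h.2.2.1, h.2.2.2, h'.1, fun e h1 h2 => h'.2 e ⟨h1, h2⟩⟩
      symm
      by_cases h2 : ∀ e, ¬ N.inE S e → w e = false
      · have h3 : ¬ ∀ e, N.inE S e → w e = false → y (.inl (N.u e)) = 0 ∧
            y (.inl (N.v e)) = 0 := fun h' => hn ⟨h2, h'⟩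
        push Not at h3
        obtain ⟨e, he, hw, hz⟩ := h3
        refine Finset.prod_eq_zero (Finset.mem_univ e) ?_
        rw [if_pos he, if_pos]
        exact ⟨hw, fun h' => hz h'.1 h'.2⟩
      · push Not at h2
        obtain ⟨e, he, hw⟩ := h2
        refine Finset.prod_eq_zero (Finset.mem_univ e) ?_
        rw [if_neg he, if_pos]
        simpa using hw
  rw [e1]
  refine Finset.prod_congr rfl fun e _ => ?_
  unfold mue
  simp only [← hN]
  have ht' : t⁻¹ * t = 1 := inv_mul_cancel₀ ht.ne'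
  by_cases he : N.inE S e
  · simp only [if_pos he]
    by_cases hz : y (.inl (N.u e)) = 0 ∧ y (.inl (N.v e)) = 0
    · have huv : y (.inl (N.u e)) = y (.inl (N.v e)) := hz.1.trans hz.2.symm
      by_cases hk : y (.inr (N.f e)) = y (.inr (N.g e))
      · cases hw : w e
        · simp [hz, hk, ht']
        · simp [hz, hk, mul_sub, ht']
      · cases hw : w e <;> simp [hz, hk]
    · cases hw : w e <;> simp [hz]
  · simp [he]

/-- Summation over the edge variables: the marks. -/
theorem sum_coin {t : ℝ} (ht : 0 < t) (ht1 : t ≤ 1) {B F : Finset (ℤ × ℤ)}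
    {y : VB B ⊕ FB B → ℤ} (h : (boxN B).HS (inB B F) y) (H : (EB B → Bool) → ℝ) :
    ∑ w : EB B → Bool, (boxN B).Φ t (inB B F) (Net.toCf y w) * H w =
      (boxN B).hw t⁻¹ (inB B F) y *
        ∫ ξ, H (fun e => !(blM F (xt y) ξ (we e))) ∂(FB.mkm t) := by
  have e1 : ∀ ξ : FB.Mk, (fun e : EB B => !(blM F (xt y) ξ (we e))) =
      fun e => rve (inB B F) y e (ξ (we e)) := fun ξ => funext fun e => rve_eq y ξ e
  simp only [e1]
  have e2 := mkm_fin ht.le ht1 (we_inj (B := B)) (fun η => H (fun e => rve (inB B F) y e (η e)))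
  have e3 := sum_fiber (fun e b => rve (inB B F) y e b) (fun _ => Finset.univ)
    (fun _ _ => Finset.mem_univ _) (fun _ b => if b = true then t else 1 - t) H
  rw [Fintype.piFinset_univ] at e3
  have e4 : ∑ η : EB B → Bool, (∏ e, (if η e = true then t else 1 - t)) *
      H (fun e => rve (inB B F) y e (η e)) =
      ∑ w : EB B → Bool, (∏ e, mue t (inB B F) y e (w e)) * H w := by
    refine Eq.trans ?_ (e3.trans ?_)
    · exact Finset.sum_congr (Finset.ext fun _ => by simp) fun _ _ => rfl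
    · refine Finset.sum_congr (Finset.ext fun _ => by simp) fun w _ => ?_
      congr 1
      refine Finset.prod_congr rfl fun e _ => ?_
      rw [← sum_rve]
  have e5 := e2.trans (Eq.trans (Finset.sum_congr (Finset.ext fun _ => by simp)
    fun _ _ => rfl) e4)
  refine Eq.trans ?_ (congrArg (fun z => (boxN B).hw t⁻¹ (inB B F) y * z) e5).symm
  rw [Finset.mul_sum]
  refine Finset.sum_congr (Finset.ext fun _ => by simp) fun w _ => ?_
  rw [Phi_prod ht h, mul_assoc]

/-- The bridge for functions of the heights and the blocked edges. -/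
theorem J_zsM {B F : Finset (ℤ × ℤ)} (hB : Nb B F) {K : ℕ} (hK : KF F ≤ K) {t : ℝ} (ht : 0 < t)
    (ht1 : t ≤ 1) (A : (Site → ℤ) → FB.Mk → ℝ) :
    (boxN B).J (K := K) t Net.κ6 (Net.β6 t) (fun x s => (boxN B).zbi (inB B F) x *
        A (sgh F x s) (bwM ((boxN B).wx x)))
      = Cst t B F * zs t⁻¹ F (fun x => ∫ ξ, A x (blM F x ξ) ∂(FB.mkm t)) := by
  have hFB : F ⊆ B := fun f hf => hB.mem hf
  rw [zs_eq hB hK]
  set N := boxN B with hN
  have h1 := Net.bridge_sum (K := K) N ht (inB B F)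
    (fun y => A (xt (Sum.elim y.h y.k)) (bwM y.w))
  have e1 : (fun (x : Net.Cfg (VB B) (FB B) (EB B) K) (s : VB B ⊕ FB B → Bool) =>
      N.zbi (inB B F) x * A (xt (Sum.elim (N.img (inB B F) x s).h (N.img (inB B F) x s).k))
        (bwM (N.img (inB B F) x s).w)) =
      fun x s => N.zbi (inB B F) x * A (sgh F x s) (bwM (N.wx x)) := by
    funext x s
    by_cases hz : N.zb (inB B F) x
    · have e2 : (Sum.elim (N.img (inB B F) x s).h (N.img (inB B F) x s).k : VB B ⊕ FB B → ℤ) =
          fun i => Net.pv (V := VB B) (inB B F) i (x.1 i, s i) := by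
        funext i
        rcases i with v | f <;> rfl
      have e3 : (N.img (inB B F) x s).w = N.wx x := by
        funext e
        rw [Bool.eq_iff_iff, Net.img_w_true, Net.wx_true]
        refine ⟨fun h => h.2, fun h => ⟨?_, h⟩⟩
        by_contra he
        apply h
        have hu : ¬ N.inD (inB B F) (.inl (N.u e)) := fun h' =>
          he ⟨h' _ (N.huf e), h' _ (N.hug e)⟩
        have hv : ¬ N.inD (inB B F) (.inl (N.v e)) := fun h' =>
          he ⟨h' _ (N.hvf e), h' _ (N.hvg e)⟩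
        exact ⟨hz.1 _ hu, hz.1 _ hv, hz.2 e he⟩
      rw [e2, e3]
      rfl
    · have h0 : N.zbi (inB B F) x = 0 := if_neg hz
      rw [h0, zero_mul, zero_mul]
  rw [e1] at h1
  rw [h1]
  have e5 : (t ^ Fintype.card (EB B) * 2 ^ (Finset.univ.filter
      (fun f : FB B => f ∉ inB B F)).card : ℝ) = Cst t B F := rfl
  refine congrArg₂ (· * ·) e5 ?_
  unfold Net.TTs
  refine Finset.sum_congr rfl fun y _ => ?_
  by_cases hy : N.HS (inB B F) y
  · rw [if_pos hy]
    have e6 := sum_coin (F := F) ht ht1 hy (fun w => A (xt y) (bwM w))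
    have e7 : ∀ ξ : FB.Mk, (bwM (B := B) fun e => !(blM F (xt y) ξ (we e))) =
        blM F (xt y) ξ := fun ξ => bwM_blM hFB (xt y) ξ
    simp only [e7] at e6
    rw [← e6]
    refine Finset.sum_congr (Finset.ext fun _ => by simp) fun w _ => ?_
    have e4 : (Sum.elim (Net.toCf y w : FC.Cf (VB B) (FB B) (EB B)).h (Net.toCf y w).k :
        VB B ⊕ FB B → ℤ) = y := by
      funext i
      rcases i with v | f <;> rfl
    rw [e4]
    rfl
  · rw [if_neg hy, zero_mul]
    refine Finset.sum_eq_zero fun w _ => ?_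
    have h0 : N.Φ t (inB B F) (Net.toCf y w) = 0 := by
      unfold Net.Φ
      rw [if_neg]
      intro hC
      exact hy ⟨hC.1, hC.2.1, hC.2.2.1, hC.2.2.2.1⟩
    rw [h0, zero_mul]

/-- Quotients of `J` are zero boundary expectations, functions of the heights and the blocked
edges. -/
theorem J_zeM {B F : Finset (ℤ × ℤ)} (hB : Nb B F) {K : ℕ} (hK : KF F ≤ K) {t : ℝ} (ht : 0 < t)
    (ht1 : t ≤ 1) (A : (Site → ℤ) → FB.Mk → ℝ) :
    (boxN B).J (K := K) t Net.κ6 (Net.β6 t) (fun x s => (boxN B).zbi (inB B F) x *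
        A (sgh F x s) (bwM ((boxN B).wx x)))
      = (boxN B).J (K := K) t Net.κ6 (Net.β6 t) (fun x _ => (boxN B).zbi (inB B F) x) *
        zeM t⁻¹ F A := by
  have h1 := J_zsM hB hK ht ht1 A
  have h2 := J_zs hB hK ht (fun _ => 1)
  simp only [mul_one] at h2
  have h3 := zs_one_pos F ht ht1
  rw [h1, h2, zeM, inv_inv, ze, mul_assoc, mul_div_cancel₀ _ h3.ne']

end Vale.Agent.P145.FK
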