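import Vale.Agent.P145.FK.ZeM
import Vale.Agent.P145.FK.LowA

/-!
P145: zero boundary expectations of functions of the heights and the blocked edges, in the
coordinates of the six-vertex lattice.
-/

namespace Vale.Agent.P145.FK

open Finset MeasureTheory Vale.Agent.P145.FP Vale.Agent.P145.Dom
open Vale.Agent.P145.FA (Hgt)
open Vale.Agent.P145.FB (Pt Mk)
open scoped Classical

namespace Net

variable {V F E : Type*} [Fintype V] [Fintype F] [Fintype E]

/-- The probability of the value `b` of the edge variable. -/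
noncomputable def mueN (N : Net V F E) (t : ℝ) (S : Set F) (y : V ⊕ F → ℤ) (e : E)
    (b : Bool) : ℝ :=
  if N.inE S e then
    (if y (.inl (N.u e)) = 0 ∧ y (.inl (N.v e)) = 0 then
      (if y (.inr (N.f e)) = y (.inr (N.g e)) then (if b = true then 1 - t else t)
        else (if b = true then 0 else 1))
      else (if b = true then 1 else 0))
  else (if b = true then 0 else 1)

/-- The edge variable as a function of the mark. -/
noncomputable def rveN (N : Net V F E) (S : Set F) (y : V ⊕ F → ℤ) (e : E) (b : Bool) : Bool :=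
  if N.inE S e then
    (if y (.inl (N.u e)) = 0 ∧ y (.inl (N.v e)) = 0 then
      (if y (.inr (N.f e)) = y (.inr (N.g e)) then !b else false) else true)
  else false

omit [Fintype V] [Fintype F] [Fintype E] in
lemma sum_rveN (N : Net V F E) (t : ℝ) (S : Set F) (y : V ⊕ F → ℤ) (e : E) (w : Bool) :
    ∑ z ∈ Finset.univ.filter (fun z => N.rveN S y e z = w), (if z = true then t else 1 - t) =
      N.mueN t S y e w := by
  rw [Finset.sum_filter, Fintype.sum_bool]
  unfold rveN mueN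
  by_cases h : N.inE S e
  · by_cases h1 : y (.inl (N.u e)) = 0 ∧ y (.inl (N.v e)) = 0
    · by_cases h3 : y (.inr (N.f e)) = y (.inr (N.g e))
      · cases w <;> simp [h, h1, h3]
      · cases w <;> simp [h, h1, h3]
    · cases w <;> simp [h, h1]
  · cases w <;> simp [h]

omit [Fintype V] [Fintype F] in
lemma Phi_prodN (N : Net V F E) {t : ℝ} (ht : 0 < t) {S : Set F}
    {y : V ⊕ F → ℤ} (h : N.HS S y) (w : E → Bool) :
    N.Φ t S (toCf y w) = N.hw t⁻¹ S y * ∏ e, N.mueN t S y e (w e) := by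
  unfold Net.hw
  rw [← Finset.prod_mul_distrib]
  have e1 : N.Φ t S (Net.toCf y w) = ∏ e, (if N.inE S e then
      (if w e = false ∧ ¬ (y (.inl (N.u e)) = 0 ∧ y (.inl (N.v e)) = 0) then 0
        else (if y (.inl (N.u e)) = 0 ∧ y (.inl (N.v e)) = 0 then
          (if w e = true then (if y (.inr (N.f e)) = y (.inr (N.g e)) then t⁻¹ - 1 else 0) else 1)
          else (if y (.inl (N.u e)) = y (.inl (N.v e)) ∧ y (.inr (N.f e)) = y (.inr (N.g e))
            then t⁻¹ else 1)))
      else (if w e = true then 0 else 1)) := by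
    unfold Net.Φ
    by_cases hC : Net.toCf y w ∈ FC.Cfg N.toInc (N.UU S) S
    · rw [if_pos hC]
      unfold FC.wt
      refine Finset.prod_congr rfl fun e _ => ?_
      by_cases he : N.inE S e
      · have he' : N.toInc.a e ∈ S ∧ N.toInc.b e ∈ S := he
        rw [if_pos he, if_pos he', if_neg]
        · rfl
        · rintro ⟨hw, hn⟩
          exact hn (hC.2.2.2.2.2 e he.1 he.2 hw)
      · have he' : ¬ (N.toInc.a e ∈ S ∧ N.toInc.b e ∈ S) := he
        have hw : w e = false := hC.2.2.2.2.1 e he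
        rw [if_neg he, if_neg he', if_neg]
        rw [hw]
        simp
    · rw [if_neg hC]
      have hn : ¬ ((∀ e, ¬ N.inE S e → w e = false) ∧
          (∀ e, N.inE S e → w e = false → y (.inl (N.u e)) = 0 ∧ y (.inl (N.v e)) = 0)) := by
        intro h'
        exact hC ⟨h.1, h.2.1, h.2.2.1, h.2.2.2, h'.1, fun e h1 h2 => h'.2 e ⟨h1, h2⟩⟩
      symm
      by_cases h2 : ∀ e, ¬ N.inE S e → w e = false
      · have h3 : ¬ ∀ e, N.inE S e → w e = false → y (.inl (N.u e)) = 0 ∧
            y (.inl (N.v e)) = 0 := fun h' => hn ⟨h2, h'⟩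
        push Not at h3
        obtain ⟨e, he, hw, hz⟩ := h3
        refine Finset.prod_eq_zero (Finset.mem_univ e) ?_
        rw [if_pos he, if_pos]
        exact ⟨hw, fun h' => hz h'.1 h'.2⟩
      · push Not at h2
        obtain ⟨e, he, hw⟩ := h2
        refine Finset.prod_eq_zero (Finset.mem_univ e) ?_
        rw [if_neg he, if_pos]
        simpa using hw
  rw [e1]
  refine Finset.prod_congr rfl fun e _ => ?_
  unfold mueN
  have ht' : t⁻¹ * t = 1 := inv_mul_cancel₀ ht.ne'
  by_cases he : N.inE S e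
  · simp only [if_pos he]
    by_cases hz : y (.inl (N.u e)) = 0 ∧ y (.inl (N.v e)) = 0
    · have huv : y (.inl (N.u e)) = y (.inl (N.v e)) := hz.1.trans hz.2.symm
      by_cases hk : y (.inr (N.f e)) = y (.inr (N.g e))
      · cases hw : w e
        · simp [hz, hk, ht']
        · simp [hz, hk, mul_sub, ht']
      · cases hw : w e <;> simp [hz, hk]
    · cases hw : w e <;> simp [hz]
  · simp [he]

omit [Fintype V] [Fintype F] in
/-- Summation over the edge variables: the marks. -/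
theorem sum_coinN (N : Net V F E) {t : ℝ} (ht : 0 < t) (ht1 : t ≤ 1) {S : Set F}
    {y : V ⊕ F → ℤ} (h : N.HS S y) {g : E → ℤ × ℤ} (hg : Function.Injective g)
    (H : (E → Bool) → ℝ) :
    ∑ w : E → Bool, N.Φ t S (toCf y w) * H w =
      N.hw t⁻¹ S y * ∫ ξ, H (fun e => N.rveN S y e (ξ (g e))) ∂(FB.mkm t) := by
  have e2 := mkm_fin ht.le ht1 hg (fun η => H (fun e => N.rveN S y e (η e)))
  have e3 := sum_fiber (fun e b => N.rveN S y e b) (fun _ => Finset.univ)
    (fun _ _ => Finset.mem_univ _) (fun _ b => if b = true then t else 1 - t) H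
  rw [Fintype.piFinset_univ] at e3
  have e4 : ∑ η : E → Bool, (∏ e, (if η e = true then t else 1 - t)) *
      H (fun e => N.rveN S y e (η e)) =
      ∑ w : E → Bool, (∏ e, N.mueN t S y e (w e)) * H w := by
    refine Eq.trans ?_ (e3.trans ?_)
    · exact Finset.sum_congr (Finset.ext fun _ => by simp) fun _ _ => rfl
    · refine Finset.sum_congr (Finset.ext fun _ => by simp) fun w _ => ?_
      congr 1
      refine Finset.prod_congr rfl fun e _ => ?_
      rw [← sum_rveN]
  have e5 := e2.trans (Eq.trans (Finset.sum_congr (Finset.ext fun _ => by simp)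
    fun _ _ => rfl) e4)
  refine Eq.trans ?_ (congrArg (fun z => N.hw t⁻¹ S y * z) e5).symm
  rw [Finset.mul_sum]
  refine Finset.sum_congr (Finset.ext fun _ => by simp) fun w _ => ?_
  rw [N.Phi_prodN ht h, mul_assoc]

/-- The bridge for functions of the heights and of the edge variables. -/
theorem bridge_coin (N : Net V F E) {K : ℕ} {t : ℝ} (ht : 0 < t) (ht1 : t ≤ 1) (S : Set F)
    {g : E → ℤ × ℤ} (hg : Function.Injective g) (H : (V ⊕ F → ℤ) → (E → Bool) → ℝ) :
    N.J (K := K) t κ6 (β6 t) (fun x s => N.zbi S x *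
        H (fun i => pv (V := V) S i (x.1 i, s i)) (N.wx x))
      = (t ^ Fintype.card E * 2 ^ (Finset.univ.filter (fun f => f ∉ S)).card) *
        ∑ y ∈ TTs (V := V) K S, (if N.HS S y then N.hw t⁻¹ S y else 0) *
          ∫ ξ, H y (fun e => N.rveN S y e (ξ (g e))) ∂(FB.mkm t) := by
  have h1 := bridge_sum (K := K) N ht S (fun y => H (Sum.elim y.h y.k) y.w)
  have e1 : (fun (x : Cfg V F E K) (s : V ⊕ F → Bool) => N.zbi S x *
      H (Sum.elim (N.img S x s).h (N.img S x s).k) (N.img S x s).w) =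
      fun x s => N.zbi S x * H (fun i => pv (V := V) S i (x.1 i, s i)) (N.wx x) := by
    funext x s
    by_cases hz : N.zb S x
    · have e2 : (Sum.elim (N.img S x s).h (N.img S x s).k : V ⊕ F → ℤ) =
          fun i => Net.pv (V := V) S i (x.1 i, s i) := by
        funext i
        rcases i with v | f <;> rfl
      have e3 : (N.img S x s).w = N.wx x := by
        funext e
        rw [Bool.eq_iff_iff, Net.img_w_true, Net.wx_true]
        refine ⟨fun h => h.2, fun h => ⟨?_, h⟩⟩
        by_contra he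
        apply h
        have hu : ¬ N.inD S (.inl (N.u e)) := fun h' =>
          he ⟨h' _ (N.huf e), h' _ (N.hug e)⟩
        have hv : ¬ N.inD S (.inl (N.v e)) := fun h' =>
          he ⟨h' _ (N.hvf e), h' _ (N.hvg e)⟩
        exact ⟨hz.1 _ hu, hz.1 _ hv, hz.2 e he⟩
      rw [e2, e3]
    · have h0 : N.zbi S x = 0 := if_neg hz
      rw [h0, zero_mul, zero_mul]
  rw [e1] at h1
  rw [h1]
  congr 1
  unfold Net.TTs
  refine Finset.sum_congr rfl fun y _ => ?_
  by_cases hy : N.HS S y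
  · rw [if_pos hy]
    have e6 := N.sum_coinN ht ht1 hy hg (fun w => H y w)
    rw [← e6]
    refine Finset.sum_congr (Finset.ext fun _ => by simp) fun w _ => ?_
    have e4 : (Sum.elim (Net.toCf y w : FC.Cf V F E).h (Net.toCf y w).k :
        V ⊕ F → ℤ) = y := by
      funext i
      rcases i with v | f <;> rfl
    rw [e4]
    rfl
  · rw [if_neg hy, zero_mul]
    refine Finset.sum_eq_zero fun w _ => ?_
    have h0 : N.Φ t S (Net.toCf y w) = 0 := by
      unfold Net.Φ
      rw [if_neg]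
      intro hC
      exact hy ⟨hC.1, hC.2.1, hC.2.2.1, hC.2.2.2.1⟩
    rw [h0, zero_mul]

end Net

/-- `A` depends on the heights at the even faces and on the blocked vertices of `B`. -/
def EvM (B : Finset (ℤ × ℤ)) (A : Hgt → Set Pt → ℝ) : Prop :=
  ∀ h h' b b', (∀ q : ℤ × ℤ, Even (q.1 + q.2) → h q = h' q) →
    (∀ w ∈ FC.VB B, (w ∈ b ↔ w ∈ b')) → A h b = A h' b'

lemma intE_iff {F : Set (ℤ × ℤ)} {w : ℤ × ℤ} : intE F w ↔ In6 F w := by
  unfold intE In6
  constructor
  · rintro ⟨⟨f, hf, h1⟩, ⟨g, hg, h2⟩⟩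
    exact ⟨⟨f, hf, h1.symm⟩, ⟨g, hg, h2.symm⟩⟩
  · rintro ⟨⟨f, hf, h1⟩, ⟨g, hg, h2⟩⟩
    exact ⟨⟨f, hf, h1.symm⟩, ⟨g, hg, h2.symm⟩⟩

lemma ex6_even {B : Finset (ℤ × ℤ)} {y y' : V6 B ⊕ F6 B → ℤ} (h : ∀ v, y (.inl v) = y' (.inl v))
    {q : ℤ × ℤ} (hq : Even (q.1 + q.2)) : ex6 y q = ex6 y' q := by
  unfold ex6
  by_cases h1 : q ∈ ev6 B
  · rw [dif_pos h1, dif_pos h1, h]
  · have h2 : q ∉ od6 B := fun h' => (mem_od6.1 h').2 hq
    rw [dif_neg h1, dif_neg h1, dif_neg h2, dif_neg h2]

lemma blM_rve {B F : Finset (ℤ × ℤ)} (y : V6 B ⊕ F6 B → ℤ) (ξ : FB.Mk) (w : E6 B) :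
    blM F (fun s => ex6 y (fc s)) ξ w.1 = true ↔
      (n6 B).rveN (in6 B F) y w (ξ w.1) = false := by
  have hx : ∀ q, ex6 y (fc (cf q)) = ex6 y q := fun q => by rw [fc_cf]
  have e1 : ex6 y (FB.e1 w.1) = y (.inl ((n6 B).u w)) := ex6_inl y ((n6 B).u w)
  have e2 : ex6 y (FB.e2 w.1) = y (.inl ((n6 B).v w)) := ex6_inl y ((n6 B).v w)
  have e3 : ex6 y (FB.o1 w.1) = y (.inr ((n6 B).f w)) := ex6_inr y ((n6 B).f w)
  have e4 : ex6 y (FB.o2 w.1) = y (.inr ((n6 B).g w)) := ex6_inr y ((n6 B).g w)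
  unfold blM Net.rveN
  simp only [hx, e1, e2, e3, e4]
  by_cases h : (n6 B).inE (in6 B F) w
  · rw [if_pos (intE_iff.2 ((inE_iff w).1 h)), if_pos h]
    by_cases h1 : y (.inl ((n6 B).u w)) = 0
    · by_cases h2 : y (.inl ((n6 B).v w)) = 0
      · by_cases h3 : y (.inr ((n6 B).f w)) = y (.inr ((n6 B).g w))
        · cases h4 : ξ w.1 <;> simp [h1, h2, h3]
        · simp [h1, h2, h3]
      · simp [h2]
    · simp [h1]
  · rw [if_neg (fun h' => h ((inE_iff w).2 (intE_iff.1 h'))), if_neg h]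
    simp

/-- The constant in the bridge. -/
noncomputable def Cst6 (t : ℝ) (B : Finset (ℤ × ℤ)) (F : Set (ℤ × ℤ)) : ℝ :=
  t ^ Fintype.card (E6 B) * 2 ^ (Finset.univ.filter (fun f => f ∉ in6 B F)).card

/-- The bridge for functions of the heights and the blocked edges. -/
theorem Jz_zsM {B F : Finset (ℤ × ℤ)} (hI : NI B) (hB : Nb6 B F) {K : ℕ} (hK : KF F ≤ K)
    {t : ℝ} (ht : 0 < t) (ht1 : t ≤ 1) {A : Hgt → Set Pt → ℝ} (hA : EvM B A) :
    Jz B K t F A = Cst6 t B F *
      zs t⁻¹ F (fun x => ∫ ξ, A (fun q => x (cf q)) {w | blM F x ξ w = true} ∂(FB.mkm t)) := by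
  have h1 := (n6 B).bridge_coin (K := K) ht ht1 (in6 B F)
    (g := fun w : E6 B => w.1) Subtype.val_injective
    (fun y u => A (ex6 y) {w | ∃ h : w ∈ FC.VB B, u ⟨w, h⟩ = false})
  rw [zs6_eq hI hB hK]
  refine Eq.trans ?_ (h1.trans ?_)
  · unfold Jz
    congr 1
    funext x s
    congr 1
    refine hA _ _ _ _ (fun q hq => ?_) (fun w hw => ?_)
    · unfold hg6
      refine ex6_even ?_ hq
      intro v
      rfl
    constructor
    · rintro ⟨h, hb⟩
      refine ⟨h, ?_⟩
      by_contra h'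
      rw [Bool.not_eq_false, Net.wx_true] at h'
      exact h' hb
    · rintro ⟨h, hb⟩
      refine ⟨h, ?_⟩
      by_contra h'
      rw [← Net.wx_true] at h'
      rw [hb] at h'
      exact Bool.noConfusion h'
  · unfold Cst6
    refine congrArg _ (Finset.sum_congr rfl fun y _ => ?_)
    congr 1
    refine integral_congr_ae (Filter.Eventually.of_forall fun ξ => ?_)
    have hx : (fun q => ex6 y (fc (cf q))) = ex6 y := by
      funext q
      rw [fc_cf]
    simp only [hx]
    refine hA _ _ _ _ (fun q _ => rfl) (fun w hw => ?_)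
    constructor
    · rintro ⟨h, hb⟩
      exact (blM_rve y ξ ⟨w, h⟩).2 hb
    · intro h
      exact ⟨hw, (blM_rve y ξ ⟨w, hw⟩).1 h⟩

/-- The zero boundary sums of the box in terms of the zero boundary expectation. -/
theorem Jz_zeM {B F : Finset (ℤ × ℤ)} (hI : NI B) (hB : Nb6 B F) {K : ℕ} (hK : KF F ≤ K)
    {t : ℝ} (ht : 0 < t) (ht1 : t ≤ 1) {A : Hgt → Set Pt → ℝ} (hA : EvM B A) :
    Jz B K t F A = Jz B K t F (fun _ _ => 1) *
      zeM t⁻¹ F (fun x b => A (fun q => x (cf q)) {w | b w = true}) := by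
  have h1 := Jz_zsM hI hB hK ht ht1 hA
  have h2 := Jz_zsM hI hB hK ht ht1 (A := fun _ _ => 1) (fun _ _ _ _ _ _ => rfl)
  simp only [integral_const, probReal_univ, smul_eq_mul, mul_one] at h2
  have h3 := zs_one_pos F ht ht1
  rw [h1, h2, zeM, inv_inv, ze, mul_assoc, mul_div_cancel₀ _ h3.ne']

end Vale.Agent.P145.FK
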